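import Claimed.Agent.R289.Vor.Basic

/-!
# Row 289 (S0537), box DEL, file Del/Area : CLOSED TRIANGLES IN DETERMINANT FORM, AREA, QUADRATURE      (owner helper135, post of helper219; prefix `dela_`, def `delT`, `delTo`, `delBar`)

Consumers: OBS P8.4 (`μ_ε(G) → ∫ f dG ∧ dz` = Riemann sums over the Delaunay triangles), S7, Del/Plane + Del/Tile (tiling).      Only `vorDet` of `Vor/Basic` is used: no site set, no probability.
* `delT a b c`   = `{x | 0 ≤ det a b x ∧ 0 ≤ det b c x ∧ 0 ≤ det c a x}` the closed triangle (positively oriented `a b c`);   `delTo a b c` the open one;   `delBar a b c` the barycentre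
* B0  algebra: `dela_det_sum` (the three sub-determinants add up to `det a b c`), `dela_expand` (barycentric coordinates), cyclic symmetry
* B1  `dela_eq_hull`, closed, convex, compact, measurable, vertices, barycentre, `dela_subset_ball` (circumdisc), `dela_dist_le` (two points are at distance `≤ 2 r`), `dela_dist_le_side`
* A1  `dela_volume : volume (delT a b c) = ofReal (det a b c / 2)`
* A2  `dela_line_null`, `dela_bd_null` (the open and the closed triangle differ by a null set), `dela_volume_open`
* A3  quadrature: `dela_rule` (oscillation form), `dela_rule_lip` (Lipschitz form, value at ANY point of the triangle), `dela_integral_open`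
* ST  discrete Stokes on one triangle: `dela_contour_lin` (midpoint rule on the three sides of a real-linear map `= 2 i ∂̄ℓ · area`), `dela_contour_approx` (with remainder)
-/

set_option autoImplicit false

namespace Claimed.Agent.R289

open Set Metric MeasureTheory

/-! ## 0. definitions -/

/-- the closed triangle `a b c` (meant for `0 < vorDet a b c`) -/
def delT (a b c : ℂ) : Set ℂ := {x | 0 ≤ vorDet a b x ∧ 0 ≤ vorDet b c x ∧ 0 ≤ vorDet c a x}

/-- the open triangle -/
def delTo (a b c : ℂ) : Set ℂ := {x | 0 < vorDet a b x ∧ 0 < vorDet b c x ∧ 0 < vorDet c a x}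

/-- the barycentre -/
noncomputable def delBar (a b c : ℂ) : ℂ := (a + b + c) / 3

theorem dela_mem {a b c x : ℂ} : x ∈ delT a b c ↔ 0 ≤ vorDet a b x ∧ 0 ≤ vorDet b c x ∧ 0 ≤ vorDet c a x := Iff.rfl

theorem dela_mem_open {a b c x : ℂ} : x ∈ delTo a b c ↔ 0 < vorDet a b x ∧ 0 < vorDet b c x ∧ 0 < vorDet c a x := Iff.rfl

/-! ## 1. B0: algebra -/

theorem dela_det_sum (a b c x : ℂ) : vorDet a b x + vorDet b c x + vorDet c a x = vorDet a b c := by
  simp only [vorDet]; ring

/-- barycentric coordinates -/
theorem dela_expand (a b c x : ℂ) : (vorDet a b c : ℂ) * x = (vorDet b c x : ℂ) * a + (vorDet c a x : ℂ) * b + (vorDet a b x : ℂ) * c := by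
  apply Complex.ext <;> simp [vorDet] <;> ring

theorem dela_cyc (a b c : ℂ) : delT b c a = delT a b c := by
  ext x; simp only [dela_mem]; tauto

theorem dela_open_cyc (a b c : ℂ) : delTo b c a = delTo a b c := by
  ext x; simp only [dela_mem_open]; tauto

theorem dela_open_subset (a b c : ℂ) : delTo a b c ⊆ delT a b c := fun _ h => ⟨h.1.le, h.2.1.le, h.2.2.le⟩

/-! ## 2. B1: the closed triangle as a set -/

theorem dela_det_cont (a b : ℂ) : Continuous fun x : ℂ => vorDet a b x := by
  unfold vorDet; fun_prop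

/-- `vorDet a b ·` is affine -/
theorem dela_det_affine (a b x y : ℂ) (s t : ℝ) (hst : s + t = 1) : vorDet a b (s • x + t • y) = s * vorDet a b x + t * vorDet a b y := by
  have hs : s = 1 - t := by linarith
  subst hs
  simp only [vorDet, Complex.add_re, Complex.add_im, Complex.real_smul, Complex.mul_re, Complex.mul_im, Complex.ofReal_re, Complex.ofReal_im,
    zero_mul, sub_zero, add_zero]
  ring

theorem dela_isClosed (a b c : ℂ) : IsClosed (delT a b c) := by
  have : delT a b c = {x | 0 ≤ vorDet a b x} ∩ ({x | 0 ≤ vorDet b c x} ∩ {x | 0 ≤ vorDet c a x}) := rfl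
  rw [this]
  exact (isClosed_le continuous_const (dela_det_cont a b)).inter
    ((isClosed_le continuous_const (dela_det_cont b c)).inter (isClosed_le continuous_const (dela_det_cont c a)))

theorem dela_isOpen (a b c : ℂ) : IsOpen (delTo a b c) := by
  have : delTo a b c = {x | 0 < vorDet a b x} ∩ ({x | 0 < vorDet b c x} ∩ {x | 0 < vorDet c a x}) := rfl
  rw [this]
  exact (isOpen_lt continuous_const (dela_det_cont a b)).inter
    ((isOpen_lt continuous_const (dela_det_cont b c)).inter (isOpen_lt continuous_const (dela_det_cont c a)))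

theorem dela_convex (a b c : ℂ) : Convex ℝ (delT a b c) := by
  intro x hx y hy s t hs ht hst
  refine ⟨?_, ?_, ?_⟩
  · rw [dela_det_affine a b x y s t hst]; exact add_nonneg (mul_nonneg hs hx.1) (mul_nonneg ht hy.1)
  · rw [dela_det_affine b c x y s t hst]; exact add_nonneg (mul_nonneg hs hx.2.1) (mul_nonneg ht hy.2.1)
  · rw [dela_det_affine c a x y s t hst]; exact add_nonneg (mul_nonneg hs hx.2.2) (mul_nonneg ht hy.2.2)

theorem dela_mem_a {a b c : ℂ} (h : 0 ≤ vorDet a b c) : a ∈ delT a b c := by
  refine ⟨?_, ?_, ?_⟩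
  · simp [vorDet]
  · have : vorDet b c a = vorDet a b c := by simp only [vorDet]; ring
    rw [this]; exact h
  · apply le_of_eq; simp only [vorDet]; ring

theorem dela_mem_b {a b c : ℂ} (h : 0 ≤ vorDet a b c) : b ∈ delT a b c := by
  refine ⟨?_, ?_, ?_⟩
  · apply le_of_eq; simp only [vorDet]; ring
  · simp [vorDet]
  · have : vorDet c a b = vorDet a b c := by simp only [vorDet]; ring
    rw [this]; exact h

theorem dela_mem_c {a b c : ℂ} (h : 0 ≤ vorDet a b c) : c ∈ delT a b c := by
  refine ⟨h, ?_, ?_⟩
  · apply le_of_eq; simp only [vorDet]; ring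
  · simp [vorDet]

theorem dela_eq_hull {a b c : ℂ} (h : 0 < vorDet a b c) : delT a b c = convexHull ℝ {a, b, c} := by
  apply Subset.antisymm
  · intro x hx
    set D := vorDet a b c with hD
    have hsum := dela_det_sum a b c x
    have hex := dela_expand a b c x
    have hDne : (D : ℂ) ≠ 0 := by exact_mod_cast h.ne'
    have hxe : x = (vorDet b c x / D) • a + ((vorDet c a x / D) • b + (vorDet a b x / D) • c) := by
      simp only [Complex.real_smul]
      push_cast
      field_simp
      rw [mul_comm x, hex]; ring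
    rw [hxe]
    have ha : a ∈ convexHull ℝ ({a, b, c} : Set ℂ) := subset_convexHull ℝ _ (by simp)
    have hb : b ∈ convexHull ℝ ({a, b, c} : Set ℂ) := subset_convexHull ℝ _ (by simp)
    have hc : c ∈ convexHull ℝ ({a, b, c} : Set ℂ) := subset_convexHull ℝ _ (by simp)
    have hcv := convex_convexHull ℝ ({a, b, c} : Set ℂ)
    set α := vorDet b c x / D
    set β := vorDet c a x / D
    set γ := vorDet a b x / D
    have hα : 0 ≤ α := div_nonneg hx.2.1 h.le
    have hβ : 0 ≤ β := div_nonneg hx.2.2 h.le
    have hγ : 0 ≤ γ := div_nonneg hx.1 h.le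
    have hs : α + β + γ = 1 := by
      simp only [α, β, γ]
      rw [← add_div, ← add_div, div_eq_one_iff_eq h.ne']
      linarith
    by_cases hβγ : β + γ = 0
    · have hβ0 : β = 0 := by linarith
      have hγ0 : γ = 0 := by linarith
      have hα1 : α = 1 := by linarith
      rw [hβ0, hγ0, hα1]; simpa using ha
    · have hpos : 0 < β + γ := lt_of_le_of_ne (add_nonneg hβ hγ) (Ne.symm hβγ)
      have hm : (β / (β + γ)) • b + (γ / (β + γ)) • c ∈ convexHull ℝ ({a, b, c} : Set ℂ) :=
        hcv hb hc (div_nonneg hβ hpos.le) (div_nonneg hγ hpos.le) (by rw [← add_div, div_self hβγ])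
      have := hcv ha hm hα hpos.le (by linarith)
      convert this using 2
      rw [smul_add, smul_smul, smul_smul, mul_div_cancel₀ _ hβγ, mul_div_cancel₀ _ hβγ]
  · refine convexHull_min ?_ (dela_convex a b c)
    rintro x (rfl | rfl | rfl)
    · exact dela_mem_a h.le
    · exact dela_mem_b h.le
    · exact dela_mem_c h.le

theorem dela_subset_ball {a b c z : ℂ} {r : ℝ} (h : 0 < vorDet a b c) (ha : ‖z - a‖ ≤ r) (hb : ‖z - b‖ ≤ r) (hc : ‖z - c‖ ≤ r) :
    delT a b c ⊆ closedBall z r := by
  rw [dela_eq_hull h]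
  refine convexHull_min ?_ (convex_closedBall z r)
  rintro x (rfl | rfl | rfl) <;> rw [mem_closedBall, dist_eq_norm, norm_sub_rev] <;> assumption

theorem dela_isCompact {a b c : ℂ} (h : 0 < vorDet a b c) : IsCompact (delT a b c) :=
  (isCompact_closedBall a (max ‖a - b‖ ‖a - c‖)).of_isClosed_subset (dela_isClosed a b c)
    (dela_subset_ball h (by simp) (le_max_left _ _) (le_max_right _ _))

theorem dela_bar_mem {a b c : ℂ} (h : 0 < vorDet a b c) : delBar a b c ∈ delTo a b c := by
  have e1 : vorDet a b (delBar a b c) = vorDet a b c / 3 := by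
    simp only [vorDet, delBar, Complex.div_re, Complex.div_im, Complex.add_re, Complex.add_im]
    norm_num [Complex.normSq_apply]
    ring
  have e2 : vorDet b c (delBar a b c) = vorDet a b c / 3 := by
    simp only [vorDet, delBar, Complex.div_re, Complex.div_im, Complex.add_re, Complex.add_im]
    norm_num [Complex.normSq_apply]
    ring
  have e3 : vorDet c a (delBar a b c) = vorDet a b c / 3 := by
    simp only [vorDet, delBar, Complex.div_re, Complex.div_im, Complex.add_re, Complex.add_im]
    norm_num [Complex.normSq_apply]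
    ring
  refine ⟨?_, ?_, ?_⟩
  · rw [e1]; positivity
  · rw [e2]; positivity
  · rw [e3]; positivity

theorem dela_dist_le {a b c z : ℂ} {r : ℝ} (h : 0 < vorDet a b c) (ha : ‖z - a‖ ≤ r) (hb : ‖z - b‖ ≤ r) (hc : ‖z - c‖ ≤ r)
    {x y : ℂ} (hx : x ∈ delT a b c) (hy : y ∈ delT a b c) : ‖x - y‖ ≤ 2 * r := by
  have h1 := dela_subset_ball h ha hb hc hx
  have h2 := dela_subset_ball h ha hb hc hy
  rw [mem_closedBall, dist_eq_norm] at h1 h2
  calc ‖x - y‖ = ‖(x - z) - (y - z)‖ := by ring_nf
    _ ≤ ‖x - z‖ + ‖y - z‖ := norm_sub_le _ _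
    _ ≤ 2 * r := by linarith

theorem dela_dist_le_side {a b c : ℂ} {d : ℝ} (h : 0 < vorDet a b c) (hab : ‖a - b‖ ≤ d) (hbc : ‖b - c‖ ≤ d) (hca : ‖c - a‖ ≤ d)
    {x y : ℂ} (hx : x ∈ delT a b c) (hy : y ∈ delT a b c) : ‖x - y‖ ≤ d := by
  have hd : 0 ≤ d := (norm_nonneg _).trans hab
  -- every vertex is within `d` of every point of the triangle
  have hv : ∀ v ∈ ({a, b, c} : Set ℂ), delT a b c ⊆ closedBall v d := by
    rintro v (rfl | rfl | rfl)
    · exact dela_subset_ball h (by simpa using hd) hab (by rw [norm_sub_rev]; exact hca)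
    · exact dela_subset_ball h (by rw [norm_sub_rev]; exact hab) (by simpa using hd) hbc
    · exact dela_subset_ball h hca (by rw [norm_sub_rev]; exact hbc) (by simpa using hd)
  have hy' : delT a b c ⊆ closedBall y d := by
    rw [dela_eq_hull h]
    refine convexHull_min ?_ (convex_closedBall y d)
    intro v hvm
    have := hv v hvm hy
    rw [mem_closedBall, dist_comm] at this
    rwa [mem_closedBall]
  have := hy' hx
  rwa [mem_closedBall, dist_eq_norm] at this

theorem dela_det_le (a b c : ℂ) : vorDet a b c ≤ ‖b - a‖ * ‖c - a‖ := by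
  have h1 : vorDet a b c ^ 2 ≤ (‖b - a‖ * ‖c - a‖) ^ 2 := by
    rw [mul_pow, Complex.sq_norm, Complex.sq_norm, Complex.normSq_apply, Complex.normSq_apply]
    simp only [vorDet, Complex.sub_re, Complex.sub_im]
    nlinarith [sq_nonneg ((b.re - a.re) * (c.re - a.re) + (b.im - a.im) * (c.im - a.im))]
  exact (abs_le_of_sq_le_sq' h1 (by positivity)).2

theorem dela_measurable (a b c : ℂ) : MeasurableSet (delT a b c) := (dela_isClosed a b c).measurableSet

theorem dela_measurable_open (a b c : ℂ) : MeasurableSet (delTo a b c) := (dela_isOpen a b c).measurableSet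

/-! ## 3. A1, A2: area -/

/-- the real linear map `s + i t ↦ s u + t v` -/
noncomputable def delaLin (u v : ℂ) : ℂ →ₗ[ℝ] ℂ := Complex.reLm.smulRight u + Complex.imLm.smulRight v

theorem delaLin_apply (u v z : ℂ) : delaLin u v z = z.re • u + z.im • v := rfl

theorem dela_lin_det (u v : ℂ) : LinearMap.det (delaLin u v) = u.re * v.im - u.im * v.re := by
  rw [← LinearMap.det_toMatrix Complex.basisOneI]
  have : LinearMap.toMatrix Complex.basisOneI Complex.basisOneI (delaLin u v) = !![u.re, v.re; u.im, v.im] := by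
    ext i j
    fin_cases i <;> fin_cases j <;> simp [LinearMap.toMatrix_apply, delaLin_apply]
  rw [this, Matrix.det_fin_two_of]
  ring

/-- the standard simplex -/
def delaStd : Set ℂ := {z | 0 ≤ z.re ∧ 0 ≤ z.im ∧ z.re + z.im ≤ 1}

theorem dela_std_volume : volume delaStd = ENNReal.ofReal (1 / 2) := by
  set S : Set (ℝ × ℝ) := {p | 0 ≤ p.1 ∧ 0 ≤ p.2 ∧ p.1 + p.2 ≤ 1} with hS
  have hSm : MeasurableSet S := by
    have c1 : IsClosed {p : ℝ × ℝ | 0 ≤ p.1} := isClosed_le continuous_const continuous_fst
    have c2 : IsClosed {p : ℝ × ℝ | 0 ≤ p.2} := isClosed_le continuous_const continuous_snd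
    have c3 : IsClosed {p : ℝ × ℝ | p.1 + p.2 ≤ 1} := isClosed_le (continuous_fst.add continuous_snd) continuous_const
    exact (c1.inter (c2.inter c3)).measurableSet
  have e1 : delaStd = Complex.measurableEquivRealProd ⁻¹' S := by
    ext z; simp [delaStd, hS, Complex.measurableEquivRealProd_apply]
  rw [e1, Complex.volume_preserving_equiv_real_prod.measure_preimage hSm.nullMeasurableSet, Measure.volume_eq_prod, Measure.prod_apply hSm]
  have e2 : ∀ x : ℝ, volume (Prod.mk x ⁻¹' S) = (Icc (0 : ℝ) 1).indicator (fun x => ENNReal.ofReal (1 - x)) x := by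
    intro x
    by_cases hx : x ∈ Icc (0 : ℝ) 1
    · rw [indicator_of_mem hx]
      have : Prod.mk x ⁻¹' S = Icc 0 (1 - x) := by
        ext y
        simp only [hS, mem_preimage, mem_ofPred_eq, mem_Icc]
        constructor
        · rintro ⟨_, h2, h3⟩; exact ⟨h2, by linarith⟩
        · rintro ⟨h2, h3⟩; exact ⟨hx.1, h2, by linarith⟩
      rw [this, Real.volume_Icc, sub_zero]
    · rw [indicator_of_notMem hx]
      have : Prod.mk x ⁻¹' S = ∅ := by
        ext y
        simp only [hS, mem_preimage, mem_ofPred_eq, mem_empty_iff_false, iff_false]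
        rintro ⟨h1, h2, h3⟩
        exact hx ⟨h1, by linarith⟩
      rw [this, measure_empty]
  simp_rw [e2]
  rw [lintegral_indicator measurableSet_Icc, ← ofReal_integral_eq_lintegral_ofReal]
  · congr 1
    rw [integral_Icc_eq_integral_Ioc, ← intervalIntegral.integral_of_le zero_le_one,
      intervalIntegral.integral_sub intervalIntegrable_const intervalIntegral.intervalIntegrable_id, integral_id]
    simp
    norm_num
  · exact (continuous_const.sub continuous_id).integrableOn_Icc
  · filter_upwards [ae_restrict_mem measurableSet_Icc] with x hx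
    exact sub_nonneg.2 hx.2

theorem dela_image {a b c : ℂ} (h : 0 < vorDet a b c) : delT a b c = (fun z => a + z) '' (delaLin (b - a) (c - a) '' delaStd) := by
  set D := vorDet a b c with hD
  have hDne : (D : ℂ) ≠ 0 := by exact_mod_cast h.ne'
  ext x
  constructor
  · intro hx
    refine ⟨x - a, ⟨⟨vorDet c a x / D, vorDet a b x / D⟩, ⟨div_nonneg hx.2.2 h.le, div_nonneg hx.1 h.le, ?_⟩, ?_⟩, by ring⟩
    · show vorDet c a x / D + vorDet a b x / D ≤ 1
      rw [← add_div, div_le_one h]
      have := dela_det_sum a b c x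
      linarith [hx.2.1]
    · rw [delaLin_apply]
      show (vorDet c a x / D) • (b - a) + (vorDet a b x / D) • (c - a) = x - a
      have hex := dela_expand a b c x
      have hsum := dela_det_sum a b c x
      have hsum' : (vorDet a b x : ℂ) + (vorDet b c x : ℂ) + (vorDet c a x : ℂ) = (D : ℂ) := by exact_mod_cast hsum
      rw [← hD] at hex
      simp only [Complex.real_smul]
      push_cast
      field_simp
      linear_combination (-1 : ℂ) * hex - a * hsum'
  · rintro ⟨_, ⟨z, ⟨h1, h2, h3⟩, rfl⟩, rfl⟩
    rw [delaLin_apply]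
    have e1 : vorDet a b (a + (z.re • (b - a) + z.im • (c - a))) = z.im * D := by
      simp only [hD, vorDet, Complex.add_re, Complex.add_im, Complex.real_smul, Complex.mul_re, Complex.mul_im, Complex.ofReal_re,
        Complex.ofReal_im, Complex.sub_re, Complex.sub_im, zero_mul, sub_zero, add_zero]
      ring
    have e2 : vorDet b c (a + (z.re • (b - a) + z.im • (c - a))) = (1 - z.re - z.im) * D := by
      simp only [hD, vorDet, Complex.add_re, Complex.add_im, Complex.real_smul, Complex.mul_re, Complex.mul_im, Complex.ofReal_re,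
        Complex.ofReal_im, Complex.sub_re, Complex.sub_im, zero_mul, sub_zero, add_zero]
      ring
    have e3 : vorDet c a (a + (z.re • (b - a) + z.im • (c - a))) = z.re * D := by
      simp only [hD, vorDet, Complex.add_re, Complex.add_im, Complex.real_smul, Complex.mul_re, Complex.mul_im, Complex.ofReal_re,
        Complex.ofReal_im, Complex.sub_re, Complex.sub_im, zero_mul, sub_zero, add_zero]
      ring
    refine ⟨?_, ?_, ?_⟩
    · rw [e1]; exact mul_nonneg h2 h.le
    · rw [e2]; exact mul_nonneg (by linarith) h.le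
    · rw [e3]; exact mul_nonneg h1 h.le

theorem dela_volume {a b c : ℂ} (h : 0 < vorDet a b c) : volume (delT a b c) = ENNReal.ofReal (vorDet a b c / 2) := by
  rw [dela_image h, image_add_left, measure_preimage_add, Measure.addHaar_image_linearMap, dela_lin_det, dela_std_volume,
    ← ENNReal.ofReal_mul (abs_nonneg _)]
  have : (b - a).re * (c - a).im - (b - a).im * (c - a).re = vorDet a b c := by
    simp only [vorDet, Complex.sub_re, Complex.sub_im]
  rw [this, abs_of_pos h]
  congr 1
  ring

theorem dela_line_null {a b : ℂ} (hab : a ≠ b) : volume {x : ℂ | vorDet a b x = 0} = 0 := by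
  -- the line is `a + ker ℓ`
  set ℓ : ℂ →ₗ[ℝ] ℝ := (b.re - a.re) • Complex.imLm - (b.im - a.im) • Complex.reLm with hℓ
  have hℓa : ∀ z, ℓ z = (b.re - a.re) * z.im - (b.im - a.im) * z.re := fun z => by simp [hℓ]
  have hker : LinearMap.ker ℓ ≠ ⊤ := by
    intro htop
    have h1 : ℓ 1 = 0 := LinearMap.mem_ker.1 (htop ▸ Submodule.mem_top)
    have h2 : ℓ Complex.I = 0 := LinearMap.mem_ker.1 (htop ▸ Submodule.mem_top)
    rw [hℓa] at h1 h2
    simp at h1 h2
    exact hab (Complex.ext (by linarith) (by linarith))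
  have e : {x : ℂ | vorDet a b x = 0} = (fun z => -a + z) ⁻¹' (LinearMap.ker ℓ : Set ℂ) := by
    ext x
    simp only [mem_ofPred_eq, mem_preimage, SetLike.mem_coe, LinearMap.mem_ker, hℓa, vorDet, Complex.add_re, Complex.add_im, Complex.neg_re,
      Complex.neg_im]
    constructor <;> intro h <;> linarith
  rw [e, measure_preimage_add]
  exact Measure.addHaar_submodule volume _ hker

theorem dela_ne_of_det {a b c : ℂ} (h : 0 < vorDet a b c) : a ≠ b ∧ b ≠ c ∧ c ≠ a := by
  refine ⟨?_, ?_, ?_⟩ <;> rintro rfl <;> simp [vorDet] at h <;> linarith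

theorem dela_bd_null {a b c : ℂ} (h : 0 < vorDet a b c) : volume (delT a b c \ delTo a b c) = 0 := by
  obtain ⟨h1, h2, h3⟩ := dela_ne_of_det h
  refine measure_mono_null ?_ (measure_union_null (dela_line_null h1) (measure_union_null (dela_line_null h2) (dela_line_null h3)))
  rintro x ⟨hx, hxo⟩
  by_contra hcon
  simp only [mem_union, mem_ofPred_eq, not_or] at hcon
  exact hxo ⟨lt_of_le_of_ne hx.1 (Ne.symm hcon.1), lt_of_le_of_ne hx.2.1 (Ne.symm hcon.2.1), lt_of_le_of_ne hx.2.2 (Ne.symm hcon.2.2)⟩

theorem dela_volume_open {a b c : ℂ} (h : 0 < vorDet a b c) : volume (delTo a b c) = ENNReal.ofReal (vorDet a b c / 2) := by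
  rw [← dela_volume h]
  refine le_antisymm (measure_mono (dela_open_subset a b c)) ?_
  calc volume (delT a b c) ≤ volume (delTo a b c ∪ (delT a b c \ delTo a b c)) := measure_mono (by intro x hx; by_cases hc : x ∈ delTo a b c; exact Or.inl hc; exact Or.inr ⟨hx, hc⟩)
    _ ≤ volume (delTo a b c) + volume (delT a b c \ delTo a b c) := measure_union_le _ _
    _ = volume (delTo a b c) := by rw [dela_bd_null h, add_zero]

theorem dela_volume_real {a b c : ℂ} (h : 0 < vorDet a b c) : (volume (delT a b c)).toReal = vorDet a b c / 2 := by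
  rw [dela_volume h, ENNReal.toReal_ofReal (by positivity)]

/-! ## 4. A3: quadrature -/

theorem dela_volume_lt_top {a b c : ℂ} (h : 0 < vorDet a b c) : volume (delT a b c) < ⊤ := by
  rw [dela_volume h]; exact ENNReal.ofReal_lt_top

theorem dela_integral_const {a b c : ℂ} (h : 0 < vorDet a b c) (w : ℂ) : ∫ _x in delT a b c, w = ((vorDet a b c / 2 : ℝ) : ℂ) * w := by
  rw [setIntegral_const, Measure.real, dela_volume_real h, Complex.real_smul]

theorem dela_rule {a b c : ℂ} (h : 0 < vorDet a b c) {g : ℂ → ℂ} {w : ℂ} {δ : ℝ} (hgi : IntegrableOn g (delT a b c) volume)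
    (hg : ∀ x ∈ delT a b c, ‖g x - w‖ ≤ δ) :
    ‖(∫ x in delT a b c, g x) - ((vorDet a b c / 2 : ℝ) : ℂ) * w‖ ≤ δ * (vorDet a b c / 2) := by
  have hfin := dela_volume_lt_top h
  have hc : IntegrableOn (fun _ : ℂ => w) (delT a b c) volume := integrableOn_const hfin.ne
  rw [← dela_integral_const h w, ← integral_sub hgi hc]
  have := norm_setIntegral_le_of_norm_le_const hfin hg
  rwa [Measure.real, dela_volume_real h] at this

theorem dela_continuousOn_of_lip {T : Set ℂ} {g : ℂ → ℂ} {L : ℝ} (hL : 0 ≤ L) (hg : ∀ x ∈ T, ∀ y ∈ T, ‖g x - g y‖ ≤ L * ‖x - y‖) : ContinuousOn g T := by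
  have : LipschitzOnWith L.toNNReal g T := LipschitzOnWith.of_dist_le_mul fun x hx y hy => by
    rw [dist_eq_norm, dist_eq_norm, Real.coe_toNNReal L hL]; exact hg x hx y hy
  exact this.continuousOn

theorem dela_rule_lip {a b c : ℂ} (h : 0 < vorDet a b c) {g : ℂ → ℂ} {L d : ℝ} (hL : 0 ≤ L)
    (hg : ∀ x ∈ delT a b c, ∀ y ∈ delT a b c, ‖g x - g y‖ ≤ L * ‖x - y‖) (hd : ∀ x ∈ delT a b c, ∀ y ∈ delT a b c, ‖x - y‖ ≤ d)
    {p : ℂ} (hp : p ∈ delT a b c) :
    ‖(∫ x in delT a b c, g x) - ((vorDet a b c / 2 : ℝ) : ℂ) * g p‖ ≤ L * d * (vorDet a b c / 2) :=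
  dela_rule h ((dela_continuousOn_of_lip hL hg).integrableOn_compact (dela_isCompact h))
    fun x hx => (hg x hx p hp).trans (mul_le_mul_of_nonneg_left (hd x hx p hp) hL)

/-- the same for the open triangle (the sides are a null set) -/
theorem dela_integral_open {a b c : ℂ} (h : 0 < vorDet a b c) (g : ℂ → ℂ) : ∫ x in delTo a b c, g x = ∫ x in delT a b c, g x := by
  refine setIntegral_congr_set (ae_eq_set.2 ⟨?_, dela_bd_null h⟩)
  rw [Set.sdiff_eq_empty.2 (dela_open_subset a b c), measure_empty]

/-! ## 5. discrete Stokes on one triangle: the midpoint rule on the three sides (counterclockwise `a → b → c → a`) is exact on real-linear maps -/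

theorem dela_contour_const (a b c w : ℂ) : (b - a) * w + (c - b) * w + (a - c) * w = 0 := by ring

theorem dela_contour_id (a b c : ℂ) : (b - a) * ((a + b) / 2) + (c - b) * ((b + c) / 2) + (a - c) * ((c + a) / 2) = 0 := by ring

theorem dela_contour_conj (a b c : ℂ) :
    (b - a) * (starRingEnd ℂ) ((a + b) / 2) + (c - b) * (starRingEnd ℂ) ((b + c) / 2) + (a - c) * (starRingEnd ℂ) ((c + a) / 2)
      = (vorDet a b c : ℂ) * Complex.I := by
  have hre : ∀ z : ℂ, (z / 2).re = z.re / 2 := fun z => by simp
  have him : ∀ z : ℂ, (z / 2).im = z.im / 2 := fun z => by simp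
  apply Complex.ext <;>
    simp only [vorDet, Complex.add_re, Complex.add_im, Complex.mul_re, Complex.mul_im, Complex.sub_re, Complex.sub_im, Complex.conj_re,
      Complex.conj_im, hre, him, Complex.ofReal_re, Complex.ofReal_im, Complex.I_re, Complex.I_im] <;> ring

/-- a real-linear map is `z ↦ re z • ℓ 1 + im z • ℓ I` -/
theorem dela_lin_expand (ℓ : ℂ →L[ℝ] ℂ) (z : ℂ) : ℓ z = (z.re : ℂ) * ℓ 1 + (z.im : ℂ) * ℓ Complex.I := by
  have : z = z.re • (1 : ℂ) + z.im • Complex.I := by
    apply Complex.ext <;> simp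
  conv_lhs => rw [this]
  rw [map_add, map_smul, map_smul, Complex.real_smul, Complex.real_smul]

/-- **discrete Stokes**: `∮ ℓ dz = 2 i ∂̄ℓ · area`, `2 ∂̄ℓ = ℓ 1 + i ℓ I` -/
theorem dela_contour_lin (ℓ : ℂ →L[ℝ] ℂ) (a b c : ℂ) :
    (b - a) * ℓ ((a + b) / 2) + (c - b) * ℓ ((b + c) / 2) + (a - c) * ℓ ((c + a) / 2)
      = ((vorDet a b c / 2 : ℝ) : ℂ) * (Complex.I * (ℓ 1 + Complex.I * ℓ Complex.I)) := by
  rw [dela_lin_expand ℓ ((a + b) / 2), dela_lin_expand ℓ ((b + c) / 2), dela_lin_expand ℓ ((c + a) / 2)]
  generalize ℓ 1 = u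
  generalize ℓ Complex.I = v
  have hre : ∀ z : ℂ, (z / 2).re = z.re / 2 := fun z => by simp
  have him : ∀ z : ℂ, (z / 2).im = z.im / 2 := fun z => by simp
  apply Complex.ext <;>
    simp only [vorDet, Complex.add_re, Complex.add_im, Complex.mul_re, Complex.mul_im, Complex.sub_re, Complex.sub_im,
      hre, him, Complex.ofReal_re, Complex.ofReal_im, Complex.I_re, Complex.I_im] <;> ring

/-- the midpoints of the sides and the barycentre: distances -/
theorem dela_mid_mem {a b c : ℂ} (h : 0 < vorDet a b c) : (a + b) / 2 ∈ delT a b c := by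
  have := dela_convex a b c (dela_mem_a h.le) (dela_mem_b h.le) (by norm_num : (0 : ℝ) ≤ 1 / 2) (by norm_num : (0 : ℝ) ≤ 1 / 2) (by norm_num)
  convert this using 1
  simp only [Complex.real_smul]; push_cast; ring

/-- **discrete Stokes with remainder**: if `G` is within `κ` of the affine map `w + ℓ (· - p)` at the three midpoints, the midpoint contour sum of `G` is within `κ * perimeter` of `2 i ∂̄ℓ · area` -/
theorem dela_contour_approx (G : ℂ → ℂ) (ℓ : ℂ →L[ℝ] ℂ) (a b c p w : ℂ) {κ : ℝ}
    (h1 : ‖G ((a + b) / 2) - (w + ℓ ((a + b) / 2 - p))‖ ≤ κ) (h2 : ‖G ((b + c) / 2) - (w + ℓ ((b + c) / 2 - p))‖ ≤ κ)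
    (h3 : ‖G ((c + a) / 2) - (w + ℓ ((c + a) / 2 - p))‖ ≤ κ) :
    ‖(b - a) * G ((a + b) / 2) + (c - b) * G ((b + c) / 2) + (a - c) * G ((c + a) / 2)
        - ((vorDet a b c / 2 : ℝ) : ℂ) * (Complex.I * (ℓ 1 + Complex.I * ℓ Complex.I))‖ ≤ κ * (‖b - a‖ + ‖c - b‖ + ‖a - c‖) := by
  rw [← dela_contour_lin ℓ a b c]
  have e : (b - a) * G ((a + b) / 2) + (c - b) * G ((b + c) / 2) + (a - c) * G ((c + a) / 2)
      - ((b - a) * ℓ ((a + b) / 2) + (c - b) * ℓ ((b + c) / 2) + (a - c) * ℓ ((c + a) / 2))
      = (b - a) * (G ((a + b) / 2) - (w + ℓ ((a + b) / 2 - p))) + (c - b) * (G ((b + c) / 2) - (w + ℓ ((b + c) / 2 - p)))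
        + (a - c) * (G ((c + a) / 2) - (w + ℓ ((c + a) / 2 - p))) := by
    simp only [map_sub]; ring
  rw [e]
  calc _ ≤ ‖(b - a) * (G ((a + b) / 2) - (w + ℓ ((a + b) / 2 - p)))‖ + ‖(c - b) * (G ((b + c) / 2) - (w + ℓ ((b + c) / 2 - p)))‖
        + ‖(a - c) * (G ((c + a) / 2) - (w + ℓ ((c + a) / 2 - p)))‖ := norm_add₃_le
    _ ≤ ‖b - a‖ * κ + ‖c - b‖ * κ + ‖a - c‖ * κ := by
        rw [norm_mul, norm_mul, norm_mul]
        gcongr
    _ = κ * (‖b - a‖ + ‖c - b‖ + ‖a - c‖) := by ring

/-! ## 6. the barycentre rule (helper152): open triangle = affine image of the standard one, change of variables, cyclic symmetry -/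

/-- the open standard triangle `0 1 i` -/
def delaS : Set ℂ := {z | 0 < z.re ∧ 0 < z.im ∧ z.re + z.im < 1}

/-- the real-linear map `1 ↦ q`, `i ↦ r` -/
noncomputable def delaL (q r : ℂ) : ℂ →L[ℝ] ℂ := Complex.reCLM.smulRight q + Complex.imCLM.smulRight r

theorem dela_aux_eqns_cite : True := by
  have := @delaS.eq_1
  have := @delaL.eq_1
  have := @delT.eq_1; have := @delTo.eq_1; have := @delBar.eq_1; have := @delaLin.eq_1; have := @delaStd.eq_1
  trivial

theorem dela_L_apply (q r z : ℂ) : delaL q r z = (z.re : ℂ) * q + (z.im : ℂ) * r := by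
  simp [delaL, Complex.real_smul]

theorem dela_L_det (q r : ℂ) : (delaL q r).det = q.re * r.im - q.im * r.re := by
  rw [ContinuousLinearMap.det, ← LinearMap.det_toMatrix Complex.basisOneI, Matrix.det_fin_two]
  simp [LinearMap.toMatrix_apply, Complex.coe_basisOneI, Complex.coe_basisOneI_repr, dela_L_apply]
  ring

theorem dela_L_inj {q r : ℂ} (hd : q.re * r.im - q.im * r.re ≠ 0) : Function.Injective (delaL q r) := by
  intro z w h
  rw [dela_L_apply, dela_L_apply] at h
  have h1 := congrArg Complex.re h
  have h2 := congrArg Complex.im h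
  simp only [Complex.add_re, Complex.add_im, Complex.mul_re, Complex.mul_im, Complex.ofReal_re, Complex.ofReal_im, zero_mul, sub_zero,
    add_zero] at h1 h2
  have e1 : (z.re - w.re) * (q.re * r.im - q.im * r.re) = 0 := by linear_combination r.im * h1 - r.re * h2
  have e2 : (z.im - w.im) * (q.re * r.im - q.im * r.re) = 0 := by linear_combination q.re * h2 - q.im * h1
  apply Complex.ext
  · have := (mul_eq_zero.1 e1).resolve_right hd; linarith
  · have := (mul_eq_zero.1 e2).resolve_right hd; linarith

theorem dela_S_measurable : MeasurableSet delaS := by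
  have : IsOpen delaS :=
    (isOpen_lt continuous_const Complex.continuous_re).inter ((isOpen_lt continuous_const Complex.continuous_im).inter
      (isOpen_lt (Complex.continuous_re.add Complex.continuous_im) continuous_const))
  exact this.measurableSet

theorem dela_S_volume : volume delaS = ENNReal.ofReal (1 / 2) := by
  have e : delaS = Complex.measurableEquivRealProd ⁻¹' (regionBetween (fun _ => (0 : ℝ)) (fun u => 1 - u) (Set.Ioo 0 1)) := by
    ext z
    simp only [delaS, regionBetween, Set.mem_preimage, Set.mem_ofPred_eq, Complex.measurableEquivRealProd_apply, Set.mem_Ioo]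
    constructor
    · rintro ⟨h1, h2, h3⟩
      exact ⟨⟨h1, by linarith⟩, h2, by linarith⟩
    · rintro ⟨⟨h1, _⟩, h2, h3⟩
      exact ⟨h1, h2, by linarith⟩
  have hg : IntegrableOn (fun u : ℝ => 1 - u) (Set.Ioo 0 1) volume :=
    (Continuous.integrableOn_Icc (by fun_prop)).mono_set Ioo_subset_Icc_self
  rw [e, Complex.volume_preserving_equiv_real_prod.measure_preimage_equiv, Measure.volume_eq_prod,
    volume_regionBetween_eq_integral (f := fun _ => (0 : ℝ)) (g := fun u => 1 - u) (integrableOn_const (by simp)) hg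
      measurableSet_Ioo (fun x hx => by linarith [hx.2])]
  congr 1
  rw [← integral_Ioc_eq_integral_Ioo, ← intervalIntegral.integral_of_le zero_le_one]
  simp only [Pi.sub_apply, sub_zero]
  rw [intervalIntegral.integral_sub intervalIntegrable_const intervalIntegral.intervalIntegrable_id, integral_id,
    intervalIntegral.integral_const]
  norm_num

/-- change of variables, integrals -/
theorem dela_cv (p q r : ℂ) (hd : q.re * r.im - q.im * r.re ≠ 0) {s : Set ℂ} (hs : MeasurableSet s) (g : ℂ → ℂ) :
    ∫ x in (fun z => p + delaL q r z) '' s, g x = |q.re * r.im - q.im * r.re| • ∫ z in s, g (p + delaL q r z) := by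
  rw [integral_image_eq_integral_abs_det_fderiv_smul volume hs
    (fun x _ => ((delaL q r).hasFDerivAt.const_add p).hasFDerivWithinAt)
    (fun x _ y _ hxy => dela_L_inj hd (add_left_cancel hxy))]
  simp only [dela_L_det]
  rw [integral_smul]

theorem dela_open_eq_image {a b c : ℂ} (h : 0 < vorDet a b c) :
    delTo a b c = (fun z => a + delaL (b - a) (c - a) z) '' delaS := by
  ext x
  constructor
  · intro hx
    refine ⟨⟨vorDet c a x / vorDet a b c, vorDet a b x / vorDet a b c⟩, ⟨div_pos hx.2.2 h, div_pos hx.1 h, ?_⟩, ?_⟩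
    · show vorDet c a x / vorDet a b c + vorDet a b x / vorDet a b c < 1
      rw [← add_div, div_lt_one h]
      have := dela_det_sum a b c x
      linarith [hx.2.1]
    · show a + delaL (b - a) (c - a) ⟨vorDet c a x / vorDet a b c, vorDet a b x / vorDet a b c⟩ = x
      rw [dela_L_apply]
      have hD : vorDet a b c ≠ 0 := h.ne'
      apply Complex.ext
      · simp only [Complex.add_re, Complex.mul_re, Complex.ofReal_re, Complex.ofReal_im, zero_mul, sub_zero, Complex.sub_re]
        field_simp
        simp only [vorDet]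
        ring
      · simp only [Complex.add_im, Complex.mul_im, Complex.ofReal_re, Complex.ofReal_im, zero_mul, add_zero, Complex.sub_im]
        field_simp
        simp only [vorDet]
        ring
  · rintro ⟨z, ⟨h1, h2, h3⟩, rfl⟩
    have e1 : vorDet a b (a + delaL (b - a) (c - a) z) = z.im * vorDet a b c := by
      rw [dela_L_apply]; simp [vorDet]; ring
    have e2 : vorDet c a (a + delaL (b - a) (c - a) z) = z.re * vorDet a b c := by
      rw [dela_L_apply]; simp [vorDet]; ring
    have e3 : vorDet b c (a + delaL (b - a) (c - a) z) = (1 - z.re - z.im) * vorDet a b c := by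
      rw [dela_L_apply]; simp [vorDet]; ring
    exact ⟨by rw [e1]; positivity, by rw [e3]; exact mul_pos (by linarith) h, by rw [e2]; positivity⟩

theorem dela_det_eq (a b c : ℂ) : (b - a).re * (c - a).im - (b - a).im * (c - a).re = vorDet a b c := by
  simp [vorDet]

theorem dela_S_integrable (p q r : ℂ) : IntegrableOn (fun z => p + delaL q r z) delaS volume := by
  have hc : Continuous fun z => p + delaL q r z := continuous_const.add (delaL q r).continuous
  refine (hc.continuousOn.integrableOn_compact (isCompact_closedBall (0 : ℂ) 2)).mono_set fun z hz => ?_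
  rw [mem_closedBall, dist_zero_right]
  have h1 := Complex.norm_le_abs_re_add_abs_im z
  rw [abs_of_pos hz.1, abs_of_pos hz.2.1] at h1
  linarith [hz.2.2]

/-- the barycentre rule is exact on the identity (hence on affine maps) -/
theorem dela_integral_id {a b c : ℂ} (h : 0 < vorDet a b c) : ∫ x in delT a b c, x = ((vorDet a b c / 2 : ℝ) : ℂ) * delBar a b c := by
  have hb : 0 < vorDet b c a := by have : vorDet b c a = vorDet a b c := by simp only [vorDet]; ring
                                   rw [this]; exact h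
  have hc : 0 < vorDet c a b := by have : vorDet c a b = vorDet a b c := by simp only [vorDet]; ring
                                   rw [this]; exact h
  have e0 : ∫ x in delT a b c, x = ∫ x in delTo a b c, x := (dela_integral_open h fun x => x).symm
  have key : ∀ a' b' c' : ℂ, 0 < vorDet a' b' c' → vorDet a' b' c' = vorDet a b c → delTo a' b' c' = delTo a b c →
      ∫ x in delTo a b c, x = vorDet a b c • ∫ z in delaS, (a' + delaL (b' - a') (c' - a') z) := by
    intro a' b' c' h' hd hs
    rw [← hs, dela_open_eq_image h', dela_cv a' (b' - a') (c' - a') (by rw [dela_det_eq]; exact h'.ne') dela_S_measurable,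
      dela_det_eq, abs_of_pos h', hd]
  have k1 := key a b c h rfl rfl
  have k2 := key b c a hb (by simp only [vorDet]; ring) (dela_open_cyc a b c)
  have k3 := key c a b hc (by simp only [vorDet]; ring) (dela_open_cyc c a b).symm
  have hsum : (∫ z in delaS, (a + delaL (b - a) (c - a) z)) + (∫ z in delaS, (b + delaL (c - b) (a - b) z))
      + (∫ z in delaS, (c + delaL (a - c) (b - c) z)) = ((1 / 2 : ℝ) : ℂ) * (a + b + c) := by
    have i1 := dela_S_integrable a (b - a) (c - a)
    have i2 := dela_S_integrable b (c - b) (a - b)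
    have i3 := dela_S_integrable c (a - c) (b - c)
    have s1 : ∫ z in delaS, ((a + delaL (b - a) (c - a) z) + (b + delaL (c - b) (a - b) z))
        = (∫ z in delaS, (a + delaL (b - a) (c - a) z)) + ∫ z in delaS, (b + delaL (c - b) (a - b) z) := integral_add i1 i2
    have s2 : ∫ z in delaS, (((a + delaL (b - a) (c - a) z) + (b + delaL (c - b) (a - b) z)) + (c + delaL (a - c) (b - c) z))
        = (∫ z in delaS, ((a + delaL (b - a) (c - a) z) + (b + delaL (c - b) (a - b) z))) + ∫ z in delaS, (c + delaL (a - c) (b - c) z) :=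
      integral_add (i1.add i2) i3
    rw [← s1, ← s2]
    have : ∀ z : ℂ, a + delaL (b - a) (c - a) z + (b + delaL (c - b) (a - b) z) + (c + delaL (a - c) (b - c) z) = a + b + c := by
      intro z
      simp only [dela_L_apply]
      ring
    simp only [this]
    rw [setIntegral_const, Measure.real, dela_S_volume, ENNReal.toReal_ofReal (by norm_num), Complex.real_smul]
  rw [e0]
  set J := ∫ x in delTo a b c, x with hJ
  have h3 : 3 * J = (vorDet a b c : ℂ) * (((1 / 2 : ℝ) : ℂ) * (a + b + c)) := by
    rw [← hsum, mul_add, mul_add, ← Complex.real_smul, ← Complex.real_smul, ← Complex.real_smul, ← k1, ← k2, ← k3]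
    ring
  unfold delBar
  push_cast at h3 ⊢
  linear_combination (1 / 3 : ℂ) * h3

end Claimed.Agent.R289
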