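import Claimed.Agent.R289.Del.Main
import Claimed.Agent.R289.Del.Area

/-!
# Row 289 (S0537), box DEL, file Del/Plane : THE DELAUNAY TRIANGULATION OF THE WHOLE PLANE      (owner helper219, under helper253; prefix `delp_`, `DelGood`, `delPl`)

Deterministic, on a site set `Y : Set ℂ`, vocabulary of `Vor/Basic.lean`, `Del/Main.lean` (253) and `Pl/Defs.lean` (57).
* sec. 1  `VorQuad Y` (a site in every open quadrant) ⇒ `vorCell Y v` is bounded for EVERY point `v` (explicit, no compactness);   `DelGood Y` = `VorLF` + `VorGP` + all cells bounded + nonempty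
* sec. 2  the full plane complex: `delp_conn`, `delp_H1` (**H¹(ℤ/2) = 0, all cochains**: boxes `[-n,n]²`, `del_win_H1`, glue), `delPl h : PlTri ↥Y`, `delp_isSph : (delPl h).toMap.IsSph`      (consumer: S1 `orth_inf`, bulk setting = full plane)
* sec. 3  empty discs: a triangle (or a cell) whose closed circumdisc touches `K` is small if `Y` is dense on a collar of `K`;  LOC for the triangles MEETING `K`
* sec. 4  **TILING**: `delT a b c` closed triangle in determinant form; `delp_tile_cover` (every point lies in a closed Delaunay triangle), `delp_tile_disj` (an open triangle meets no other closed triangle)      (consumer: OBS P8.4, S7: Riemann sums)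
-/

set_option autoImplicit false

namespace Claimed.Agent.R289

open Set Metric

/-! ## 1. quadrants, bounded cells, good site sets -/

/-- every open quadrant contains a site -/
def VorQuad (Y : Set ℂ) : Prop := ∀ z : ℂ, (∃ s ∈ Y, z.re < s.re ∧ z.im < s.im) ∧ (∃ s ∈ Y, s.re < z.re ∧ z.im < s.im) ∧
  (∃ s ∈ Y, s.re < z.re ∧ s.im < z.im) ∧ (∃ s ∈ Y, z.re < s.re ∧ s.im < z.im)

/-- the deterministic hypotheses under which the Delaunay complex of the whole plane is a triangulated plane.  `bdd` is asked at EVERY point `v` (site or not): rotation invariant, and it is the coercivity used by the tiling -/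
structure DelGood (Y : Set ℂ) : Prop where
  lf : VorLF Y
  gp : VorGP Y
  bdd : ∀ v : ℂ, Bornology.IsBounded (vorCell Y v)
  ne : Y.Nonempty

theorem delp_eqns_cite : True := by
  have := @VorQuad.eq_1
  trivial

/-- one constraint of a cell, centred at `v` -/
theorem delp_half (z v u : ℂ) : ‖z - v‖ ≤ ‖z - u‖ ↔
    2 * ((z.re - v.re) * (u.re - v.re) + (z.im - v.im) * (u.im - v.im)) ≤ (u.re - v.re) ^ 2 + (u.im - v.im) ^ 2 := by
  rw [vor_half]
  constructor <;> intro h <;> nlinarith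

theorem delp_cell_bdd {Y : Set ℂ} (h : VorQuad Y) (v : ℂ) : Bornology.IsBounded (vorCell Y v) := by
  obtain ⟨⟨s1, h1, a1, b1⟩, ⟨s2, h2, a2, b2⟩, ⟨s3, h3, a3, b3⟩, ⟨s4, h4, a4, b4⟩⟩ := h v
  -- a bound for one quadrant
  have key : ∀ x y p q : ℝ, 0 ≤ x → 0 ≤ y → 0 < p → 0 < q → 2 * (x * p + y * q) ≤ p ^ 2 + q ^ 2 → x ≤ (p ^ 2 + q ^ 2) / p ∧ y ≤ (p ^ 2 + q ^ 2) / q := by
    intro x y p q hx hy hp hq hh
    constructor
    · rw [le_div_iff₀ hp]; nlinarith [mul_nonneg hy hq.le, mul_nonneg hx hp.le]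
    · rw [le_div_iff₀ hq]; nlinarith [mul_nonneg hy hq.le, mul_nonneg hx hp.le]
  set B1 := ((s1.re - v.re) ^ 2 + (s1.im - v.im) ^ 2) / (s1.re - v.re) + ((s1.re - v.re) ^ 2 + (s1.im - v.im) ^ 2) / (s1.im - v.im) with hB1
  set B2 := ((v.re - s2.re) ^ 2 + (s2.im - v.im) ^ 2) / (v.re - s2.re) + ((v.re - s2.re) ^ 2 + (s2.im - v.im) ^ 2) / (s2.im - v.im) with hB2
  set B3 := ((v.re - s3.re) ^ 2 + (v.im - s3.im) ^ 2) / (v.re - s3.re) + ((v.re - s3.re) ^ 2 + (v.im - s3.im) ^ 2) / (v.im - s3.im) with hB3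
  set B4 := ((s4.re - v.re) ^ 2 + (v.im - s4.im) ^ 2) / (s4.re - v.re) + ((s4.re - v.re) ^ 2 + (v.im - s4.im) ^ 2) / (v.im - s4.im) with hB4
  have p1 : 0 ≤ B1 := by have := sub_pos.2 a1; have := sub_pos.2 b1; positivity
  have p2 : 0 ≤ B2 := by have := sub_pos.2 a2; have := sub_pos.2 b2; positivity
  have p3 : 0 ≤ B3 := by have := sub_pos.2 a3; have := sub_pos.2 b3; positivity
  have p4 : 0 ≤ B4 := by have := sub_pos.2 a4; have := sub_pos.2 b4; positivity
  refine (Metric.isBounded_closedBall (x := v) (r := B1 + B2 + B3 + B4)).subset fun z hz => ?_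
  rw [mem_closedBall, dist_eq_norm]
  have hn : ‖z - v‖ ≤ |z.re - v.re| + |z.im - v.im| := by
    have := Complex.norm_le_abs_re_add_abs_im (z - v)
    simpa using this
  refine hn.trans ?_
  rcases le_total 0 (z.re - v.re) with hx | hx <;> rcases le_total 0 (z.im - v.im) with hy | hy
  · have := key _ _ _ _ hx hy (sub_pos.2 a1) (sub_pos.2 b1) ((delp_half z v s1).1 (hz s1 h1))
    rw [abs_of_nonneg hx, abs_of_nonneg hy]; linarith [this.1, this.2]
  · have := key (z.re - v.re) (v.im - z.im) (s4.re - v.re) (v.im - s4.im) hx (by linarith) (sub_pos.2 a4) (sub_pos.2 b4)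
      (by have := (delp_half z v s4).1 (hz s4 h4); nlinarith)
    rw [abs_of_nonneg hx, abs_of_nonpos hy]; linarith [this.1, this.2]
  · have := key (v.re - z.re) (z.im - v.im) (v.re - s2.re) (s2.im - v.im) (by linarith) hy (sub_pos.2 a2) (sub_pos.2 b2)
      (by have := (delp_half z v s2).1 (hz s2 h2); nlinarith)
    rw [abs_of_nonpos hx, abs_of_nonneg hy]; linarith [this.1, this.2]
  · have := key (v.re - z.re) (v.im - z.im) (v.re - s3.re) (v.im - s3.im) (by linarith) (by linarith) (sub_pos.2 a3) (sub_pos.2 b3)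
      (by have := (delp_half z v s3).1 (hz s3 h3); nlinarith)
    rw [abs_of_nonpos hx, abs_of_nonpos hy]; linarith [this.1, this.2]

theorem VorQuad.nonempty {Y : Set ℂ} (h : VorQuad Y) : Y.Nonempty := by
  obtain ⟨s, hs, -⟩ := (h 0).1
  exact ⟨s, hs⟩

theorem DelGood.of_quad {Y : Set ℂ} (lf : VorLF Y) (gp : VorGP Y) (hq : VorQuad Y) : DelGood Y := ⟨lf, gp, delp_cell_bdd hq, hq.nonempty⟩

/-! ## 2. the complex of the whole plane -/

/-- **Conn** -/
theorem delp_conn {Y : Set ℂ} (lf : VorLF Y) {a b : ℂ} (ha : a ∈ Y) (hb : b ∈ Y) : Relation.ReflTransGen (DelAdj Y) a b := by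
  have h := del_win_conn (K := univ) lf isPreconnected_univ (a := a) (b := b) ⟨ha, a, vor_self_mem Y a, mem_univ _⟩ ⟨hb, b, vor_self_mem Y b, mem_univ _⟩
  exact Relation.ReflTransGen.mono (fun x y (hxy : VorAdjIn Y univ x y) => hxy.adj) a b h

theorem delp_mem_box {z : ℂ} {n : ℕ} (h : ‖z‖ ≤ n) : z ∈ delBox (-(n : ℝ)) n (-(n : ℝ)) n := by
  have h1 := (Complex.abs_re_le_norm z).trans h
  have h2 := (Complex.abs_im_le_norm z).trans h
  exact ⟨⟨(abs_le.1 h1).1, (abs_le.1 h1).2⟩, ⟨(abs_le.1 h2).1, (abs_le.1 h2).2⟩⟩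

theorem delp_box_mono {n m : ℕ} (h : n ≤ m) : delBox (-(n : ℝ)) n (-(n : ℝ)) n ⊆ delBox (-(m : ℝ)) m (-(m : ℝ)) m := by
  have h' : (n : ℝ) ≤ m := by exact_mod_cast h
  rintro z ⟨⟨a1, a2⟩, ⟨a3, a4⟩⟩
  exact ⟨⟨by linarith, by linarith⟩, ⟨by linarith, by linarith⟩⟩

theorem VorAdjIn.mono {Y K K' : Set ℂ} {a b : ℂ} (h : VorAdjIn Y K a b) (hK : K ⊆ K') : VorAdjIn Y K' a b :=
  ⟨h.1, h.2.1, h.2.2.1, h.2.2.2.mono (inter_subset_inter_right _ hK)⟩

/-- **H¹(ℤ/2) = 0 for the Delaunay complex of the whole plane**, all cochains (no general position, no boundedness) -/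
theorem delp_H1 {Y : Set ℂ} (lf : VorLF Y) (hne : Y.Nonempty) (f : ℂ → ℂ → ZMod 2) (fs : ∀ a b, DelAdj Y a b → f a b = f b a)
    (fc : ∀ a b c, DelTri Y a b c → f a b + f b c + f c a = 0) : ∃ u : ℂ → ZMod 2, ∀ a b, DelAdj Y a b → f a b = u a + u b := by
  classical
  have hbox : ∀ n : ℕ, ∃ u : ℂ → ZMod 2, ∀ a b, VorAdjIn Y (delBox (-(n : ℝ)) n (-(n : ℝ)) n) a b → f a b = u a + u b := fun n =>
    del_win_H1 lf hne (by have : (0 : ℝ) ≤ n := Nat.cast_nonneg n; linarith) f (fun a b h => fs a b h.adj) (fun a b c h => fc a b c h.tri)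
  choose u0 hu0 using hbox
  obtain ⟨a0, ha0, h0⟩ := vor_cover lf hne 0
  -- normalise at `a0`
  set u : ℕ → ℂ → ZMod 2 := fun n a => u0 n a + u0 n a0 with hu
  have hu1 : ∀ (n : ℕ) a b, VorAdjIn Y (delBox (-(n : ℝ)) n (-(n : ℝ)) n) a b → f a b = u n a + u n b := by
    intro n a b h
    rw [hu0 n a b h]
    simp only [hu]
    have := pl_z2_add_self (u0 n a0)
    calc u0 n a + u0 n b = u0 n a + u0 n b + (u0 n a0 + u0 n a0) := by rw [this, add_zero]
      _ = _ := by ring
  have hu2 : ∀ n, u n a0 = 0 := fun n => pl_z2_add_self _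
  have hmeet0 : ∀ n : ℕ, a0 ∈ vorMeet Y (delBox (-(n : ℝ)) n (-(n : ℝ)) n) := fun n =>
    ⟨ha0, 0, h0, delp_mem_box (by simp)⟩
  -- compatibility
  have hcomp : ∀ n m : ℕ, n ≤ m → ∀ a ∈ vorMeet Y (delBox (-(n : ℝ)) n (-(n : ℝ)) n), u n a = u m a := by
    intro n m hnm a ha
    have hc := del_win_conn lf (del_box_convex (-(n : ℝ)) n (-(n : ℝ)) n).isPreconnected (hmeet0 n) ha
    induction hc with
    | refl => rw [hu2, hu2]
    | tail _ hxy ih =>
      rename_i x y _
      have e1 := hu1 n x y hxy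
      have e2 := hu1 m x y (hxy.mono (delp_box_mono hnm))
      have ih' := ih hxy.mem_left
      rw [e1, ih'] at e2
      exact add_left_cancel e2
  refine ⟨fun a => u ⌈‖a‖⌉₊ a, fun a b hab => ?_⟩
  obtain ⟨ha, hb, hne', z, hza, hzb⟩ := hab
  set m := max (max ⌈‖a‖⌉₊ ⌈‖b‖⌉₊) ⌈‖z‖⌉₊ with hm
  have hz : z ∈ delBox (-(m : ℝ)) m (-(m : ℝ)) m := delp_mem_box ((Nat.le_ceil _).trans (by exact_mod_cast le_max_right _ _))
  have h1 := hu1 m a b ⟨ha, hb, hne', z, ⟨hza, hzb⟩, hz⟩
  have ea : u ⌈‖a‖⌉₊ a = u m a := hcomp _ _ ((le_max_left _ _).trans (le_max_left _ _)) a ⟨ha, a, vor_self_mem Y a, delp_mem_box (Nat.le_ceil _)⟩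
  have eb : u ⌈‖b‖⌉₊ b = u m b := hcomp _ _ ((le_max_right _ _).trans (le_max_left _ _)) b ⟨hb, b, vor_self_mem Y b, delp_mem_box (Nat.le_ceil _)⟩
  simp only [ea, eb]
  exact h1

theorem delp_apex_mem {Y : Set ℂ} {a : ℂ} (ha : a ∈ Y) (b : ℂ) : delApex Y a b ∈ Y := by
  unfold delApex
  split_ifs with h
  · exact h.choose_spec.2.2.1
  · exact ha

theorem delp_apex_spec {Y : Set ℂ} (h : DelGood Y) {a b : ℂ} (hab : DelAdj Y a b) : DelTri Y a b (delApex Y a b) := by
  obtain ⟨c, hc⟩ := del_apex_exists h.lf (h.bdd a) hab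
  rw [del_apex_eq h.gp hc]; exact hc

/-- **the Delaunay triangulation of the plane** as a simple oriented triangulated surface on the type of sites -/
noncomputable def delPl {Y : Set ℂ} (h : DelGood Y) : PlTri ↥Y where
  adj a b := DelAdj Y a b
  apex a b := ⟨delApex Y a b, delp_apex_mem a.2 b⟩
  symm hab := hab.symm
  irrefl _ ha := ha.2.2.1 rfl
  adj_apex hab := (del_tri_cyc (delp_apex_spec h hab)).adj
  apex_rot hab := Subtype.ext (del_apex_rot h.gp ⟨_, delp_apex_spec h hab⟩)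

/-- **the plane hypotheses hold** -/
theorem delp_isSph {Y : Set ℂ} (h : DelGood Y) : (delPl h).toMap.IsSph := by
  classical
  refine ⟨?_, ?_, ?_⟩
  · -- conn
    intro v w
    have key : ∀ b : ℂ, Relation.ReflTransGen (DelAdj Y) v b → ∀ hb : b ∈ Y, Relation.ReflTransGen (delPl h).toMap.Adj v ⟨b, hb⟩ := by
      intro b hvb
      induction hvb with
      | refl => intro _; exact Relation.ReflTransGen.refl
      | tail _ hxy ih =>
        rename_i x y _
        intro hy
        exact (ih hxy.1).tail ⟨⟨(⟨x, hxy.1⟩, ⟨y, hy⟩), hxy⟩, rfl, rfl⟩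
    exact key w (delp_conn h.lf v.2 w.2) w.2
  · -- h1
    intro c hs hc
    set f : ℂ → ℂ → ZMod 2 := fun a b => if hab : DelAdj Y a b then c ⟨(⟨a, hab.1⟩, ⟨b, hab.2.1⟩), hab⟩ else 0 with hf
    have fs : ∀ a b, DelAdj Y a b → f a b = f b a := by
      intro a b hab
      simp only [hf, dif_pos hab, dif_pos hab.symm]
      exact (hs ⟨(⟨a, hab.1⟩, ⟨b, hab.2.1⟩), hab⟩).symm
    have fc : ∀ a b c', DelTri Y a b c' → f a b + f b c' + f c' a = 0 := by
      intro a b c' ht
      have h1 := ht.adj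
      have h2 := (del_tri_cyc ht).adj
      have h3 := (del_tri_cyc (del_tri_cyc ht)).adj
      simp only [hf, dif_pos h1, dif_pos h2, dif_pos h3]
      have := hc ⟨(⟨a, h1.1⟩, ⟨b, h1.2.1⟩), h1⟩
      have e1 : (delPl h).toMap.nxt ⟨(⟨a, h1.1⟩, ⟨b, h1.2.1⟩), h1⟩ = ⟨(⟨b, h2.1⟩, ⟨c', h2.2.1⟩), h2⟩ := by
        apply Subtype.ext
        exact Prod.ext rfl (Subtype.ext (del_apex_eq h.gp ht))
      have e2 : (delPl h).toMap.nxt ⟨(⟨b, h2.1⟩, ⟨c', h2.2.1⟩), h2⟩ = ⟨(⟨c', h3.1⟩, ⟨a, h3.2.1⟩), h3⟩ := by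
        apply Subtype.ext
        exact Prod.ext rfl (Subtype.ext (del_apex_eq h.gp (del_tri_cyc ht)))
      rw [e1, e2] at this
      exact this
    obtain ⟨u, hu⟩ := delp_H1 h.lf h.ne f fs fc
    refine ⟨fun v => u v, ?_⟩
    rintro ⟨⟨a, b⟩, hab⟩
    have := hu a b hab
    simp only [hf, dif_pos (show DelAdj Y a b from hab)] at this
    exact this
  · -- link
    rintro ⟨⟨v, b⟩, hvb⟩ ⟨⟨v', b'⟩, hvb'⟩ hsrc
    have hv : v = v' := hsrc
    subst hv
    have hl := del_link_cyc h.lf h.gp (h.bdd v) hvb hvb'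
    let d0 : (delPl h).Dart := ⟨(v, b), hvb⟩
    have key : ∀ y : ℂ, Relation.ReflTransGen (fun x y => DelTri Y v x y) b y → ∀ hy : DelAdj Y v y,
        ∃ n : ℕ, (delPl h).toMap.rot^[n] d0 = (⟨(v, ⟨y, hy.2.1⟩), hy⟩ : (delPl h).Dart) := by
      intro y hby
      induction hby with
      | refl => intro _; exact ⟨0, rfl⟩
      | tail _ hxy ih =>
        rename_i x y _
        intro hy
        obtain ⟨n, hn⟩ := ih hxy.adj
        refine ⟨n + 1, ?_⟩
        have e := Function.iterate_succ_apply' (delPl h).toMap.rot n d0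
        rw [e, hn]
        apply Subtype.ext
        refine Prod.ext ?_ ?_
        · exact Subtype.ext (del_apex_rot h.gp ⟨_, hxy⟩)
        · exact Subtype.ext (del_apex_eq h.gp hxy)
    exact key b' hl hvb'

/-! ## 3. empty discs -/

/-- an empty disc which touches `K` is small: `z ∈ vorCell Y a` (the open disc of radius `‖z - a‖` round `z` contains no site), its closed disc contains `w ∈ K`, `Y` is `ρ`-dense on the `σ`-collar of `K`, `ρ < σ` -/
theorem delp_empty_disc {Y K : Set ℂ} {ρ σ : ℝ} (hρ : 0 ≤ ρ) (hρσ : ρ < σ) (hd : VorDense Y (vorNbd K σ) ρ) {z a w : ℂ} (hz : z ∈ vorCell Y a) (hw : w ∈ K)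
    (hwz : ‖w - z‖ ≤ ‖z - a‖) : ‖z - a‖ < σ := by
  by_contra hcon
  rw [not_lt] at hcon
  set r := ‖z - a‖ with hr
  -- a point `z'` of the collar with `‖z' - z‖ ≤ r - σ`
  have key : ∃ z' ∈ vorNbd K σ, ‖z - z'‖ ≤ r - σ := by
    by_cases hc : ‖w - z‖ ≤ r - σ
    · exact ⟨w, ⟨w, hw, by simp; linarith⟩, by rw [norm_sub_rev]; exact hc⟩
    · rw [not_le] at hc
      have hL : 0 < ‖w - z‖ := lt_of_le_of_lt (by linarith) hc
      refine ⟨z + (((r - σ) / ‖w - z‖ : ℝ) : ℂ) * (w - z), ⟨w, hw, ?_⟩, ?_⟩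
      · have e : z + (((r - σ) / ‖w - z‖ : ℝ) : ℂ) * (w - z) - w = (((1 - (r - σ) / ‖w - z‖ : ℝ)) : ℂ) * (z - w) := by
          push_cast; ring
        have h1 : 0 ≤ 1 - (r - σ) / ‖w - z‖ := by
          rw [sub_nonneg, div_le_one hL]; exact hc.le
        rw [e, norm_mul, Complex.norm_real, Real.norm_of_nonneg h1, norm_sub_rev z w]
        have : (1 - (r - σ) / ‖w - z‖) * ‖w - z‖ = ‖w - z‖ - (r - σ) := by field_simp
        rw [this]; linarith
      · have e : z - (z + (((r - σ) / ‖w - z‖ : ℝ) : ℂ) * (w - z)) = - ((((r - σ) / ‖w - z‖ : ℝ) : ℂ) * (w - z)) := by ring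
        rw [e, norm_neg, norm_mul, Complex.norm_real, Real.norm_of_nonneg (div_nonneg (by linarith) hL.le)]
        have : (r - σ) / ‖w - z‖ * ‖w - z‖ = r - σ := by field_simp
        rw [this]
  obtain ⟨z', hz', hzz'⟩ := key
  obtain ⟨s, hs, hs'⟩ := hd z' hz'
  have h1 := hz s hs
  have h2 : ‖z - s‖ ≤ ‖z - z'‖ + ‖z' - s‖ := by
    have := norm_add_le (z - z') (z' - s)
    simpa using this
  linarith

/-! ## 4. the tiling -/

/- `delT a b c`, `delTo a b c` (closed / open triangle, determinant form) are defined in `Del/Area.lean` (helper135). -/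

theorem delp_bary_sum (a b c x : ℂ) : vorDet a b x + vorDet b c x + vorDet c a x = vorDet a b c := by unfold vorDet; ring

theorem delp_bary_re (a b c x : ℂ) : vorDet b c x * a.re + vorDet c a x * b.re + vorDet a b x * c.re = vorDet a b c * x.re := by unfold vorDet; ring

theorem delp_bary_im (a b c x : ℂ) : vorDet b c x * a.im + vorDet c a x * b.im + vorDet a b x * c.im = vorDet a b c * x.im := by unfold vorDet; ring

/-- squared distance in coordinates -/
def delN (p q : ℂ) : ℝ := (p.re - q.re) ^ 2 + (p.im - q.im) ^ 2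

theorem delp_eqns_cite3 : True := by
  have := @delN.eq_1
  trivial

theorem delp_N_eq (p q : ℂ) : delN p q = ‖p - q‖ ^ 2 := by
  rw [Complex.sq_norm, Complex.normSq_apply]; simp [delN]; ring

theorem delp_N_le {p q q' : ℂ} : ‖p - q‖ ≤ ‖p - q'‖ ↔ delN p q ≤ delN p q' := by
  rw [delp_N_eq, delp_N_eq, sq_le_sq, abs_of_nonneg (norm_nonneg _), abs_of_nonneg (norm_nonneg _)]

theorem delp_N_eq_iff {p q q' : ℂ} : ‖p - q‖ = ‖p - q'‖ ↔ delN p q = delN p q' := by
  constructor
  · intro h; exact le_antisymm (delp_N_le.1 h.le) (delp_N_le.1 h.ge)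
  · intro h; exact le_antisymm (delp_N_le.2 h.le) (delp_N_le.2 h.ge)

/-- **variance identity** with the determinant weights -/
theorem delp_variance (a b c x y : ℂ) :
    vorDet b c x * delN y a + vorDet c a x * delN y b + vorDet a b x * delN y c
      = vorDet a b c * delN y x + (vorDet b c x * delN x a + vorDet c a x * delN x b + vorDet a b x * delN x c) := by
  unfold vorDet delN; ring

/-- the vertices of a triangle whose OPEN triangle meets the closed triangle `t'` lie on the circle of `t'` -/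
theorem delp_on_circle {Y : Set ℂ} {a b c a' b' c' x w w' : ℂ} (ha : a ∈ Y) (hb : b ∈ Y) (hc : c ∈ Y) (ha' : a' ∈ Y) (hb' : b' ∈ Y) (hc' : c' ∈ Y)
    (hwa : w ∈ vorCell Y a) (hwb : w ∈ vorCell Y b) (hwc : w ∈ vorCell Y c)
    (hwa' : w' ∈ vorCell Y a') (hwb' : w' ∈ vorCell Y b') (hwc' : w' ∈ vorCell Y c')
    (hD' : 0 < vorDet a' b' c') (hx : x ∈ delTo a b c) (hx' : x ∈ delT a' b' c') :
    delN w' a = delN w' a' ∧ delN w' b = delN w' a' ∧ delN w' c = delN w' a' := by
  obtain ⟨l3, l1, l2⟩ := hx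
  obtain ⟨m3, m1, m2⟩ := hx'
  have hD : 0 < vorDet a b c := by rw [← delp_bary_sum a b c x]; linarith
  -- radii
  have eb : delN w b = delN w a := delp_N_eq_iff.1 (vor_equidist ha hb hwa hwb).symm
  have ec : delN w c = delN w a := delp_N_eq_iff.1 (vor_equidist ha hc hwa hwc).symm
  have eb' : delN w' b' = delN w' a' := delp_N_eq_iff.1 (vor_equidist ha' hb' hwa' hwb').symm
  have ec' : delN w' c' = delN w' a' := delp_N_eq_iff.1 (vor_equidist ha' hc' hwa' hwc').symm
  -- empty discs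
  have o1 : delN w a ≤ delN w a' := delp_N_le.1 (hwa a' ha')
  have o2 : delN w a ≤ delN w b' := delp_N_le.1 (hwa b' hb')
  have o3 : delN w a ≤ delN w c' := delp_N_le.1 (hwa c' hc')
  have p1 : delN w' a' ≤ delN w' a := delp_N_le.1 (hwa' a ha)
  have p2 : delN w' a' ≤ delN w' b := delp_N_le.1 (hwa' b hb)
  have p3 : delN w' a' ≤ delN w' c := delp_N_le.1 (hwa' c hc)
  set W := vorDet b c x * delN x a + vorDet c a x * delN x b + vorDet a b x * delN x c with hW
  set W' := vorDet b' c' x * delN x a' + vorDet c' a' x * delN x b' + vorDet a' b' x * delN x c' with hW'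
  have s := delp_bary_sum a b c x
  have s' := delp_bary_sum a' b' c' x
  have v1 := delp_variance a b c x w
  have v2 := delp_variance a' b' c' x w
  have v3 := delp_variance a' b' c' x w'
  have v4 := delp_variance a b c x w'
  rw [← hW] at v1 v4
  rw [← hW'] at v2 v3
  rw [eb, ec] at v1
  rw [eb', ec'] at v3
  -- (1) D R = D N(w,x) + W
  have f1 : vorDet a b c * delN w a = vorDet a b c * delN w x + W := by rw [← v1, ← s]; ring
  -- (2) D' R ≤ D' N(w,x) + W'
  have f2 : vorDet a' b' c' * delN w a ≤ vorDet a' b' c' * delN w x + W' := by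
    rw [← v2, ← s']
    nlinarith [mul_le_mul_of_nonneg_left o1 m1, mul_le_mul_of_nonneg_left o2 m2, mul_le_mul_of_nonneg_left o3 m3]
  -- (3) D' R' = D' N(w',x) + W'
  have f3 : vorDet a' b' c' * delN w' a' = vorDet a' b' c' * delN w' x + W' := by rw [← v3, ← s']; ring
  -- D' W ≤ D W'
  have f5 : vorDet a' b' c' * W ≤ vorDet a b c * W' := by
    have h1 : W = vorDet a b c * (delN w a - delN w x) := by linarith
    have h2 : vorDet a' b' c' * (delN w a - delN w x) ≤ W' := by linarith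
    rw [h1]
    calc vorDet a' b' c' * (vorDet a b c * (delN w a - delN w x)) = vorDet a b c * (vorDet a' b' c' * (delN w a - delN w x)) := by ring
      _ ≤ vorDet a b c * W' := mul_le_mul_of_nonneg_left h2 hD.le
  -- sum of the excesses is ≤ 0
  have f6 : vorDet b c x * (delN w' a - delN w' a') + vorDet c a x * (delN w' b - delN w' a') + vorDet a b x * (delN w' c - delN w' a') ≤ 0 := by
    have h3 : vorDet a' b' c' * (vorDet b c x * (delN w' a - delN w' a') + vorDet c a x * (delN w' b - delN w' a') + vorDet a b x * (delN w' c - delN w' a')) ≤ 0 := by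
      have e : vorDet b c x * (delN w' a - delN w' a') + vorDet c a x * (delN w' b - delN w' a') + vorDet a b x * (delN w' c - delN w' a')
          = vorDet a b c * delN w' x + W - vorDet a b c * delN w' a' := by
        rw [← v4, ← s]; ring
      rw [e]
      have h4 : W' = vorDet a' b' c' * (delN w' a' - delN w' x) := by linarith
      rw [h4] at f5
      have e2 : vorDet a' b' c' * (vorDet a b c * delN w' x + W - vorDet a b c * delN w' a')
          = vorDet a' b' c' * W - vorDet a b c * (vorDet a' b' c' * (delN w' a' - delN w' x)) := by ring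
      rw [e2]; linarith
    by_contra hpos
    rw [not_le] at hpos
    have := mul_pos hD' hpos
    linarith
  have q1 := mul_nonneg l1.le (sub_nonneg.2 p1)
  have q2 := mul_nonneg l2.le (sub_nonneg.2 p2)
  have q3 := mul_nonneg l3.le (sub_nonneg.2 p3)
  refine ⟨?_, ?_, ?_⟩
  · have : vorDet b c x * (delN w' a - delN w' a') = 0 := by linarith
    rcases mul_eq_zero.1 this with h | h
    · exact absurd h l1.ne'
    · linarith
  · have : vorDet c a x * (delN w' b - delN w' a') = 0 := by linarith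
    rcases mul_eq_zero.1 this with h | h
    · exact absurd h l2.ne'
    · linarith
  · have : vorDet a b x * (delN w' c - delN w' a') = 0 := by linarith
    rcases mul_eq_zero.1 this with h | h
    · exact absurd h l3.ne'
    · linarith

/-- **disjoint interiors**: an open Delaunay triangle meets no other closed Delaunay triangle -/
theorem delp_tile_disj {Y : Set ℂ} (h : DelGood Y) {a b c a' b' c' x : ℂ} (ht : DelTri Y a b c) (ht' : DelTri Y a' b' c') (hx : x ∈ delTo a b c) (hx' : x ∈ delT a' b' c') :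
    (a' = a ∧ b' = b ∧ c' = c) ∨ (a' = b ∧ b' = c ∧ c' = a) ∨ (a' = c ∧ b' = a ∧ c' = b) := by
  obtain ⟨ha, hb, hc, hD, w, ⟨hwa, hwb⟩, hwc⟩ := ht
  obtain ⟨ha', hb', hc', hD', w', ⟨hwa', hwb'⟩, hwc'⟩ := ht'
  obtain ⟨e1, e2, e3⟩ := delp_on_circle ha hb hc ha' hb' hc' hwa hwb hwc hwa' hwb' hwc' hD' hx hx'
  obtain ⟨n1, n3s, n2⟩ := del_ne_of_det hD.ne'
  have n3 : c ≠ a := n3s.symm
  obtain ⟨n1', n3s', n2'⟩ := del_ne_of_det hD'.ne'
  have n3' : c' ≠ a' := n3s'.symm
  have key : ∀ s ∈ Y, delN w' s = delN w' a' → s = a' ∨ s = b' ∨ s = c' := by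
    intro s hs es
    by_contra hcon
    rw [not_or, not_or] at hcon
    exact h.gp.cir a' ha' b' hb' c' hc' s hs n1' n3'.symm (Ne.symm hcon.1) n2' (Ne.symm hcon.2.1) (Ne.symm hcon.2.2) w'
      ⟨vor_equidist ha' hb' hwa' hwb', vor_equidist ha' hc' hwa' hwc', delp_N_eq_iff.2 es.symm⟩
  rcases key a ha e1 with rfl | rfl | rfl <;> rcases key b hb e2 with rfl | rfl | rfl <;> rcases key c hc e3 with rfl | rfl | rfl <;>
    first
    | exact absurd rfl n1
    | exact absurd rfl n2
    | exact absurd rfl n3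
    | exact Or.inl ⟨rfl, rfl, rfl⟩
    | exact Or.inr (Or.inl ⟨rfl, rfl, rfl⟩)
    | exact Or.inr (Or.inr ⟨rfl, rfl, rfl⟩)
    | (exfalso; unfold vorDet at hD hD'; linarith)

/-- the concave function `w ↦ dist(w, Y)² - ‖w - z‖²` has a maximiser -/
theorem delp_max {Y : Set ℂ} (h : DelGood Y) (z : ℂ) : ∃ w : ℂ, ∀ w' v v' : ℂ, v ∈ Y → w ∈ vorCell Y v → v' ∈ Y → w' ∈ vorCell Y v' →
    delN w' v' - delN w' z ≤ delN w v - delN w z := by
  set H : ℂ → ℝ := fun w => (infDist w Y) ^ 2 - ‖w - z‖ ^ 2 with hH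
  have hF1 : ∀ w v : ℂ, v ∈ Y → w ∈ vorCell Y v → infDist w Y = ‖w - v‖ := by
    intro w v hv hw
    refine le_antisymm ?_ ?_
    · rw [← dist_eq_norm]; exact infDist_le_dist_of_mem hv
    · refine (le_infDist h.ne).2 fun y hy => ?_
      rw [dist_eq_norm]; exact hw y hy
  have hF2 : ∀ w v : ℂ, v ∈ Y → w ∈ vorCell Y v → H w = delN w v - delN w z := by
    intro w v hv hw
    simp only [hH]
    rw [hF1 w v hv hw, delp_N_eq, delp_N_eq]
  have hcont : Continuous H := ((continuous_infDist_pt Y).pow 2).sub ((continuous_id.sub continuous_const).norm.pow 2)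
  have hC : IsCompact (vorCell Y z) := Metric.isCompact_of_isClosed_isBounded (vor_isClosed_cell Y z) (h.bdd z)
  obtain ⟨w, hwC, hmax⟩ := hC.exists_isMaxOn ⟨z, vor_self_mem Y z⟩ hcont.continuousOn
  have hz0 : 0 ≤ H z := by
    simp only [hH, sub_self, norm_zero]
    have := sq_nonneg (infDist z Y)
    simpa using this
  have hglob : ∀ w', H w' ≤ H w := by
    intro w'
    by_cases hw' : w' ∈ vorCell Y z
    · exact hmax hw'
    · have : ∃ u ∈ Y, ‖w' - u‖ < ‖w' - z‖ := by
        by_contra hcon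
        exact hw' fun u hu => not_lt.1 fun hlt => hcon ⟨u, hu, hlt⟩
      obtain ⟨u, hu, hlt⟩ := this
      have h1 : infDist w' Y ≤ ‖w' - u‖ := by rw [← dist_eq_norm]; exact infDist_le_dist_of_mem hu
      have h2 : H w' < 0 := by
        simp only [hH]
        have h3 : infDist w' Y < ‖w' - z‖ := lt_of_le_of_lt h1 hlt
        have h4 : (infDist w' Y) ^ 2 < ‖w' - z‖ ^ 2 := by
          have := infDist_nonneg (x := w') (s := Y)
          nlinarith
        linarith
      exact (h2.le.trans hz0).trans (hmax (vor_self_mem Y z))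
  refine ⟨w, fun w' v v' hv hw hv' hw' => ?_⟩
  rw [← hF2 w v hv hw, ← hF2 w' v' hv' hw']
  exact hglob w'

/-- at a maximiser `w`, the point `z` cannot be strictly separated from the active sites by the line `p q` -/
theorem delp_no_sep {Y : Set ℂ} (h : DelGood Y) {z w : ℂ}
    (hw : ∀ w' v v' : ℂ, v ∈ Y → w ∈ vorCell Y v → v' ∈ Y → w' ∈ vorCell Y v' → delN w' v' - delN w' z ≤ delN w v - delN w z)
    (p q : ℂ) (hA : ∀ s ∈ Y, w ∈ vorCell Y s → 0 ≤ vorDet p q s) : 0 ≤ vorDet p q z := by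
  by_contra hneg
  rw [not_le] at hneg
  set A : Set ℂ := {s | s ∈ Y ∧ w ∈ vorCell Y s} with hAdef
  have hcl : IsClosed (vorUn Y (Y \ A)) := vor_isClosed_un h.lf sdiff_subset
  have hwU : w ∈ (vorUn Y (Y \ A))ᶜ := by
    rintro ⟨v, ⟨hv, hvA⟩, hwv⟩
    exact hvA ⟨hv, hwv⟩
  obtain ⟨ε, hε, hball⟩ := Metric.isOpen_iff.1 hcl.isOpen_compl w hwU
  set n : ℂ := ⟨-(q.im - p.im), q.re - p.re⟩ with hn
  have hdiff : ∀ x y : ℂ, vorDet p q x - vorDet p q y = n.re * (x.re - y.re) + n.im * (x.im - y.im) := by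
    intro x y; simp only [hn, vorDet]; ring
  obtain ⟨a, ha, hwa⟩ := vor_cover h.lf h.ne w
  have hn0 : n ≠ 0 := by
    intro h0
    have := hdiff a z
    rw [h0] at this
    simp at this
    have := hA a ha hwa
    linarith
  have hnpos : 0 < ‖n‖ := norm_pos_iff.2 hn0
  set t : ℝ := ε / (2 * ‖n‖) with ht
  have htpos : 0 < t := by positivity
  set w' : ℂ := w - (t : ℂ) * n with hw'
  have hw'ball : w' ∈ ball w ε := by
    rw [mem_ball, dist_eq_norm]
    have : w' - w = -((t : ℂ) * n) := by simp only [hw']; ring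
    rw [this, norm_neg, norm_mul, Complex.norm_real, Real.norm_of_nonneg htpos.le, ht]
    have : ε / (2 * ‖n‖) * ‖n‖ = ε / 2 := by field_simp
    rw [this]; linarith
  obtain ⟨v, hv, hw'v⟩ := vor_cover h.lf h.ne w'
  have hvA : w ∈ vorCell Y v := by
    by_contra hcon
    exact hball hw'ball ⟨v, ⟨hv, fun hh => hcon hh.2⟩, hw'v⟩
  have h1 := hw w' v v hv hvA hv hw'v
  have h2 := hdiff v z
  have h3 := hA v hv hvA
  have hre : w'.re = w.re - t * n.re := by simp [hw']
  have him : w'.im = w.im - t * n.im := by simp [hw']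
  have e : delN w' v - delN w' z = delN w v - delN w z + 2 * t * (n.re * (v.re - z.re) + n.im * (v.im - z.im)) := by
    simp only [delN, hre, him]; ring
  rw [e, ← h2] at h1
  have : 0 < 2 * t * (vorDet p q v - vorDet p q z) := by
    have : 0 < vorDet p q v - vorDet p q z := by linarith
    positivity
  linarith

/-- the sites whose cells contain a given point are vertices of one Delaunay triangle -/
theorem delp_active {Y : Set ℂ} (h : DelGood Y) (w : ℂ) : ∃ a b c, DelTri Y a b c ∧ ∀ s ∈ Y, w ∈ vorCell Y s → s = a ∨ s = b ∨ s = c := by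
  obtain ⟨a, ha, hwa⟩ := vor_cover h.lf h.ne w
  by_cases h2 : ∃ b ∈ Y, b ≠ a ∧ w ∈ vorCell Y b
  · obtain ⟨b, hb, hba, hwb⟩ := h2
    by_cases h3 : ∃ c ∈ Y, c ≠ a ∧ c ≠ b ∧ w ∈ vorCell Y c
    · obtain ⟨c, hc, hca, hcb, hwc⟩ := h3
      have hall : ∀ s ∈ Y, w ∈ vorCell Y s → s = a ∨ s = b ∨ s = c := fun s hs hws =>
        del_le_three h.gp ha hb hc hs hba.symm hca.symm hcb.symm hwa hwb hwc hws
      rcases del_three_in (K := univ) ha hb hc hba.symm hca.symm hcb.symm hwa hwb hwc (mem_univ _) with ht | ht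
      · exact ⟨a, b, c, ht.tri, hall⟩
      · refine ⟨b, a, c, ht.tri, fun s hs hws => ?_⟩
        rcases hall s hs hws with r | r | r
        · exact Or.inr (Or.inl r)
        · exact Or.inl r
        · exact Or.inr (Or.inr r)
    · have hab : DelAdj Y a b := ⟨ha, hb, hba.symm, w, hwa, hwb⟩
      refine ⟨a, b, _, delp_apex_spec h hab, fun s hs hws => ?_⟩
      by_contra hcon
      rw [not_or, not_or] at hcon
      exact h3 ⟨s, hs, hcon.1, hcon.2.1, hws⟩
  · obtain ⟨z0, hz0⟩ := (vor_frontier_connected h.lf (h.bdd a)).nonempty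
    obtain ⟨hz0a, b, hb, hba, hz0b⟩ := vor_frontier_subset h.lf ha hz0
    have hab : DelAdj Y a b := ⟨ha, hb, hba.symm, z0, hz0a, hz0b⟩
    refine ⟨a, b, _, delp_apex_spec h hab, fun s hs hws => ?_⟩
    by_contra hcon
    rw [not_or, not_or] at hcon
    exact h2 ⟨s, hs, hcon.1, hws⟩

/-- **covering**: every point of the plane lies in a closed Delaunay triangle -/
theorem delp_tile_cover {Y : Set ℂ} (h : DelGood Y) (z : ℂ) : ∃ a b c, DelTri Y a b c ∧ z ∈ delT a b c := by
  obtain ⟨w, hw⟩ := delp_max h z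
  obtain ⟨a, b, c, ht, hall⟩ := delp_active h w
  have hD : 0 < vorDet a b c := ht.2.2.2.1
  refine ⟨a, b, c, ht, ?_, ?_, ?_⟩
  · refine delp_no_sep h hw a b fun s hs hws => ?_
    rcases hall s hs hws with rfl | rfl | rfl
    · rw [del_det_left]
    · rw [del_det_right]
    · exact hD.le
  · refine delp_no_sep h hw b c fun s hs hws => ?_
    rcases hall s hs hws with rfl | rfl | rfl
    · rw [del_det_rot]; exact hD.le
    · rw [del_det_left]
    · rw [del_det_right]
  · refine delp_no_sep h hw c a fun s hs hws => ?_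
    rcases hall s hs hws with rfl | rfl | rfl
    · rw [del_det_right]
    · rw [del_det_rot, del_det_rot]; exact hD.le
    · rw [del_det_left]

end Claimed.Agent.R289
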