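import Claimed.Agent.R289.Del.Apex
import Claimed.Agent.R289.Del.Area

/-!
# Row 289 (S0537), box DEL (head helper253), file Del/Tile : THE DELAUNAY TRIANGLES TILE      (owner helper19; prefix `del`, `Del`)      0 sorry

Statements on a SITE SET `Y : Set ℂ` (`Vor/Basic`, `Del/Apex`); triangles `delT` (closed), `delTo` (open) of `Del/Area` (determinant form); no probability.
Consumers: P8.4 (8.3)-(8.6) (`Obs/Quad` of helper258), `Del/Plane` sec. 4 (`delp_tile_cover`, `delp_tile_disj`), `fields:area`, mesh estimates.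
* `del_T_half` (an affine function `≤ 0` at the vertices is `≤ 0` on the triangle), `del_T_subset_disc` (circumscribed disc)
* **(T0)** `del_radius_le`: an empty disc through a point near which the sites are `ρ`-dense has radius `≤ ρ`;   `del_tri_radius_le`, `del_tri_near` (vertices within `2ρ` of every point of the triangle), `del_tri_finite`
* **(T1)** `del_cover_bdd`: `VorLF`, `VorGP`, bounded cells ⟹ `p` lies in a closed Delaunay triangle;   `del_cover` (hypothesis `VorDense Y (closedBall p (4ρ)) ρ`), `del_cover_win` (window form).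
     PROOF: maximise the function `z ↦ dist(z,Y)² - |z-p|²` (`delPhi`); it is `≥ 0` exactly on the compact set `vorCell Y p`, so there is a GLOBAL maximiser `z`; first order condition (`del_T1_opt`; Hahn-Banach + only the nearest
     cells are seen near `z`): `p ∈ convexHull (nearest sites of z)`; at most three nearest sites (GP): a Delaunay triangle, a Delaunay edge (add its apex) or a site (add a neighbour and the apex).
* **(T2)** `del_T2`: a point of an OPEN Delaunay triangle lies in no other CLOSED Delaunay triangle (the difference of the two powers is affine, `≤ 0` on one triangle, `≥ 0` on the other);  `del_T2_disj`.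
* **(T3)** `delSkel Y` (the lines through two sites), `del_skel_null`, `del_mem_open`, **`del_tile`**, `del_tile_bdd`: off the skeleton exactly one Delaunay triangle (up to rotation) contains `p`; `del_tile_ae`, `del_tile_ae_bdd`.
* **(T5)** `del_edge_two`: a Delaunay edge with bounded cells lies in exactly two Delaunay triangles, one on each side.
-/

set_option autoImplicit false

namespace Claimed.Agent.R289

open Complex Set Metric

/-! ## 1. half planes and triangles -/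

theorem del_half_convex (α β γ : ℝ) : Convex ℝ {p : ℂ | α * p.re + β * p.im + γ ≤ 0} := by
  intro x hx y hy s t hs ht hst
  have hx' : α * x.re + β * x.im + γ ≤ 0 := hx
  have hy' : α * y.re + β * y.im + γ ≤ 0 := hy
  show α * (s • x + t • y).re + β * (s • x + t • y).im + γ ≤ 0
  simp only [add_re, add_im, real_smul, mul_re, mul_im, ofReal_re, ofReal_im, zero_mul, sub_zero, add_zero]
  have e : γ = s * γ + t * γ := by rw [← add_mul, hst, one_mul]
  nlinarith [mul_nonneg hs (neg_nonneg.2 hx'), mul_nonneg ht (neg_nonneg.2 hy')]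

/-- an affine function which is `≤ 0` at the vertices is `≤ 0` on the triangle -/
theorem del_T_half {a b c : ℂ} (h : 0 < vorDet a b c) {α β γ : ℝ} (ha : α * a.re + β * a.im + γ ≤ 0) (hb : α * b.re + β * b.im + γ ≤ 0)
    (hc : α * c.re + β * c.im + γ ≤ 0) {p : ℂ} (hp : p ∈ delT a b c) : α * p.re + β * p.im + γ ≤ 0 := by
  have : delT a b c ⊆ {p : ℂ | α * p.re + β * p.im + γ ≤ 0} := by
    rw [dela_eq_hull h]
    refine convexHull_min ?_ (del_half_convex α β γ)
    rintro x (rfl | rfl | rfl)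
    · exact ha
    · exact hb
    · exact hc
  exact this hp

/-- an affine function with a local maximum is constant -/
theorem del_aff_max {α β γ : ℝ} {p : ℂ} {U : Set ℂ} (hU : U ∈ nhds p) (h0 : α * p.re + β * p.im + γ = 0)
    (h : ∀ q ∈ U, α * q.re + β * q.im + γ ≤ 0) : α = 0 ∧ β = 0 := by
  obtain ⟨ε, hε, hball⟩ := Metric.mem_nhds_iff.1 hU
  have key : ∀ w : ℂ, ‖w‖ < ε → α * w.re + β * w.im ≤ 0 := by
    intro w hw
    have := h (p + w) (hball (by rw [mem_ball, dist_eq_norm, add_sub_cancel_left]; exact hw))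
    simp only [add_re, add_im] at this
    linarith
  have hε2 : |ε / 2| < ε := by rw [abs_of_pos (by linarith)]; linarith
  have h1 := key ((ε / 2 : ℝ) : ℂ) (by rw [Complex.norm_real, Real.norm_eq_abs]; exact hε2)
  have h2 := key ((-(ε / 2) : ℝ) : ℂ) (by rw [Complex.norm_real, Real.norm_eq_abs, abs_neg]; exact hε2)
  have h3 := key (((ε / 2 : ℝ) : ℂ) * I) (by rw [norm_mul, Complex.norm_I, mul_one, Complex.norm_real, Real.norm_eq_abs]; exact hε2)
  have h4 := key (((-(ε / 2) : ℝ) : ℂ) * I) (by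
    rw [norm_mul, Complex.norm_I, mul_one, Complex.norm_real, Real.norm_eq_abs, abs_neg]; exact hε2)
  simp only [ofReal_re, ofReal_im, mul_zero, add_zero, mul_re, mul_im, I_re, I_im, mul_one, zero_add, sub_self] at h1 h2 h3 h4
  constructor
  · nlinarith
  · nlinarith

/-! ## 2. (T2) a point of an open Delaunay triangle lies in no other Delaunay triangle -/

section T2

variable {Y : Set ℂ} {a b c a' b' c' : ℂ}

/-- the two circumscribed circles coincide -/
theorem del_T2_circ (h : DelTri Y a b c) (h' : DelTri Y a' b' c') {p : ℂ} (hp : p ∈ delTo a b c) (hp' : p ∈ delT a' b' c') :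
    delO a' b' c' = delO a b c ∧ ‖delO a b c - a'‖ = ‖delO a b c - a‖ := by
  set z₁ := delO a b c with hz₁
  set z₂ := delO a' b' c' with hz₂
  -- the difference of the two powers
  set α : ℝ := -2 * (z₁.re - z₂.re) with hα
  set β : ℝ := -2 * (z₁.im - z₂.im) with hβ
  set γ : ℝ := (z₁.re ^ 2 + z₁.im ^ 2 - ‖z₁ - a‖ ^ 2) - (z₂.re ^ 2 + z₂.im ^ 2 - ‖z₂ - a'‖ ^ 2) with hγ
  have hform : ∀ v : ℂ, α * v.re + β * v.im + γ = (‖z₁ - v‖ ^ 2 - ‖z₁ - a‖ ^ 2) - (‖z₂ - v‖ ^ 2 - ‖z₂ - a'‖ ^ 2) := by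
    intro v
    rw [hα, hβ, hγ, del_sq (z₁ - v), del_sq (z₂ - v)]
    simp only [sub_re, sub_im]
    ring
  have sq_le : ∀ {x y : ℝ}, 0 ≤ x → x ≤ y → x ^ 2 ≤ y ^ 2 := fun hx hxy => pow_le_pow_left₀ hx hxy 2
  -- vertices of the first triangle
  have e1b : ‖z₁ - b‖ = ‖z₁ - a‖ := (del_O_ab a b c).symm
  have e1c : ‖z₁ - c‖ = ‖z₁ - a‖ := (del_O_ac h.left.ne').symm
  have e2b : ‖z₂ - b'‖ = ‖z₂ - a'‖ := (del_O_ab a' b' c').symm
  have e2c : ‖z₂ - c'‖ = ‖z₂ - a'‖ := (del_O_ac h'.left.ne').symm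
  have n1 : ∀ v ∈ Y, ‖z₁ - v‖ = ‖z₁ - a‖ → α * v.re + β * v.im + γ ≤ 0 := by
    intro v hv e
    rw [hform, e]
    have := sq_le (norm_nonneg _) (h'.empty v hv)
    linarith
  have n2 : ∀ v ∈ Y, ‖z₂ - v‖ = ‖z₂ - a'‖ → (-α) * v.re + (-β) * v.im + (-γ) ≤ 0 := by
    intro v hv e
    have := hform v
    rw [e] at this
    have h2 := sq_le (norm_nonneg _) (h.empty v hv)
    linarith
  have le1 : ∀ q ∈ delT a b c, α * q.re + β * q.im + γ ≤ 0 := fun q hq =>
    del_T_half h.left (n1 a h.1 rfl) (n1 b h.2.1 e1b) (n1 c h.2.2.1 e1c) hq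
  have ge2 := del_T_half h'.left (n2 a' h'.1 rfl) (n2 b' h'.2.1 e2b) (n2 c' h'.2.2.1 e2c) hp'
  have h0 : α * p.re + β * p.im + γ = 0 := le_antisymm (le1 p (dela_open_subset a b c hp)) (by linarith)
  obtain ⟨hα0, hβ0⟩ := del_aff_max ((dela_isOpen a b c).mem_nhds hp) h0 fun q hq => le1 q (dela_open_subset a b c hq)
  have ez : z₂ = z₁ := Complex.ext (by rw [hα] at hα0; linarith) (by rw [hβ] at hβ0; linarith)
  refine ⟨ez, ?_⟩
  have hγ0 : γ = 0 := by rw [hα0, hβ0] at h0; linarith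
  rw [hγ, ez] at hγ0
  have : ‖z₁ - a'‖ ^ 2 = ‖z₁ - a‖ ^ 2 := by linarith
  exact (pow_left_inj₀ (norm_nonneg _) (norm_nonneg _) two_ne_zero).1 this

/-- **(T2)** a point of an open Delaunay triangle lies in no other closed Delaunay triangle -/
theorem del_T2 (hY : VorGP Y) (h : DelTri Y a b c) (h' : DelTri Y a' b' c') {p : ℂ} (hp : p ∈ delTo a b c)
    (hp' : p ∈ delT a' b' c') :
    (a' = a ∧ b' = b ∧ c' = c) ∨ (a' = b ∧ b' = c ∧ c' = a) ∨ (a' = c ∧ b' = a ∧ c' = b) := by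
  obtain ⟨ez, er⟩ := del_T2_circ h h' hp hp'
  have hon : ∀ v ∈ Y, ‖delO a b c - v‖ = ‖delO a b c - a‖ → v = a ∨ v = b ∨ v = c := by
    intro v hv e
    by_contra hh
    push Not at hh
    exact hY.cir a h.1 b h.2.1 c h.2.2.1 v hv h.ne.1 h.ne.2.1 (Ne.symm hh.1) h.ne.2.2 (Ne.symm hh.2.1) (Ne.symm hh.2.2) (delO a b c)
      ⟨del_O_ab a b c, del_O_ac h.left.ne', e.symm⟩
  have ha' := hon a' h'.1 er
  have hb' := hon b' h'.2.1 (by rw [← er, ← ez]; exact (del_O_ab a' b' c').symm)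
  have hc' := hon c' h'.2.2.1 (by rw [← er, ← ez]; exact (del_O_ac h'.left.ne').symm)
  have hl := h.left
  have hl' := h'.left
  obtain ⟨n1, n2, n3⟩ := h'.ne
  have r1 : vorDet b c a = vorDet a b c := by simp only [vorDet]; ring
  have r2 : vorDet c a b = vorDet a b c := by simp only [vorDet]; ring
  have s1 : vorDet b a c = -vorDet a b c := by simp only [vorDet]; ring
  have s2 : vorDet a c b = -vorDet a b c := by simp only [vorDet]; ring
  have s3 : vorDet c b a = -vorDet a b c := by simp only [vorDet]; ring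
  rcases ha' with rfl | rfl | rfl <;> rcases hb' with rfl | rfl | rfl <;> rcases hc' with rfl | rfl | rfl <;>
    first
    | exact absurd rfl n1
    | exact absurd rfl n2
    | exact absurd rfl n3
    | exact Or.inl ⟨rfl, rfl, rfl⟩
    | exact Or.inr (Or.inl ⟨rfl, rfl, rfl⟩)
    | exact Or.inr (Or.inr ⟨rfl, rfl, rfl⟩)
    | (exfalso; linarith)

end T2

/-! ## 3. (T0) size of the Delaunay triangles under density -/

section T0

variable {Y : Set ℂ} {a b c : ℂ}

/-- the triangle lies in its circumscribed disc -/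
theorem del_T_subset_disc (hl : 0 < vorDet a b c) : delT a b c ⊆ closedBall (delO a b c) ‖delO a b c - a‖ := by
  rw [dela_eq_hull hl]
  refine convexHull_min ?_ (convex_closedBall _ _)
  rintro x (rfl | rfl | rfl) <;> rw [mem_closedBall, dist_comm, dist_eq_norm]
  · exact (del_O_ab _ _ _).ge
  · exact (del_O_ac hl.ne').ge

/-- **(T0)** an empty disc which contains a point `p`, near which the sites are `ρ`-dense, has radius `≤ ρ` -/
theorem del_radius_le {p : ℂ} {ρ R : ℝ} (hρ : 0 ≤ ρ) (hρR : ρ < R) (hd : VorDense Y (closedBall p R) ρ) {O : ℂ} {r : ℝ}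
    (hemp : ∀ w ∈ Y, r ≤ ‖O - w‖) (hp : ‖O - p‖ ≤ r) : r ≤ ρ := by
  by_contra hr
  rw [not_le] at hr
  rcases le_or_gt ‖O - p‖ R with h | h
  · obtain ⟨u, hu, hu2⟩ := hd O (by rw [mem_closedBall, dist_eq_norm]; exact h)
    linarith [hemp u hu]
  · have hR0 : 0 ≤ R := by linarith
    have hd0 : 0 < ‖O - p‖ := by linarith
    set θ : ℝ := R / ‖O - p‖ with hθ
    set q : ℂ := p + (θ : ℂ) * (O - p) with hq
    have h1 : ‖q - p‖ = R := by
      rw [hq, add_sub_cancel_left, norm_mul, Complex.norm_real, Real.norm_of_nonneg (by positivity), hθ,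
        div_mul_cancel₀ _ hd0.ne']
    have h2 : ‖O - q‖ = ‖O - p‖ - R := by
      have e : O - q = ((1 - θ : ℝ) : ℂ) * (O - p) := by rw [hq]; push_cast; ring
      have hθ1 : θ < 1 := by rw [hθ, div_lt_one hd0]; exact h
      rw [e, norm_mul, Complex.norm_real, Real.norm_of_nonneg (by linarith), sub_mul, one_mul, hθ, div_mul_cancel₀ _ hd0.ne']
    obtain ⟨u, hu, hu2⟩ := hd q (by rw [mem_closedBall, dist_eq_norm]; exact h1.le)
    have h3 : ‖O - u‖ ≤ ‖O - q‖ + ‖q - u‖ := by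
      calc ‖O - u‖ = ‖(O - q) + (q - u)‖ := by ring_nf
        _ ≤ _ := norm_add_le _ _
    linarith [hemp u hu]

/-- the circumradius of a Delaunay triangle through `p` -/
theorem del_tri_radius_le {p : ℂ} {ρ R : ℝ} (hρ : 0 ≤ ρ) (hρR : ρ < R) (hd : VorDense Y (closedBall p R) ρ) (h : DelTri Y a b c)
    (hp : p ∈ delT a b c) : ‖delO a b c - a‖ ≤ ρ :=
  del_radius_le hρ hρR hd h.empty (by
    have := del_T_subset_disc h.left hp
    rwa [mem_closedBall, dist_comm, dist_eq_norm] at this)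

/-- the vertices of a Delaunay triangle through `p` are within `2ρ` of `p` -/
theorem del_tri_near {p : ℂ} {ρ R : ℝ} (hρ : 0 ≤ ρ) (hρR : ρ < R) (hd : VorDense Y (closedBall p R) ρ) (h : DelTri Y a b c)
    (hp : p ∈ delT a b c) : ‖a - p‖ ≤ 2 * ρ ∧ ‖b - p‖ ≤ 2 * ρ ∧ ‖c - p‖ ≤ 2 * ρ := by
  have hr := del_tri_radius_le hρ hρR hd h hp
  have h0 := del_T_subset_disc h.left hp
  rw [mem_closedBall, dist_comm, dist_eq_norm] at h0
  have key : ∀ v : ℂ, ‖delO a b c - v‖ = ‖delO a b c - a‖ → ‖v - p‖ ≤ 2 * ρ := by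
    intro v hv
    calc ‖v - p‖ = ‖(delO a b c - p) - (delO a b c - v)‖ := by ring_nf
      _ ≤ ‖delO a b c - p‖ + ‖delO a b c - v‖ := norm_sub_le _ _
      _ ≤ 2 * ρ := by rw [hv]; linarith
  exact ⟨key a rfl, key b (del_O_ab a b c).symm, key c (del_O_ac h.left.ne').symm⟩

end T0

/-! ## 4. (T1) the Delaunay triangles cover -/

section T1

variable {Y : Set ℂ}

/-- the power of `p` with respect to the largest empty disc centred at `z` (up to the sign) -/
noncomputable def delPhi (Y : Set ℂ) (p z : ℂ) : ℝ := infDist z Y ^ 2 - ‖z - p‖ ^ 2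

theorem del_infDist {v z : ℂ} (hv : v ∈ Y) (hz : z ∈ vorCell Y v) : infDist z Y = ‖z - v‖ := by
  apply le_antisymm
  · rw [← dist_eq_norm]; exact infDist_le_dist_of_mem hv
  · rw [le_infDist ⟨v, hv⟩]
    intro y hy
    rw [dist_eq_norm]
    exact hz y hy

theorem del_Phi_cont (Y : Set ℂ) (p : ℂ) : Continuous (delPhi Y p) := by
  unfold delPhi
  exact ((continuous_infDist_pt Y).pow 2).sub (by fun_prop)

/-- a real linear form on `ℂ` in coordinates -/
theorem del_form (f : ℂ →L[ℝ] ℝ) (q : ℂ) : f q = q.re * f 1 + q.im * f I := by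
  have e : q = q.re • (1 : ℂ) + q.im • I := by
    apply Complex.ext <;> simp
  conv_lhs => rw [e]
  rw [map_add, map_smul, map_smul, smul_eq_mul, smul_eq_mul]

/-- **the optimal empty disc**: `p` is in the convex hull of the sites nearest to some point `z` (a global maximiser of `delPhi Y p`) -/
theorem del_T1_opt (hLF : VorLF Y) (hne : Y.Nonempty) {p : ℂ} (hbd : Bornology.IsBounded (vorCell Y p)) :
    ∃ z ∈ vorCell Y p, p ∈ convexHull ℝ {y | y ∈ Y ∧ z ∈ vorCell Y y} := by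
  have hK : IsCompact (vorCell Y p) := Metric.isCompact_of_isClosed_isBounded (vor_isClosed_cell Y p) hbd
  obtain ⟨z, hzK, hmaxK⟩ := hK.exists_isMaxOn ⟨p, vor_self_mem Y p⟩ (del_Phi_cont Y p).continuousOn
  have h0 : 0 ≤ delPhi Y p z := by
    refine le_trans ?_ (hmaxK (vor_self_mem Y p))
    unfold delPhi
    rw [sub_self, norm_zero]
    have := sq_nonneg (infDist p Y)
    linarith
  have hmax : ∀ z', delPhi Y p z' ≤ delPhi Y p z := by
    intro z'
    by_cases hz' : z' ∈ vorCell Y p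
    · exact hmaxK hz'
    · have : ∃ u ∈ Y, ‖z' - u‖ < ‖z' - p‖ := by
        by_contra hh
        push Not at hh
        exact hz' hh
      obtain ⟨u, hu, hlt⟩ := this
      have h1 : infDist z' Y ≤ ‖z' - u‖ := by rw [← dist_eq_norm]; exact infDist_le_dist_of_mem hu
      have h2 : infDist z' Y ^ 2 ≤ ‖z' - p‖ ^ 2 := pow_le_pow_left₀ infDist_nonneg (h1.trans hlt.le) 2
      unfold delPhi at h0 ⊢
      linarith
  obtain ⟨v, hv, hzv⟩ := vor_cover hLF hne z
  have hΦz : ∀ y ∈ Y, z ∈ vorCell Y y → delPhi Y p z = ‖z - y‖ ^ 2 - ‖z - p‖ ^ 2 := fun y hy hzy => by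
    unfold delPhi; rw [del_infDist hy hzy]
  refine ⟨z, hzK, ?_⟩
  set A : Set ℂ := {y | y ∈ Y ∧ z ∈ vorCell Y y} with hA
  by_contra hpA
  have hAfin : A.Finite := by
    refine (hLF.finite_ball z ‖z - v‖).subset ?_
    rintro y ⟨hy, hzy⟩
    refine ⟨hy, ?_⟩
    rw [mem_closedBall, dist_comm, dist_eq_norm]
    exact hzy v hv
  obtain ⟨f, u, hfp, hfy⟩ := geometric_hahn_banach_point_closed (convex_convexHull ℝ A) (hAfin.isClosed_convexHull ℝ) hpA
  set w : ℂ := ⟨-f 1, -f I⟩ with hw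
  -- near `z` only the cells of `A`
  have hcl : IsClosed (vorUn Y (Y \ A)) := vor_isClosed_un hLF sdiff_subset
  have hzU : z ∈ (vorUn Y (Y \ A))ᶜ := by
    rintro ⟨y, ⟨hy, hyA⟩, hzy⟩
    exact hyA ⟨hy, hzy⟩
  obtain ⟨ε, hε, hball⟩ := Metric.isOpen_iff.1 hcl.isOpen_compl z hzU
  set t : ℝ := ε / (2 * (‖w‖ + 1)) with ht
  have hw1 : 0 < ‖w‖ + 1 := by positivity
  have ht0 : 0 < t := by positivity
  have htw : t * ‖w‖ < ε := by
    have e : t * ‖w‖ = ε * (‖w‖ / (2 * (‖w‖ + 1))) := by rw [ht]; field_simp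
    rw [e]
    have : ‖w‖ / (2 * (‖w‖ + 1)) < 1 := by
      rw [div_lt_one (by positivity)]
      linarith [norm_nonneg w]
    nlinarith
  set z' : ℂ := z + (t : ℂ) * w with hz'
  have hn : ‖z' - z‖ = t * ‖w‖ := by
    rw [hz', add_sub_cancel_left, norm_mul, Complex.norm_real, Real.norm_of_nonneg ht0.le]
  have hz'U : z' ∈ (vorUn Y (Y \ A))ᶜ := hball (by
    rw [mem_ball, dist_eq_norm, hn]; exact htw)
  obtain ⟨y, hy, hz'y⟩ := vor_cover hLF hne z'
  have hyA : y ∈ A := by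
    by_contra hyA
    exact hz'U ⟨y, ⟨hy, hyA⟩, hz'y⟩
  have h1 : delPhi Y p z' ≤ delPhi Y p z := hmax z'
  have h2 : delPhi Y p z' = ‖z' - y‖ ^ 2 - ‖z' - p‖ ^ 2 := by unfold delPhi; rw [del_infDist hy hz'y]
  rw [h2, hΦz y hyA.1 hyA.2] at h1
  have h3 : (‖z' - y‖ ^ 2 - ‖z' - p‖ ^ 2) - (‖z - y‖ ^ 2 - ‖z - p‖ ^ 2) = 2 * t * (f y - f p) := by
    rw [del_form f y, del_form f p, del_sq, del_sq, del_sq, del_sq, hz']
    simp only [sub_re, sub_im, add_re, add_im, mul_re, mul_im, ofReal_re, ofReal_im, zero_mul, sub_zero, add_zero, hw]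
    ring
  have h4 : f p < f y := hfp.trans (hfy y (subset_convexHull ℝ A hyA))
  nlinarith

/-- a bounded cell has a neighbour -/
theorem del_exists_adj (hLF : VorLF Y) {a : ℂ} (ha : a ∈ Y) (hbd : Bornology.IsBounded (vorCell Y a)) : ∃ b, DelAdj Y a b := by
  obtain ⟨z, hz⟩ := (vor_frontier_connected hLF hbd).nonempty
  obtain ⟨hza, b, hb, hba, hzb⟩ := vor_frontier_subset hLF ha hz
  exact ⟨b, ha, hb, hba.symm, z, hza, hzb⟩

/-- **(T1)** the Delaunay triangles cover, general form: bounded cells -/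
theorem del_cover_bdd (hLF : VorLF Y) (hY : VorGP Y) (hne : Y.Nonempty) {p : ℂ} (hbp : Bornology.IsBounded (vorCell Y p))
    (hbd : ∀ a ∈ Y, (vorCell Y a ∩ vorCell Y p).Nonempty → Bornology.IsBounded (vorCell Y a)) :
    ∃ a b c, DelTri Y a b c ∧ p ∈ delT a b c := by
  obtain ⟨z, hzp, hpA⟩ := del_T1_opt hLF hne hbp
  set A : Set ℂ := {y | y ∈ Y ∧ z ∈ vorCell Y y} with hA
  have hbd : ∀ x ∈ A, Bornology.IsBounded (vorCell Y x) := fun x hx => hbd x hx.1 ⟨z, hx.2, hzp⟩
  have fin : ∀ a b c : ℂ, DelTri Y a b c → A ⊆ {a, b, c} → p ∈ delT a b c := fun a b c ht h => by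
    rw [dela_eq_hull ht.left]
    exact convexHull_mono h hpA
  obtain ⟨a, haA⟩ : A.Nonempty := by
    rw [← convexHull_nonempty_iff (𝕜 := ℝ)]
    exact ⟨p, hpA⟩
  -- two sites
  have two : ∀ b, DelAdj Y a b → A ⊆ {a, b} → ∃ a b c, DelTri Y a b c ∧ p ∈ delT a b c := by
    intro b hab hsub
    obtain ⟨c, hc⟩ := del_apex_exists hLF (hbd a haA) hab
    refine ⟨a, b, c, hc, fin a b c hc fun x hx => ?_⟩
    rcases hsub hx with r | r
    · exact Or.inl r
    · exact Or.inr (Or.inl r)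
  by_cases h2 : ∃ b ∈ A, b ≠ a
  · obtain ⟨b, hbA, hba⟩ := h2
    by_cases h3 : ∃ c ∈ A, c ≠ a ∧ c ≠ b
    · obtain ⟨c, hcA, hca, hcb⟩ := h3
      have hsub : A ⊆ {a, b, c} := fun x hx =>
        del_le_three hY haA.1 hbA.1 hcA.1 hx.1 hba.symm hca.symm hcb.symm haA.2 hbA.2 hcA.2 hx.2
      rcases del_three hY haA.1 hbA.1 hcA.1 hba.symm hca.symm hcb.symm haA.2 hbA.2 hcA.2 with h | h
      · exact ⟨a, b, c, h, fin a b c h hsub⟩
      · refine ⟨b, a, c, h, fin b a c h fun x hx => ?_⟩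
        rcases hsub hx with r | r | r
        · exact Or.inr (Or.inl r)
        · exact Or.inl r
        · exact Or.inr (Or.inr r)
    · push Not at h3
      refine two b ⟨haA.1, hbA.1, hba.symm, z, haA.2, hbA.2⟩ fun x hx => ?_
      by_cases hxa : x = a
      · exact Or.inl hxa
      · exact Or.inr (h3 x hx hxa)
  · push Not at h2
    obtain ⟨b, hab⟩ := del_exists_adj hLF haA.1 (hbd a haA)
    exact two b hab fun x hx => Or.inl (h2 x hx)

/-- **(T1)** the Delaunay triangles cover: every point near which the sites are `ρ`-dense lies in a closed Delaunay triangle -/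
theorem del_cover (hLF : VorLF Y) (hY : VorGP Y) {p : ℂ} {ρ : ℝ} (hρ : 0 < ρ) (hd : VorDense Y (closedBall p (4 * ρ)) ρ) :
    ∃ a b c, DelTri Y a b c ∧ p ∈ delT a b c := by
  have hne : Y.Nonempty := by
    obtain ⟨u, hu, _⟩ := hd p (mem_closedBall_self (by linarith))
    exact ⟨u, hu⟩
  have hsub : vorCell Y p ⊆ closedBall p ρ := vor_cell_subset_ball hρ.le (by linarith) hd
  refine del_cover_bdd hLF hY hne (isBounded_closedBall.subset hsub) ?_
  rintro x hx ⟨z, hzx, hzp⟩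
  have hzp' : ‖z - p‖ ≤ ρ := by
    have := hsub hzp
    rwa [mem_closedBall, dist_eq_norm] at this
  have hzB : z ∈ closedBall p (4 * ρ) := by rw [mem_closedBall, dist_eq_norm]; linarith
  have h1 : ‖z - x‖ ≤ ρ := vor_site_near hd hzx hzB
  have hd' : VorDense Y (closedBall x (2 * ρ)) ρ := by
    refine hd.mono subset_rfl ?_ le_rfl
    intro q hq
    rw [mem_closedBall, dist_eq_norm] at hq ⊢
    calc ‖q - p‖ = ‖(q - x) - (z - x) + (z - p)‖ := by ring_nf
      _ ≤ ‖(q - x) - (z - x)‖ + ‖z - p‖ := norm_add_le _ _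
      _ ≤ ‖q - x‖ + ‖z - x‖ + ‖z - p‖ := by linarith [norm_sub_le (q - x) (z - x)]
      _ ≤ 4 * ρ := by linarith
  exact isBounded_closedBall.subset (vor_cell_subset_ball hρ.le (by linarith) hd')

end T1

/-! ## 5. (T3) almost every point lies in the open triangle -/

section T3

open MeasureTheory

variable {Y : Set ℂ}

theorem VorLF.countable (hLF : VorLF Y) : Y.Countable := by
  have : Y = ⋃ n : ℕ, Y ∩ closedBall (0 : ℂ) n := by
    rw [← inter_iUnion, iUnion_closedBall_nat, inter_univ]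
  rw [this]
  exact countable_iUnion fun n => (hLF n).countable

/-- the union of the lines through two distinct sites -/
def delSkel (Y : Set ℂ) : Set ℂ := ⋃ a ∈ Y, ⋃ b ∈ Y, {x | a ≠ b ∧ vorDet a b x = 0}

theorem del_skel_null (hLF : VorLF Y) : volume (delSkel Y) = 0 := by
  have hc := hLF.countable
  unfold delSkel
  refine (measure_biUnion_null_iff hc).2 fun a _ => (measure_biUnion_null_iff hc).2 fun b _ => ?_
  by_cases hab : a = b
  · have : {x : ℂ | a ≠ b ∧ vorDet a b x = 0} = ∅ := by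
      ext x
      simp [hab]
    rw [this, measure_empty]
  · exact measure_mono_null (fun x hx => hx.2) (dela_line_null hab)

theorem del_notMem_skel {a b p : ℂ} (ha : a ∈ Y) (hb : b ∈ Y) (hab : a ≠ b) (hp : p ∉ delSkel Y) : vorDet a b p ≠ 0 := by
  intro h0
  apply hp
  simp only [delSkel, mem_iUnion]
  exact ⟨a, ha, b, hb, hab, h0⟩

/-- off the skeleton a point of a closed triangle is a point of the open triangle -/
theorem del_mem_open {a b c p : ℂ} (ha : a ∈ Y) (hb : b ∈ Y) (hc : c ∈ Y) (hl : 0 < vorDet a b c) (hp : p ∉ delSkel Y)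
    (h : p ∈ delT a b c) : p ∈ delTo a b c := by
  obtain ⟨n1, n2, n3⟩ := dela_ne_of_det hl
  exact ⟨lt_of_le_of_ne h.1 (del_notMem_skel ha hb n1 hp).symm, lt_of_le_of_ne h.2.1 (del_notMem_skel hb hc n2 hp).symm,
    lt_of_le_of_ne h.2.2 (del_notMem_skel hc ha n3 hp).symm⟩

/-- the open triangle is the interior of the closed one -/
theorem del_interior {a b c : ℂ} (hl : 0 < vorDet a b c) : interior (delT a b c) = delTo a b c := by
  apply Subset.antisymm
  · intro p hp
    have hU := mem_interior_iff_mem_nhds.1 hp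
    have hpT := interior_subset hp
    obtain ⟨n1, n2, n3⟩ := dela_ne_of_det hl
    have key : ∀ u v : ℂ, u ≠ v → (∀ q ∈ delT a b c, 0 ≤ vorDet u v q) → 0 < vorDet u v p := by
      intro u v huv hq
      refine lt_of_le_of_ne (hq p hpT) fun h0 => huv ?_
      have hf : ∀ q : ℂ, (v.im - u.im) * q.re + (-(v.re - u.re)) * q.im + ((v.re - u.re) * u.im - (v.im - u.im) * u.re) = -vorDet u v q := by
        intro q
        simp only [vorDet]
        ring
      obtain ⟨e1, e2⟩ := del_aff_max hU (by rw [hf, ← h0, neg_zero]) fun q hq' => by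
        rw [hf]
        linarith [hq q hq']
      exact Complex.ext (by linarith) (by linarith)
    exact ⟨key a b n1 fun q hq => hq.1, key b c n2 fun q hq => hq.2.1, key c a n3 fun q hq => hq.2.2⟩
  · exact interior_maximal (dela_open_subset a b c) (dela_isOpen a b c)

end T3

/-! ## 6. the tiling -/

section tile

open MeasureTheory

variable {Y : Set ℂ}

theorem del_tile_eqns_cite : True := by
  have := @delPhi.eq_1
  have := @delSkel.eq_1
  trivial

/-- **(T3)**, general form (bounded cells): off the skeleton exactly one Delaunay triangle (up to rotation) contains `p`, and `p` is in the open triangle -/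
theorem del_tile_bdd (hLF : VorLF Y) (hY : VorGP Y) (hne : Y.Nonempty) {p : ℂ} (hbp : Bornology.IsBounded (vorCell Y p))
    (hbd : ∀ a ∈ Y, (vorCell Y a ∩ vorCell Y p).Nonempty → Bornology.IsBounded (vorCell Y a)) (hp : p ∉ delSkel Y) :
    ∃ a b c, DelTri Y a b c ∧ p ∈ delTo a b c ∧ ∀ a' b' c', DelTri Y a' b' c' → p ∈ delT a' b' c' →
      (a' = a ∧ b' = b ∧ c' = c) ∨ (a' = b ∧ b' = c ∧ c' = a) ∨ (a' = c ∧ b' = a ∧ c' = b) := by
  obtain ⟨a, b, c, h, hpT⟩ := del_cover_bdd hLF hY hne hbp hbd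
  have hi := del_mem_open h.1 h.2.1 h.2.2.1 h.left hp hpT
  exact ⟨a, b, c, h, hi, fun a' b' c' h' hp' => del_T2 hY h h' hi hp'⟩

/-- **(T3)** off the skeleton exactly one Delaunay triangle (up to rotation) contains `p`, and `p` is in the open triangle -/
theorem del_tile (hLF : VorLF Y) (hY : VorGP Y) {p : ℂ} {ρ : ℝ} (hρ : 0 < ρ) (hd : VorDense Y (closedBall p (4 * ρ)) ρ)
    (hp : p ∉ delSkel Y) :
    ∃ a b c, DelTri Y a b c ∧ p ∈ delTo a b c ∧ ∀ a' b' c', DelTri Y a' b' c' → p ∈ delT a' b' c' →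
      (a' = a ∧ b' = b ∧ c' = c) ∨ (a' = b ∧ b' = c ∧ c' = a) ∨ (a' = c ∧ b' = a ∧ c' = b) := by
  obtain ⟨a, b, c, h, hpT⟩ := del_cover hLF hY hρ hd
  have hi := del_mem_open h.1 h.2.1 h.2.2.1 h.left hp hpT
  exact ⟨a, b, c, h, hi, fun a' b' c' h' hp' => del_T2 hY h h' hi hp'⟩

/-- **(T3)**, almost everywhere form -/
theorem del_tile_ae (hLF : VorLF Y) (hY : VorGP Y) :
    ∀ᵐ p : ℂ, ∀ ρ : ℝ, 0 < ρ → VorDense Y (closedBall p (4 * ρ)) ρ →
      ∃ a b c, DelTri Y a b c ∧ p ∈ delTo a b c ∧ ∀ a' b' c', DelTri Y a' b' c' → p ∈ delT a' b' c' →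
        (a' = a ∧ b' = b ∧ c' = c) ∨ (a' = b ∧ b' = c ∧ c' = a) ∨ (a' = c ∧ b' = a ∧ c' = b) := by
  have h0 : ∀ᵐ p : ℂ, p ∉ delSkel Y := measure_eq_zero_iff_ae_notMem.1 (del_skel_null hLF)
  filter_upwards [h0] with p hp ρ hρ hd using del_tile hLF hY hρ hd hp

/-- **(T3)**, almost everywhere form, all cells bounded -/
theorem del_tile_ae_bdd (hLF : VorLF Y) (hY : VorGP Y) (hne : Y.Nonempty) (hbd : ∀ v : ℂ, Bornology.IsBounded (vorCell Y v)) :
    ∀ᵐ p : ℂ, ∃ a b c, DelTri Y a b c ∧ p ∈ delTo a b c ∧ ∀ a' b' c', DelTri Y a' b' c' → p ∈ delT a' b' c' →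
        (a' = a ∧ b' = b ∧ c' = c) ∨ (a' = b ∧ b' = c ∧ c' = a) ∨ (a' = c ∧ b' = a ∧ c' = b) := by
  have h0 : ∀ᵐ p : ℂ, p ∉ delSkel Y := measure_eq_zero_iff_ae_notMem.1 (del_skel_null hLF)
  filter_upwards [h0] with p hp using del_tile_bdd hLF hY hne (hbd p) (fun a _ _ => hbd a) hp

/-- an open Delaunay triangle is disjoint from every other closed one -/
theorem del_T2_disj (hY : VorGP Y) {a b c a' b' c' : ℂ} (h : DelTri Y a b c) (h' : DelTri Y a' b' c')
    (hne : ¬ ((a' = a ∧ b' = b ∧ c' = c) ∨ (a' = b ∧ b' = c ∧ c' = a) ∨ (a' = c ∧ b' = a ∧ c' = b))) :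
    Disjoint (delTo a b c) (delT a' b' c') :=
  Set.disjoint_left.2 fun _ hp hp' => hne (del_T2 hY h h' hp hp')

/-- two different closed Delaunay triangles meet in a null set -/
theorem del_T2_null (hY : VorGP Y) {a b c a' b' c' : ℂ} (h : DelTri Y a b c) (h' : DelTri Y a' b' c')
    (hne : ¬ ((a' = a ∧ b' = b ∧ c' = c) ∨ (a' = b ∧ b' = c ∧ c' = a) ∨ (a' = c ∧ b' = a ∧ c' = b))) :
    volume (delT a b c ∩ delT a' b' c') = 0 := by
  refine measure_mono_null ?_ (dela_bd_null h.left)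
  rintro x ⟨hx, hx'⟩
  exact ⟨hx, fun hxo => Set.disjoint_left.1 (del_T2_disj hY h h' hne) hxo hx'⟩

/-- **(T5)** a Delaunay edge (bounded cells) lies in exactly two Delaunay triangles, one on each side -/
theorem del_edge_two (hLF : VorLF Y) (hY : VorGP Y) {a b : ℂ} (hab : DelAdj Y a b) (hba : Bornology.IsBounded (vorCell Y a))
    (hbb : Bornology.IsBounded (vorCell Y b)) : (∃! c, DelTri Y a b c) ∧ (∃! d, DelTri Y b a d) := by
  obtain ⟨c, hc⟩ := del_apex_exists hLF hba hab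
  obtain ⟨d, hd⟩ := del_apex_exists hLF hbb hab.symm
  exact ⟨⟨c, hc, fun c' hc' => (del_tri_unique hY hc hc').symm⟩, ⟨d, hd, fun d' hd' => (del_tri_unique hY hd hd').symm⟩⟩

/-- finitely many Delaunay triangles meet a bounded set near which the sites are dense -/
theorem del_tri_finite (hLF : VorLF Y) {K : Set ℂ} (hK : Bornology.IsBounded K) {ρ R : ℝ} (hρ : 0 ≤ ρ) (hρR : ρ < R)
    (hd : VorDense Y (vorNbd K R) ρ) :
    {t : ℂ × ℂ × ℂ | DelTri Y t.1 t.2.1 t.2.2 ∧ (delT t.1 t.2.1 t.2.2 ∩ K).Nonempty}.Finite := by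
  obtain ⟨M, hM⟩ := hK.subset_closedBall (0 : ℂ)
  set F : Set ℂ := Y ∩ closedBall (0 : ℂ) (M + 2 * ρ) with hF
  have hFfin : F.Finite := hLF _
  refine (hFfin.prod (hFfin.prod hFfin)).subset ?_
  rintro ⟨a, b, c⟩ ⟨h, p, hpT, hpK⟩
  have hd' : VorDense Y (closedBall p R) ρ := hd.mono subset_rfl (fun q hq => ⟨p, hpK, by
    rwa [mem_closedBall, dist_eq_norm] at hq⟩) le_rfl
  obtain ⟨h1, h2, h3⟩ := del_tri_near hρ hρR hd' h hpT
  have hp0 : ‖p‖ ≤ M := by
    have := hM hpK
    rwa [mem_closedBall, dist_zero_right] at this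
  have key : ∀ v : ℂ, ‖v - p‖ ≤ 2 * ρ → v ∈ closedBall (0 : ℂ) (M + 2 * ρ) := by
    intro v hv
    rw [mem_closedBall, dist_zero_right]
    calc ‖v‖ = ‖(v - p) + p‖ := by ring_nf
      _ ≤ ‖v - p‖ + ‖p‖ := norm_add_le _ _
      _ ≤ M + 2 * ρ := by linarith
  exact ⟨⟨h.1, key a h1⟩, ⟨h.2.1, key b h2⟩, ⟨h.2.2.1, key c h3⟩⟩

/-- window form of (T1) -/
theorem del_cover_win (hLF : VorLF Y) (hY : VorGP Y) {K : Set ℂ} {ρ : ℝ} (hρ : 0 < ρ) (hd : VorDense Y (vorNbd K (4 * ρ)) ρ) {p : ℂ}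
    (hp : p ∈ K) : ∃ a b c, DelTri Y a b c ∧ p ∈ delT a b c :=
  del_cover hLF hY hρ (hd.mono subset_rfl (fun q hq => ⟨p, hp, by rwa [mem_closedBall, dist_eq_norm] at hq⟩) le_rfl)

end tile

end Claimed.Agent.R289
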