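import Claimed.Agent.R289.Defs.Bulk
import Claimed.Agent.R289.Del.Plane
import Claimed.Agent.R289.Del.Tile
import Claimed.Agent.R289.Pl.Rim

/-!
# Row 289 (S0537), box DEL, file Del/Bulk : BULK FAMILIES AGAINST THE DELAUNAY PLANE      (owner helper219; prefix `delb_`, `delb`, `Delb`)

The DETERMINISTIC dictionary between a bulk family `𝔅 : PvBulk X` (`Defs/Bulk.lean`, 163) with `𝔅.Ok Y K` and the Delaunay triangulation of the whole plane `(delPl h).toMap` (`Del/Plane.lean`).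
Consumers: LOCALITY / TR24 (22), CR.B (161), ARM exits (241 237 84), S1P (244), BRIDGE (188).

* sec. 1  labels, positions, embedded faces: `delb_pos_inl`, `delb_emb_nxt`, `delb_emb_sf`, `delb_ok_mono`, `delb_tri`, `delb_emb_of_src/_tgt/_apex`, `delb_emb_opp_of_src/_tgt`, `delb_dart_ext`
* sec. 2  the weights in coordinates: `delb_bary delb_side delb_qpart delb_upart delb_wQ delb_wV`, zero off the embedded faces and off the support of the test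
* sec. 3  THE FULL PLANE AS A BULK FAMILY: `delbPl Y : PlTri ↥Y` (total in `Y`), `delb_pl_eq h : delbPl Y = delPl h`, `delbPlane : PvBulk Empty`, `delb_plane_ok`      (twin of `dlsBulk` of `Del/Seam.lean`, 271; not `Adm` since `Adm` = finite)
* sec. 4  THE LOCAL DICTIONARY: `DelbRel 𝔅 h d e` (the bulk dart `d` and the plane dart `e` have the same end points): functional, injective, compatible with `opp nxt rot rotInv apex`,
          defined on all embedded darts, ONTO the plane darts whose face has a vertex in `K`;  vertices and adjacency at the sites of `K`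
* sec. 5  colourings: `delb_col_inl/_inr`, `DelbCol`, transfer of `Occ`, `Tag`;  weights through the dictionary
* sec. 6  rims of a bulk family inside `K`: one step of a rim (`delb_rim_step`, `delb_rim_step'`), ARM EXTRACTION `delb_rim_arm` (a rim which visits `B ⊆ K` and is not contained in `B` carries a monochromatic Delaunay chain from the visit to the complement of `B`)
-/

set_option autoImplicit false

namespace Claimed.Agent.R289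

open Set Metric Claims.C0465

/-! ## 1. labels, positions, embedded faces -/

section lab

variable {X : Type} (𝔅 : PvBulk X) {Y K : Set ℂ}

theorem delb_pos_inl {v : 𝔅.V Y} {a : ℂ} (h : 𝔅.lab Y v = Sum.inl a) : 𝔅.pos Y v = a := by
  unfold PvBulk.pos; rw [h]; rfl

theorem delb_emb_nxt (d : 𝔅.D Y) : 𝔅.Emb Y ((𝔅.T Y).nxt d) ↔ 𝔅.Emb Y d := by
  constructor
  · rintro ⟨a, b, c, h1, h2, h3⟩
    rw [PvMap.src_nxt] at h1; rw [PvMap.tgt_nxt] at h2; rw [PvMap.apex_nxt] at h3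
    exact ⟨c, a, b, h3, h1, h2⟩
  · rintro ⟨a, b, c, h1, h2, h3⟩
    exact ⟨b, c, a, by rw [PvMap.src_nxt]; exact h2, by rw [PvMap.tgt_nxt]; exact h3, by rw [PvMap.apex_nxt]; exact h1⟩

theorem delb_emb_nxt2 (d : 𝔅.D Y) : 𝔅.Emb Y ((𝔅.T Y).nxt ((𝔅.T Y).nxt d)) ↔ 𝔅.Emb Y d :=
  (delb_emb_nxt 𝔅 _).trans (delb_emb_nxt 𝔅 d)

theorem delb_emb_sf {d d' : 𝔅.D Y} (h : (𝔅.T Y).SF d d') : 𝔅.Emb Y d' ↔ 𝔅.Emb Y d := by
  rcases h with rfl | rfl | rfl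
  · exact Iff.rfl
  · exact delb_emb_nxt 𝔅 d
  · exact delb_emb_nxt2 𝔅 d

/-- on an embedded face the labels are the positions -/
theorem delb_emb_lab {d : 𝔅.D Y} (h : 𝔅.Emb Y d) :
    𝔅.lab Y ((𝔅.T Y).src d) = Sum.inl (𝔅.pos Y ((𝔅.T Y).src d)) ∧ 𝔅.lab Y ((𝔅.T Y).tgt d) = Sum.inl (𝔅.pos Y ((𝔅.T Y).tgt d)) ∧
      𝔅.lab Y ((𝔅.T Y).apex d) = Sum.inl (𝔅.pos Y ((𝔅.T Y).apex d)) := by
  obtain ⟨a, b, c, h1, h2, h3⟩ := h
  rw [delb_pos_inl 𝔅 h1, delb_pos_inl 𝔅 h2, delb_pos_inl 𝔅 h3]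
  exact ⟨h1, h2, h3⟩

variable {𝔅}

theorem delb_ok_mono {K' : Set ℂ} (hK : K' ⊆ K) (h : 𝔅.Ok Y K) : 𝔅.Ok Y K' :=
  ⟨h.sph, h.simple, h.inj, h.site, fun a b c ht ha => h.face a b c ht (hK ha), fun d a hd ha => h.del d a hd (hK ha), h.emb⟩

/-- an embedded face is a Delaunay triangle -/
theorem delb_tri (h : 𝔅.Ok Y K) {d : 𝔅.D Y} (hd : 𝔅.Emb Y d) :
    DelTri Y (𝔅.pos Y ((𝔅.T Y).src d)) (𝔅.pos Y ((𝔅.T Y).tgt d)) (𝔅.pos Y ((𝔅.T Y).apex d)) := by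
  obtain ⟨h1, h2, h3⟩ := delb_emb_lab 𝔅 hd
  exact h.emb d _ _ _ h1 h2 h3

theorem delb_emb_of_src (h : 𝔅.Ok Y K) {d : 𝔅.D Y} {a : ℂ} (ha : 𝔅.lab Y ((𝔅.T Y).src d) = Sum.inl a) (haK : a ∈ K) : 𝔅.Emb Y d := by
  obtain ⟨b, c, h2, h3, -⟩ := h.del d a ha haK
  exact ⟨a, b, c, ha, h2, h3⟩

theorem delb_emb_of_tgt (h : 𝔅.Ok Y K) {d : 𝔅.D Y} {a : ℂ} (ha : 𝔅.lab Y ((𝔅.T Y).tgt d) = Sum.inl a) (haK : a ∈ K) : 𝔅.Emb Y d :=
  (delb_emb_nxt 𝔅 d).1 (delb_emb_of_src h (d := (𝔅.T Y).nxt d) ha haK)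

theorem delb_emb_of_apex (h : 𝔅.Ok Y K) {d : 𝔅.D Y} {a : ℂ} (ha : 𝔅.lab Y ((𝔅.T Y).apex d) = Sum.inl a) (haK : a ∈ K) : 𝔅.Emb Y d :=
  (delb_emb_nxt2 𝔅 d).1 (delb_emb_of_src h (d := (𝔅.T Y).nxt ((𝔅.T Y).nxt d)) ha haK)

theorem delb_emb_opp_of_src (h : 𝔅.Ok Y K) {d : 𝔅.D Y} {a : ℂ} (ha : 𝔅.lab Y ((𝔅.T Y).src d) = Sum.inl a) (haK : a ∈ K) : 𝔅.Emb Y ((𝔅.T Y).opp d) :=
  delb_emb_of_tgt h (d := (𝔅.T Y).opp d) (by rw [PvMap.tgt_opp]; exact ha) haK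

theorem delb_emb_opp_of_tgt (h : 𝔅.Ok Y K) {d : 𝔅.D Y} {a : ℂ} (ha : 𝔅.lab Y ((𝔅.T Y).tgt d) = Sum.inl a) (haK : a ∈ K) : 𝔅.Emb Y ((𝔅.T Y).opp d) :=
  delb_emb_of_src h (d := (𝔅.T Y).opp d) (by rw [PvMap.src_opp']; exact ha) haK

/-- a dart is determined by the labels of its end points -/
theorem delb_dart_ext (h : 𝔅.Ok Y K) {d d' : 𝔅.D Y} (h1 : 𝔅.lab Y ((𝔅.T Y).src d) = 𝔅.lab Y ((𝔅.T Y).src d'))
    (h2 : 𝔅.lab Y ((𝔅.T Y).tgt d) = 𝔅.lab Y ((𝔅.T Y).tgt d')) : d = d' := h.simple _ _ (h.inj h1) (h.inj h2)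

/-- the face at a vertex of `K`, in coordinates -/
theorem delb_del_tgt (h : 𝔅.Ok Y K) {d : 𝔅.D Y} {b : ℂ} (hb : 𝔅.lab Y ((𝔅.T Y).tgt d) = Sum.inl b) (hbK : b ∈ K) :
    ∃ a c : ℂ, 𝔅.lab Y ((𝔅.T Y).src d) = Sum.inl a ∧ 𝔅.lab Y ((𝔅.T Y).apex d) = Sum.inl c ∧ DelTri Y a b c := by
  obtain ⟨c, a, h2, h3, ht⟩ := h.del ((𝔅.T Y).nxt d) b hb hbK
  rw [PvMap.tgt_nxt] at h2; rw [PvMap.apex_nxt] at h3
  exact ⟨a, c, h3, h2, del_tri_cyc (del_tri_cyc ht)⟩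

end lab

/-! ## 2. the weights in coordinates -/

section weights

variable {X : Type} (𝔅 : PvBulk X) {Y : Set ℂ} {d : 𝔅.D Y} {a b c : ℂ}

theorem delb_bary (h1 : 𝔅.lab Y ((𝔅.T Y).src d) = Sum.inl a) (h2 : 𝔅.lab Y ((𝔅.T Y).tgt d) = Sum.inl b) (h3 : 𝔅.lab Y ((𝔅.T Y).apex d) = Sum.inl c) :
    (𝔅.T Y).bary (𝔅.pos Y) d = (a + b + c) / 3 := by
  unfold PvMap.bary; rw [delb_pos_inl 𝔅 h1, delb_pos_inl 𝔅 h2, delb_pos_inl 𝔅 h3]

theorem delb_side (h1 : 𝔅.lab Y ((𝔅.T Y).src d) = Sum.inl a) (h2 : 𝔅.lab Y ((𝔅.T Y).tgt d) = Sum.inl b) : (𝔅.T Y).side (𝔅.pos Y) d = a - b := by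
  unfold PvMap.side; rw [delb_pos_inl 𝔅 h1, delb_pos_inl 𝔅 h2]

theorem delb_side_nxt (h2 : 𝔅.lab Y ((𝔅.T Y).tgt d) = Sum.inl b) (h3 : 𝔅.lab Y ((𝔅.T Y).apex d) = Sum.inl c) :
    (𝔅.T Y).side (𝔅.pos Y) ((𝔅.T Y).nxt d) = b - c :=
  delb_side 𝔅 (d := (𝔅.T Y).nxt d) h2 h3

theorem delb_side_nxt2 (h1 : 𝔅.lab Y ((𝔅.T Y).src d) = Sum.inl a) (h3 : 𝔅.lab Y ((𝔅.T Y).apex d) = Sum.inl c) :
    (𝔅.T Y).side (𝔅.pos Y) ((𝔅.T Y).nxt ((𝔅.T Y).nxt d)) = c - a :=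
  delb_side 𝔅 (d := (𝔅.T Y).nxt ((𝔅.T Y).nxt d)) h3 (by rw [PvMap.tgt_nxt2]; exact h1)

theorem delb_qpart (h1 : 𝔅.lab Y ((𝔅.T Y).src d) = Sum.inl a) (h2 : 𝔅.lab Y ((𝔅.T Y).tgt d) = Sum.inl b) (h3 : 𝔅.lab Y ((𝔅.T Y).apex d) = Sum.inl c) :
    (𝔅.T Y).qpart (𝔅.pos Y) d = ((a - b) + pvOm * (b - c) + (starRingEnd ℂ) pvOm * (c - a)) / 3 := by
  unfold PvMap.qpart; rw [delb_side 𝔅 h1 h2, delb_side_nxt 𝔅 h2 h3, delb_side_nxt2 𝔅 h1 h3]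

theorem delb_upart (h1 : 𝔅.lab Y ((𝔅.T Y).src d) = Sum.inl a) (h2 : 𝔅.lab Y ((𝔅.T Y).tgt d) = Sum.inl b) (h3 : 𝔅.lab Y ((𝔅.T Y).apex d) = Sum.inl c) :
    (𝔅.T Y).upart (𝔅.pos Y) d = ((a - b) + (starRingEnd ℂ) pvOm * (b - c) + pvOm * (c - a)) / 3 := by
  unfold PvMap.upart; rw [delb_side 𝔅 h1 h2, delb_side_nxt 𝔅 h2 h3, delb_side_nxt2 𝔅 h1 h3]

theorem delb_wQ (f : ℂ → ℂ) (h1 : 𝔅.lab Y ((𝔅.T Y).src d) = Sum.inl a) (h2 : 𝔅.lab Y ((𝔅.T Y).tgt d) = Sum.inl b) (h3 : 𝔅.lab Y ((𝔅.T Y).apex d) = Sum.inl c) :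
    𝔅.wQ Y f d = f ((a + b + c) / 3) * (((a - b) + pvOm * (b - c) + (starRingEnd ℂ) pvOm * (c - a)) / 3) := by
  unfold PvBulk.wQ; rw [if_pos ⟨a, b, c, h1, h2, h3⟩, delb_bary 𝔅 h1 h2 h3, delb_qpart 𝔅 h1 h2 h3]

theorem delb_wV (f : ℂ → ℂ) (h1 : 𝔅.lab Y ((𝔅.T Y).src d) = Sum.inl a) (h2 : 𝔅.lab Y ((𝔅.T Y).tgt d) = Sum.inl b) (h3 : 𝔅.lab Y ((𝔅.T Y).apex d) = Sum.inl c) :
    𝔅.wV Y f d = f ((a + b + c) / 3) * (a - b) := by
  unfold PvBulk.wV; rw [if_pos ⟨a, b, c, h1, h2, h3⟩, delb_bary 𝔅 h1 h2 h3, delb_side 𝔅 h1 h2]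

theorem delb_wQ_not_emb (f : ℂ → ℂ) (h : ¬ 𝔅.Emb Y d) : 𝔅.wQ Y f d = 0 := by unfold PvBulk.wQ; rw [if_neg h]

theorem delb_wV_not_emb (f : ℂ → ℂ) (h : ¬ 𝔅.Emb Y d) : 𝔅.wV Y f d = 0 := by unfold PvBulk.wV; rw [if_neg h]

/-- a dart with a non zero `Q`-weight lies in an embedded face with barycentre in the support of the test -/
theorem delb_wQ_ne {f : ℂ → ℂ} (h : 𝔅.wQ Y f d ≠ 0) : 𝔅.Emb Y d ∧ f ((𝔅.T Y).bary (𝔅.pos Y) d) ≠ 0 := by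
  by_cases he : 𝔅.Emb Y d
  · refine ⟨he, fun h0 => h ?_⟩
    unfold PvBulk.wQ; rw [if_pos he, h0, zero_mul]
  · exact absurd (delb_wQ_not_emb 𝔅 f he) h

theorem delb_wV_ne {f : ℂ → ℂ} (h : 𝔅.wV Y f d ≠ 0) : 𝔅.Emb Y d ∧ f ((𝔅.T Y).bary (𝔅.pos Y) d) ≠ 0 := by
  by_cases he : 𝔅.Emb Y d
  · refine ⟨he, fun h0 => h ?_⟩
    unfold PvBulk.wV; rw [if_pos he, h0, zero_mul]
  · exact absurd (delb_wV_not_emb 𝔅 f he) h

theorem delb_norm_om : ‖pvOm‖ = 1 := by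
  unfold pvOm
  have : (2 * (Real.pi : ℂ) * Complex.I / 3) = ((2 * Real.pi / 3 : ℝ) : ℂ) * Complex.I := by push_cast; ring
  rw [this, Complex.norm_exp_ofReal_mul_I]

/-- the `Q`-summand is bounded by the mean of the three sides -/
theorem delb_q_norm (a b c : ℂ) : ‖((a - b) + pvOm * (b - c) + (starRingEnd ℂ) pvOm * (c - a)) / 3‖ ≤ (‖a - b‖ + ‖b - c‖ + ‖c - a‖) / 3 := by
  rw [norm_div]
  have h3 : ‖(3 : ℂ)‖ = 3 := by simp
  rw [h3]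
  have h1 : ‖pvOm * (b - c)‖ = ‖b - c‖ := by rw [norm_mul, delb_norm_om, one_mul]
  have h2 : ‖(starRingEnd ℂ) pvOm * (c - a)‖ = ‖c - a‖ := by rw [norm_mul, Complex.norm_conj, delb_norm_om, one_mul]
  have := norm_add₃_le (a := a - b) (b := pvOm * (b - c)) (c := (starRingEnd ℂ) pvOm * (c - a))
  rw [h1, h2] at this
  exact div_le_div_of_nonneg_right this (by norm_num)

end weights

/-! ## 3. the full plane as a bulk family -/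

/-- the Delaunay triangulation of the plane, TOTAL in the site set: no edge unless `DelGood Y` -/
noncomputable def delbPl (Y : Set ℂ) : PlTri ↥Y where
  adj a b := DelGood Y ∧ DelAdj Y a b
  apex a b := ⟨delApex Y a b, delp_apex_mem a.2 b⟩
  symm hab := ⟨hab.1, hab.2.symm⟩
  irrefl _ ha := ha.2.2.2.1 rfl
  adj_apex hab := ⟨hab.1, (del_tri_cyc (delp_apex_spec hab.1 hab.2)).adj⟩
  apex_rot hab := Subtype.ext (del_apex_rot hab.1.gp ⟨_, delp_apex_spec hab.1 hab.2⟩)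

theorem delb_pl_eq {Y : Set ℂ} (h : DelGood Y) : delbPl Y = delPl h := by
  have e : (delbPl Y).adj = (delPl h).adj := by
    funext a b
    exact propext ⟨fun hab => hab.2, fun hab => ⟨h, hab⟩⟩
  have e' : (delbPl Y).apex = (delPl h).apex := rfl
  cases h1 : delbPl Y
  cases h2 : delPl h
  rw [h1, h2] at e e'
  simp only at e e'
  subst e e'
  rfl

/-- **the full plane** as a bulk family without extra vertices -/
noncomputable def delbPlane : PvBulk Empty where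
  V Y := ↥Y
  D Y := (delbPl Y).Dart
  T Y := (delbPl Y).toMap
  lab _ v := Sum.inl v.1

theorem delb_eqns_cite : True := by
  have := @delbPl.eq_1; have := @delbPlane.eq_1
  trivial

theorem delb_plane_isSph {Y : Set ℂ} (h : DelGood Y) : (delbPl Y).toMap.IsSph := by
  rw [delb_pl_eq h]; exact delp_isSph h

/-- the dart of the total plane on a pair of Delaunay neighbours -/
def delbD {Y : Set ℂ} (h : DelGood Y) {a b : ℂ} (hab : DelAdj Y a b) : (delbPl Y).Dart := ⟨(⟨a, hab.1⟩, ⟨b, hab.2.1⟩), h, hab⟩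

theorem delb_eqns_cite2 : True := by
  have := @delbD.eq_1
  trivial

theorem delb_plane_face {Y : Set ℂ} (d : (delbPl Y).Dart) :
    DelTri Y ((delbPl Y).toMap.src d) ((delbPl Y).toMap.tgt d) ((delbPl Y).toMap.apex d) := delp_apex_spec d.2.1 d.2.2

theorem delb_plane_ok {Y : Set ℂ} (h : DelGood Y) : delbPlane.Ok Y univ where
  sph := delb_plane_isSph h
  simple := (delbPl Y).toMap_simple
  inj := fun v w hvw => Subtype.ext (Sum.inl_injective hvw)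
  site := fun v p hv => by
    have : v.1 = p := Sum.inl_injective hv
    exact this ▸ v.2
  face := fun a b c ht _ => ⟨delbD h ht.adj, rfl, rfl, congrArg Sum.inl (del_apex_eq h.gp ht)⟩
  del := fun d a hd _ => by
    have ha : ((delbPl Y).toMap.src d : ℂ) = a := Sum.inl_injective hd
    exact ⟨_, _, rfl, rfl, ha ▸ delb_plane_face d⟩
  emb := fun d a b c h1 h2 h3 => by
    have ha : ((delbPl Y).toMap.src d : ℂ) = a := Sum.inl_injective h1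
    have hb : ((delbPl Y).toMap.tgt d : ℂ) = b := Sum.inl_injective h2
    have hc : ((delbPl Y).toMap.apex d : ℂ) = c := Sum.inl_injective h3
    exact ha ▸ hb ▸ hc ▸ delb_plane_face d

theorem delb_plane_emb {Y : Set ℂ} (d : delbPlane.D Y) : delbPlane.Emb Y d := ⟨_, _, _, rfl, rfl, rfl⟩

theorem delb_plane_pos {Y : Set ℂ} (v : delbPlane.V Y) : delbPlane.pos Y v = (v : ↥Y).1 := rfl

theorem delb_plane_col (η : Conf PvPt) (ξ : Empty → Bool) (v : delbPlane.V (cfSites η)) : delbPlane.col η ξ v = cfCol η (v : ↥(cfSites η)).1 := rfl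

/-! ## 4. the local dictionary with the Delaunay plane -/

section dict

variable {X : Type} (𝔅 : PvBulk X) {Y K : Set ℂ} (h : DelGood Y)

/-- the bulk dart `d` and the plane dart `e` have the same end points -/
def DelbRel (d : 𝔅.D Y) (e : (delPl h).Dart) : Prop :=
  𝔅.lab Y ((𝔅.T Y).src d) = Sum.inl ((delPl h).toMap.src e : ℂ) ∧ 𝔅.lab Y ((𝔅.T Y).tgt d) = Sum.inl ((delPl h).toMap.tgt e : ℂ)

theorem delb_eqns_cite3 : True := by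
  have := @DelbRel.eq_1
  trivial

/-- the plane dart on a pair of Delaunay neighbours -/
def delbP {a b : ℂ} (hab : DelAdj Y a b) : (delPl h).Dart := ⟨(⟨a, hab.1⟩, ⟨b, hab.2.1⟩), hab⟩

theorem delb_eqns_cite4 : True := by
  have := @delbP.eq_1
  trivial

variable {𝔅 h}

theorem delb_plane_tri (e : (delPl h).Dart) : DelTri Y ((delPl h).toMap.src e) ((delPl h).toMap.tgt e) ((delPl h).toMap.apex e) := delp_apex_spec h e.2

theorem delb_P_ext {e e' : (delPl h).Dart} (h1 : ((delPl h).toMap.src e : ℂ) = (delPl h).toMap.src e') (h2 : ((delPl h).toMap.tgt e : ℂ) = (delPl h).toMap.tgt e') : e = e' :=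
  (delPl h).toMap_simple e e' (Subtype.ext h1) (Subtype.ext h2)

theorem delb_rel_iff {d : 𝔅.D Y} {a b : ℂ} (hab : DelAdj Y a b) :
    DelbRel 𝔅 h d (delbP h hab) ↔ 𝔅.lab Y ((𝔅.T Y).src d) = Sum.inl a ∧ 𝔅.lab Y ((𝔅.T Y).tgt d) = Sum.inl b := Iff.rfl

/-- functional -/
theorem delb_rel_fun {d : 𝔅.D Y} {e e' : (delPl h).Dart} (h1 : DelbRel 𝔅 h d e) (h2 : DelbRel 𝔅 h d e') : e = e' :=
  delb_P_ext (Sum.inl_injective (h1.1.symm.trans h2.1)) (Sum.inl_injective (h1.2.symm.trans h2.2))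

/-- injective -/
theorem delb_rel_inj (hOk : 𝔅.Ok Y K) {d d' : 𝔅.D Y} {e : (delPl h).Dart} (h1 : DelbRel 𝔅 h d e) (h2 : DelbRel 𝔅 h d' e) : d = d' :=
  delb_dart_ext hOk (h1.1.trans h2.1.symm) (h1.2.trans h2.2.symm)

theorem delb_rel_opp {d : 𝔅.D Y} {e : (delPl h).Dart} (h1 : DelbRel 𝔅 h d e) : DelbRel 𝔅 h ((𝔅.T Y).opp d) ((delPl h).toMap.opp e) := by
  refine ⟨?_, ?_⟩
  · rw [PvMap.src_opp', PvMap.src_opp']; exact h1.2
  · rw [PvMap.tgt_opp, PvMap.tgt_opp]; exact h1.1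

theorem delb_rel_opp_iff {d : 𝔅.D Y} {e : (delPl h).Dart} : DelbRel 𝔅 h ((𝔅.T Y).opp d) ((delPl h).toMap.opp e) ↔ DelbRel 𝔅 h d e := by
  refine ⟨fun h1 => ?_, delb_rel_opp⟩
  have := delb_rel_opp h1
  rwa [PvMap.opp_opp, PvMap.opp_opp] at this

/-- the third vertex of an embedded face is the Delaunay apex -/
theorem delb_rel_apex (hOk : 𝔅.Ok Y K) {d : 𝔅.D Y} {e : (delPl h).Dart} (h1 : DelbRel 𝔅 h d e) (hd : 𝔅.Emb Y d) :
    𝔅.lab Y ((𝔅.T Y).apex d) = Sum.inl ((delPl h).toMap.apex e : ℂ) := by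
  obtain ⟨a, b, c, k1, k2, k3⟩ := hd
  have ht := hOk.emb d a b c k1 k2 k3
  have ea : a = (delPl h).toMap.src e := Sum.inl_injective (k1.symm.trans h1.1)
  have eb : b = (delPl h).toMap.tgt e := Sum.inl_injective (k2.symm.trans h1.2)
  rw [ea, eb] at ht
  rw [k3, del_tri_unique h.gp ht (delb_plane_tri e)]

theorem delb_rel_nxt (hOk : 𝔅.Ok Y K) {d : 𝔅.D Y} {e : (delPl h).Dart} (h1 : DelbRel 𝔅 h d e) (hd : 𝔅.Emb Y d) :
    DelbRel 𝔅 h ((𝔅.T Y).nxt d) ((delPl h).toMap.nxt e) := by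
  refine ⟨?_, ?_⟩
  · rw [PvMap.src_nxt, PvMap.src_nxt]; exact h1.2
  · rw [PvMap.tgt_nxt, PvMap.tgt_nxt]; exact delb_rel_apex hOk h1 hd

theorem delb_rel_nxt2 (hOk : 𝔅.Ok Y K) {d : 𝔅.D Y} {e : (delPl h).Dart} (h1 : DelbRel 𝔅 h d e) (hd : 𝔅.Emb Y d) :
    DelbRel 𝔅 h ((𝔅.T Y).nxt ((𝔅.T Y).nxt d)) ((delPl h).toMap.nxt ((delPl h).toMap.nxt e)) :=
  delb_rel_nxt hOk (delb_rel_nxt hOk h1 hd) ((delb_emb_nxt 𝔅 d).2 hd)

theorem delb_rel_rot (hOk : 𝔅.Ok Y K) {d : 𝔅.D Y} {e : (delPl h).Dart} (h1 : DelbRel 𝔅 h d e) (hd : 𝔅.Emb Y d) :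
    DelbRel 𝔅 h ((𝔅.T Y).rot d) ((delPl h).toMap.rot e) := delb_rel_opp (delb_rel_nxt2 hOk h1 hd)

theorem delb_rel_rotInv (hOk : 𝔅.Ok Y K) {d : 𝔅.D Y} {e : (delPl h).Dart} (h1 : DelbRel 𝔅 h d e) (hd : 𝔅.Emb Y ((𝔅.T Y).opp d)) :
    DelbRel 𝔅 h ((𝔅.T Y).rotInv d) ((delPl h).toMap.rotInv e) := delb_rel_nxt hOk (delb_rel_opp h1) hd

theorem delb_rel_sf (hOk : 𝔅.Ok Y K) {d d' : 𝔅.D Y} {e : (delPl h).Dart} (h1 : DelbRel 𝔅 h d e) (hd : 𝔅.Emb Y d) (hs : (𝔅.T Y).SF d d') :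
    ∃ e', DelbRel 𝔅 h d' e' ∧ (delPl h).toMap.SF e e' := by
  rcases hs with rfl | rfl | rfl
  · exact ⟨e, h1, Or.inl rfl⟩
  · exact ⟨_, delb_rel_nxt hOk h1 hd, Or.inr (Or.inl rfl)⟩
  · exact ⟨_, delb_rel_nxt2 hOk h1 hd, Or.inr (Or.inr rfl)⟩

theorem delb_rel_sf' (hOk : 𝔅.Ok Y K) {d : 𝔅.D Y} {e e' : (delPl h).Dart} (h1 : DelbRel 𝔅 h d e) (hd : 𝔅.Emb Y d) (hs : (delPl h).toMap.SF e e') :
    ∃ d', DelbRel 𝔅 h d' e' ∧ (𝔅.T Y).SF d d' := by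
  rcases hs with rfl | rfl | rfl
  · exact ⟨d, h1, Or.inl rfl⟩
  · exact ⟨_, delb_rel_nxt hOk h1 hd, Or.inr (Or.inl rfl)⟩
  · exact ⟨_, delb_rel_nxt2 hOk h1 hd, Or.inr (Or.inr rfl)⟩

variable (h)

/-- defined on all embedded darts -/
theorem delb_rel_of_emb (hOk : 𝔅.Ok Y K) {d : 𝔅.D Y} (hd : 𝔅.Emb Y d) : ∃ e : (delPl h).Dart, DelbRel 𝔅 h d e := by
  obtain ⟨a, b, c, k1, k2, k3⟩ := hd
  exact ⟨delbP h (hOk.emb d a b c k1 k2 k3).adj, k1, k2⟩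

/-- a dart between two sites which are Delaunay neighbours -/
theorem delb_rel_of_lab {d : 𝔅.D Y} {a b : ℂ} (k1 : 𝔅.lab Y ((𝔅.T Y).src d) = Sum.inl a) (k2 : 𝔅.lab Y ((𝔅.T Y).tgt d) = Sum.inl b) (hab : DelAdj Y a b) :
    DelbRel 𝔅 h d (delbP h hab) := ⟨k1, k2⟩

variable {h}

/-- the plane darts whose face has a vertex in `K` -/
def delbStar (h : DelGood Y) (K : Set ℂ) : Set (delPl h).Dart :=
  {e | ((delPl h).toMap.src e : ℂ) ∈ K ∨ ((delPl h).toMap.tgt e : ℂ) ∈ K ∨ ((delPl h).toMap.apex e : ℂ) ∈ K}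

theorem delb_eqns_cite5 : True := by
  have := @delbStar.eq_1
  trivial

theorem delb_star_nxt {e : (delPl h).Dart} : (delPl h).toMap.nxt e ∈ delbStar h K ↔ e ∈ delbStar h K := by
  unfold delbStar
  simp only [Set.mem_ofPred_eq, PvMap.src_nxt, PvMap.tgt_nxt, PvMap.apex_nxt]
  tauto

theorem delb_star_faceSet : (delPl h).toMap.FaceSet (delbStar h K) := fun _ => delb_star_nxt

/-- **ONTO**: every plane dart whose face has a vertex in `K` is the image of an embedded bulk dart -/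
theorem delb_rel_of_star (hOk : 𝔅.Ok Y K) {e : (delPl h).Dart} (he : e ∈ delbStar h K) : ∃ d, DelbRel 𝔅 h d e ∧ 𝔅.Emb Y d := by
  have ht := delb_plane_tri e
  rcases he with he | he | he
  · obtain ⟨d, k1, k2, k3⟩ := hOk.face _ _ _ ht he
    exact ⟨d, ⟨k1, k2⟩, _, _, _, k1, k2, k3⟩
  · obtain ⟨d, k1, k2, k3⟩ := hOk.face _ _ _ (del_tri_cyc ht) he
    refine ⟨(𝔅.T Y).nxt ((𝔅.T Y).nxt d), ⟨?_, ?_⟩, (delb_emb_nxt2 𝔅 d).2 ⟨_, _, _, k1, k2, k3⟩⟩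
    · rw [PvMap.src_nxt2]; exact k3
    · rw [PvMap.tgt_nxt2]; exact k1
  · obtain ⟨d, k1, k2, k3⟩ := hOk.face _ _ _ (del_tri_cyc (del_tri_cyc ht)) he
    refine ⟨(𝔅.T Y).nxt d, ⟨?_, ?_⟩, (delb_emb_nxt 𝔅 d).2 ⟨_, _, _, k1, k2, k3⟩⟩
    · rw [PvMap.src_nxt]; exact k2
    · rw [PvMap.tgt_nxt]; exact k3

/-- a bulk dart over a plane dart of the star is embedded -/
theorem delb_emb_of_star (hOk : 𝔅.Ok Y K) {d : 𝔅.D Y} {e : (delPl h).Dart} (h1 : DelbRel 𝔅 h d e) (he : e ∈ delbStar h K) : 𝔅.Emb Y d := by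
  obtain ⟨d', h2, hd'⟩ := delb_rel_of_star hOk he
  rwa [delb_rel_inj hOk h1 h2]

/-- an embedded bulk dart with a vertex in `K` lies over the star -/
theorem delb_star_of_src {d : 𝔅.D Y} {e : (delPl h).Dart} (h1 : DelbRel 𝔅 h d e) {a : ℂ} (ha : 𝔅.lab Y ((𝔅.T Y).src d) = Sum.inl a) (haK : a ∈ K) :
    e ∈ delbStar h K := Or.inl (by rw [← Sum.inl_injective (ha.symm.trans h1.1)]; exact haK)

theorem delb_star_of_tgt {d : 𝔅.D Y} {e : (delPl h).Dart} (h1 : DelbRel 𝔅 h d e) {a : ℂ} (ha : 𝔅.lab Y ((𝔅.T Y).tgt d) = Sum.inl a) (haK : a ∈ K) :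
    e ∈ delbStar h K := Or.inr (Or.inl (by rw [← Sum.inl_injective (ha.symm.trans h1.2)]; exact haK))

variable (h)
include h

/-- **the sites of `K` are vertices** -/
theorem delb_vertex (hOk : 𝔅.Ok Y K) {a : ℂ} (ha : a ∈ Y) (haK : a ∈ K) : ∃ v, 𝔅.lab Y v = Sum.inl a := by
  obtain ⟨b, hab⟩ := del_exists_adj h.lf ha (h.bdd a)
  obtain ⟨d, k1, -, -⟩ := hOk.face _ _ _ (delp_apex_spec h hab) haK
  exact ⟨_, k1⟩

/-- **adjacency at a site of `K`** is Delaunay adjacency -/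
theorem delb_adj_iff (hOk : 𝔅.Ok Y K) {v w : 𝔅.V Y} {a : ℂ} (hv : 𝔅.lab Y v = Sum.inl a) (haK : a ∈ K) :
    (𝔅.T Y).Adj v w ↔ ∃ b, 𝔅.lab Y w = Sum.inl b ∧ DelAdj Y a b := by
  constructor
  · rintro ⟨d, rfl, rfl⟩
    obtain ⟨b, c, k2, -, ht⟩ := hOk.del d a hv haK
    exact ⟨b, k2, ht.adj⟩
  · rintro ⟨b, hw, hab⟩
    obtain ⟨d, k1, k2, -⟩ := hOk.face _ _ _ (delp_apex_spec h hab) haK
    exact ⟨d, hOk.inj (k1.trans hv.symm), hOk.inj (k2.trans hw.symm)⟩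

/-- the bulk dart on a Delaunay edge with an end point in `K` -/
theorem delb_dart_of_adj (hOk : 𝔅.Ok Y K) {a b : ℂ} (hab : DelAdj Y a b) (hK : a ∈ K ∨ b ∈ K) :
    ∃ d, 𝔅.lab Y ((𝔅.T Y).src d) = Sum.inl a ∧ 𝔅.lab Y ((𝔅.T Y).tgt d) = Sum.inl b ∧ 𝔅.Emb Y d ∧ 𝔅.Emb Y ((𝔅.T Y).opp d) := by
  have he : delbP h hab ∈ delbStar h K := by
    rcases hK with hK | hK
    · exact Or.inl hK
    · exact Or.inr (Or.inl hK)
  obtain ⟨d, h1, hd⟩ := delb_rel_of_star hOk he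
  refine ⟨d, h1.1, h1.2, hd, ?_⟩
  rcases hK with hK | hK
  · exact delb_emb_opp_of_src hOk h1.1 hK
  · exact delb_emb_opp_of_tgt hOk h1.2 hK

end dict

/-! ### the dictionary as a map from the star of `K` -/

section up

variable {X : Type} {𝔅 : PvBulk X} {Y K : Set ℂ} {h : DelGood Y}

/-- the bulk dart over a plane dart of the star of `K` -/
noncomputable def delbUp (hOk : 𝔅.Ok Y K) (e : (delPl h).Dart) (he : e ∈ delbStar h K) : 𝔅.D Y := (delb_rel_of_star hOk he).choose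

theorem delb_eqns_cite6 : True := by
  have := @delbUp.eq_1
  trivial

theorem delb_up_rel (hOk : 𝔅.Ok Y K) {e : (delPl h).Dart} (he : e ∈ delbStar h K) : DelbRel 𝔅 h (delbUp hOk e he) e := (delb_rel_of_star hOk he).choose_spec.1

theorem delb_up_emb (hOk : 𝔅.Ok Y K) {e : (delPl h).Dart} (he : e ∈ delbStar h K) : 𝔅.Emb Y (delbUp hOk e he) := (delb_rel_of_star hOk he).choose_spec.2

theorem delb_up_eq (hOk : 𝔅.Ok Y K) {d : 𝔅.D Y} {e : (delPl h).Dart} (he : e ∈ delbStar h K) (h1 : DelbRel 𝔅 h d e) : delbUp hOk e he = d :=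
  delb_rel_inj hOk (delb_up_rel hOk he) h1

theorem delb_up_inj (hOk : 𝔅.Ok Y K) {e e' : (delPl h).Dart} (he : e ∈ delbStar h K) (he' : e' ∈ delbStar h K) (hh : delbUp hOk e he = delbUp hOk e' he') : e = e' :=
  delb_rel_fun (delb_up_rel hOk he) (hh ▸ delb_up_rel hOk he')

theorem delb_up_nxt (hOk : 𝔅.Ok Y K) {e : (delPl h).Dart} (he : e ∈ delbStar h K) :
    delbUp hOk ((delPl h).toMap.nxt e) (delb_star_nxt.2 he) = (𝔅.T Y).nxt (delbUp hOk e he) :=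
  delb_up_eq hOk _ (delb_rel_nxt hOk (delb_up_rel hOk he) (delb_up_emb hOk he))

theorem delb_up_opp (hOk : 𝔅.Ok Y K) {e : (delPl h).Dart} (he : e ∈ delbStar h K) (he' : (delPl h).toMap.opp e ∈ delbStar h K) :
    delbUp hOk ((delPl h).toMap.opp e) he' = (𝔅.T Y).opp (delbUp hOk e he) :=
  delb_up_eq hOk _ (delb_rel_opp (delb_up_rel hOk he))

theorem delb_up_src (hOk : 𝔅.Ok Y K) {e : (delPl h).Dart} (he : e ∈ delbStar h K) :
    𝔅.lab Y ((𝔅.T Y).src (delbUp hOk e he)) = Sum.inl ((delPl h).toMap.src e : ℂ) := (delb_up_rel hOk he).1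

theorem delb_up_tgt (hOk : 𝔅.Ok Y K) {e : (delPl h).Dart} (he : e ∈ delbStar h K) :
    𝔅.lab Y ((𝔅.T Y).tgt (delbUp hOk e he)) = Sum.inl ((delPl h).toMap.tgt e : ℂ) := (delb_up_rel hOk he).2

theorem delb_up_apex (hOk : 𝔅.Ok Y K) {e : (delPl h).Dart} (he : e ∈ delbStar h K) :
    𝔅.lab Y ((𝔅.T Y).apex (delbUp hOk e he)) = Sum.inl ((delPl h).toMap.apex e : ℂ) := delb_rel_apex hOk (delb_up_rel hOk he) (delb_up_emb hOk he)

/-- the range of the dictionary: the bulk darts whose face has a vertex which is a site of `K` -/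
theorem delb_up_range (hOk : 𝔅.Ok Y K) (d : 𝔅.D Y) :
    (∃ e, ∃ he : e ∈ delbStar h K, delbUp hOk e he = d) ↔
      ∃ a ∈ K, 𝔅.lab Y ((𝔅.T Y).src d) = Sum.inl a ∨ 𝔅.lab Y ((𝔅.T Y).tgt d) = Sum.inl a ∨ 𝔅.lab Y ((𝔅.T Y).apex d) = Sum.inl a := by
  constructor
  · rintro ⟨e, he, rfl⟩
    rcases he with hk | hk | hk
    · exact ⟨_, hk, Or.inl (delb_up_src hOk _)⟩
    · exact ⟨_, hk, Or.inr (Or.inl (delb_up_tgt hOk _))⟩
    · exact ⟨_, hk, Or.inr (Or.inr (delb_up_apex hOk _))⟩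
  · rintro ⟨a, haK, ha⟩
    have hd : 𝔅.Emb Y d := by
      rcases ha with ha | ha | ha
      · exact delb_emb_of_src hOk ha haK
      · exact delb_emb_of_tgt hOk ha haK
      · exact delb_emb_of_apex hOk ha haK
    obtain ⟨e, h1⟩ := delb_rel_of_emb h hOk hd
    have he : e ∈ delbStar h K := by
      rcases ha with ha | ha | ha
      · exact delb_star_of_src h1 ha haK
      · exact delb_star_of_tgt h1 ha haK
      · refine Or.inr (Or.inr ?_)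
        rw [← Sum.inl_injective (ha.symm.trans (delb_rel_apex hOk h1 hd))]; exact haK
    exact ⟨e, he, delb_up_eq hOk he h1⟩

end up

/-! ## 5. colourings and weights through the dictionary -/

section col

variable {X : Type} (𝔅 : PvBulk X) {Y K : Set ℂ} {h : DelGood Y}

theorem delb_col_inl (η : Conf PvPt) (ξ : X → Bool) {v : 𝔅.V (cfSites η)} {a : ℂ} (hv : 𝔅.lab (cfSites η) v = Sum.inl a) : 𝔅.col η ξ v = cfCol η a := by
  unfold PvBulk.col; rw [hv]; rfl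

theorem delb_col_inr (η : Conf PvPt) (ξ : X → Bool) {v : 𝔅.V (cfSites η)} {x : X} (hv : 𝔅.lab (cfSites η) v = Sum.inr x) : 𝔅.col η ξ v = ξ x := by
  unfold PvBulk.col; rw [hv]; rfl

/-- the colouring `s` of the bulk family is `σ` on the sites -/
def DelbCol (s : 𝔅.V Y → Bool) (σ : ℂ → Bool) : Prop := ∀ v a, 𝔅.lab Y v = Sum.inl a → s v = σ a

theorem delb_eqns_cite7 : True := by
  have := @DelbCol.eq_1
  trivial

theorem delb_col (η : Conf PvPt) (ξ : X → Bool) : DelbCol 𝔅 (𝔅.col η ξ) (cfCol η) := fun _ _ hv => delb_col_inl 𝔅 η ξ hv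

variable {𝔅}

theorem delb_occ_iff {s : 𝔅.V Y → Bool} {σ : ℂ → Bool} (hs : DelbCol 𝔅 s σ) {d : 𝔅.D Y} {e : (delPl h).Dart} (h1 : DelbRel 𝔅 h d e) :
    (𝔅.T Y).Occ s d ↔ (delPl h).toMap.Occ (fun v => σ v) e := by
  unfold PvMap.Occ
  rw [hs _ _ h1.1, hs _ _ h1.2]

theorem delb_tag_iff (hOk : 𝔅.Ok Y K) {s : 𝔅.V Y → Bool} {σ : ℂ → Bool} (hs : DelbCol 𝔅 s σ) {d : 𝔅.D Y} {e : (delPl h).Dart} (h1 : DelbRel 𝔅 h d e)
    (hd : 𝔅.Emb Y d) : (𝔅.T Y).Tag s d ↔ (delPl h).toMap.Tag (fun v => σ v) e := by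
  unfold PvMap.Tag
  rw [hs _ _ h1.1, hs _ _ h1.2, hs _ _ (delb_rel_apex hOk h1 hd)]

/-- a tag in coordinates -/
theorem delb_tag_lab {s : 𝔅.V Y → Bool} {σ : ℂ → Bool} (hs : DelbCol 𝔅 s σ) {d : 𝔅.D Y} {a b c : ℂ} (k1 : 𝔅.lab Y ((𝔅.T Y).src d) = Sum.inl a)
    (k2 : 𝔅.lab Y ((𝔅.T Y).tgt d) = Sum.inl b) (k3 : 𝔅.lab Y ((𝔅.T Y).apex d) = Sum.inl c) : (𝔅.T Y).Tag s d ↔ σ a = σ b ∧ σ c ≠ σ a := by
  unfold PvMap.Tag
  rw [hs _ _ k1, hs _ _ k2, hs _ _ k3]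

theorem delb_rel_bary (hOk : 𝔅.Ok Y K) {d : 𝔅.D Y} {e : (delPl h).Dart} (h1 : DelbRel 𝔅 h d e) (hd : 𝔅.Emb Y d) :
    (𝔅.T Y).bary (𝔅.pos Y) d = (delPl h).toMap.bary Subtype.val e := delb_bary 𝔅 h1.1 h1.2 (delb_rel_apex hOk h1 hd)

theorem delb_rel_side {d : 𝔅.D Y} {e : (delPl h).Dart} (h1 : DelbRel 𝔅 h d e) : (𝔅.T Y).side (𝔅.pos Y) d = (delPl h).toMap.side Subtype.val e :=
  delb_side 𝔅 h1.1 h1.2

theorem delb_rel_qpart (hOk : 𝔅.Ok Y K) {d : 𝔅.D Y} {e : (delPl h).Dart} (h1 : DelbRel 𝔅 h d e) (hd : 𝔅.Emb Y d) :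
    (𝔅.T Y).qpart (𝔅.pos Y) d = (delPl h).toMap.qpart Subtype.val e := by
  unfold PvMap.qpart
  rw [delb_rel_side h1, delb_rel_side (delb_rel_nxt hOk h1 hd), delb_rel_side (delb_rel_nxt2 hOk h1 hd)]

theorem delb_rel_upart (hOk : 𝔅.Ok Y K) {d : 𝔅.D Y} {e : (delPl h).Dart} (h1 : DelbRel 𝔅 h d e) (hd : 𝔅.Emb Y d) :
    (𝔅.T Y).upart (𝔅.pos Y) d = (delPl h).toMap.upart Subtype.val e := by
  unfold PvMap.upart
  rw [delb_rel_side h1, delb_rel_side (delb_rel_nxt hOk h1 hd), delb_rel_side (delb_rel_nxt2 hOk h1 hd)]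

theorem delb_rel_wQ (hOk : 𝔅.Ok Y K) (f : ℂ → ℂ) {d : 𝔅.D Y} {e : (delPl h).Dart} (h1 : DelbRel 𝔅 h d e) (hd : 𝔅.Emb Y d) :
    𝔅.wQ Y f d = f ((delPl h).toMap.bary Subtype.val e) * (delPl h).toMap.qpart Subtype.val e := by
  unfold PvBulk.wQ; rw [if_pos hd, delb_rel_bary hOk h1 hd, delb_rel_qpart hOk h1 hd]

theorem delb_rel_wV (hOk : 𝔅.Ok Y K) (f : ℂ → ℂ) {d : 𝔅.D Y} {e : (delPl h).Dart} (h1 : DelbRel 𝔅 h d e) (hd : 𝔅.Emb Y d) :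
    𝔅.wV Y f d = f ((delPl h).toMap.bary Subtype.val e) * (delPl h).toMap.side Subtype.val e := by
  unfold PvBulk.wV; rw [if_pos hd, delb_rel_bary hOk h1 hd, delb_rel_side h1]

end col

/-! ## 6. rims of a bulk family inside `K` -/

section rim

variable {X : Type} {𝔅 : PvBulk X} {Y K : Set ℂ}

/-- one step FORWARD along a rim from a site of `K`: the next vertex is a site, a Delaunay neighbour of the same colour; the right triangle is a Delaunay triangle with apex of the other colour -/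
theorem delb_rim_step (hOk : 𝔅.Ok Y K) {s : 𝔅.V Y → Bool} {c : (𝔅.T Y).Cyc} (hc : c.IsRim s) (k : ℕ) {a : ℂ}
    (ha : 𝔅.lab Y ((𝔅.T Y).src (c.e k)) = Sum.inl a) (haK : a ∈ K) :
    ∃ b w : ℂ, 𝔅.lab Y ((𝔅.T Y).src (c.e (k + 1))) = Sum.inl b ∧ 𝔅.lab Y ((𝔅.T Y).apex ((𝔅.T Y).opp (c.e k))) = Sum.inl w ∧ DelTri Y b a w ∧
      s ((𝔅.T Y).src (c.e (k + 1))) = s ((𝔅.T Y).src (c.e k)) ∧ s ((𝔅.T Y).apex ((𝔅.T Y).opp (c.e k))) ≠ s ((𝔅.T Y).src (c.e k)) := by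
  obtain ⟨b, w, k1, k3, ht⟩ := delb_del_tgt hOk (d := (𝔅.T Y).opp (c.e k)) (by rw [PvMap.tgt_opp]; exact ha) haK
  rw [PvMap.src_opp', c.chain] at k1
  refine ⟨b, w, k1, k3, ht, ?_, pl_rim_facing_col hc k⟩
  rw [← c.chain]; exact (pl_rim_edge_col hc k).symm

/-- one step BACKWARD along a rim from a site of `K` -/
theorem delb_rim_step' (hOk : 𝔅.Ok Y K) {s : 𝔅.V Y → Bool} {c : (𝔅.T Y).Cyc} (hc : c.IsRim s) (k : ℕ) {b : ℂ}
    (hb : 𝔅.lab Y ((𝔅.T Y).src (c.e (k + 1))) = Sum.inl b) (hbK : b ∈ K) :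
    ∃ a w : ℂ, 𝔅.lab Y ((𝔅.T Y).src (c.e k)) = Sum.inl a ∧ 𝔅.lab Y ((𝔅.T Y).apex ((𝔅.T Y).opp (c.e k))) = Sum.inl w ∧ DelTri Y b a w ∧
      s ((𝔅.T Y).src (c.e (k + 1))) = s ((𝔅.T Y).src (c.e k)) ∧ s ((𝔅.T Y).apex ((𝔅.T Y).opp (c.e k))) ≠ s ((𝔅.T Y).src (c.e k)) := by
  obtain ⟨a, w, k2, k3, ht⟩ := hOk.del ((𝔅.T Y).opp (c.e k)) b (by rw [PvMap.src_opp', c.chain]; exact hb) hbK
  rw [PvMap.tgt_opp] at k2
  refine ⟨a, w, k2, k3, ht, ?_, pl_rim_facing_col hc k⟩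
  rw [← c.chain]; exact (pl_rim_edge_col hc k).symm

/-- the tag on the right of a rim edge with an end point in `K` is embedded -/
theorem delb_rim_emb (hOk : 𝔅.Ok Y K) {c : (𝔅.T Y).Cyc} (k : ℕ) {a : ℂ} (ha : 𝔅.lab Y ((𝔅.T Y).src (c.e k)) = Sum.inl a) (haK : a ∈ K) :
    𝔅.Emb Y ((𝔅.T Y).opp (c.e k)) ∧ 𝔅.Emb Y (c.e k) := ⟨delb_emb_opp_of_src hOk ha haK, delb_emb_of_src hOk ha haK⟩

/-- **ARM EXTRACTION**, forward: a rim through the site `a` which has a vertex which is not a site of `B ⊆ K` carries a chain of Delaunay neighbours of one colour, inside `B` up to its last point `b ∉ B` -/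
theorem delb_rim_arm (hOk : 𝔅.Ok Y K) {B : Set ℂ} (hB : B ⊆ K) {s : 𝔅.V Y → Bool} {σ : ℂ → Bool} (hs : DelbCol 𝔅 s σ) {c : (𝔅.T Y).Cyc} (hc : c.IsRim s)
    {k : ℕ} {a : ℂ} (ha : 𝔅.lab Y ((𝔅.T Y).src (c.e k)) = Sum.inl a) (hesc : ∃ j, ∀ p, 𝔅.lab Y ((𝔅.T Y).src (c.e j)) = Sum.inl p → p ∉ B) :
    ∃ b, b ∉ B ∧ Relation.ReflTransGen (fun u v => u ∈ B ∧ DelAdj Y u v ∧ σ u = σ v) a b ∧ ∃ m, 𝔅.lab Y ((𝔅.T Y).src (c.e (k + m))) = Sum.inl b := by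
  obtain ⟨j, hj⟩ := hesc
  have key : ∀ (t k : ℕ) (a : ℂ), 𝔅.lab Y ((𝔅.T Y).src (c.e k)) = Sum.inl a → (∀ p, 𝔅.lab Y ((𝔅.T Y).src (c.e (k + t))) = Sum.inl p → p ∉ B) →
      ∃ b, b ∉ B ∧ Relation.ReflTransGen (fun u v => u ∈ B ∧ DelAdj Y u v ∧ σ u = σ v) a b ∧ ∃ m, 𝔅.lab Y ((𝔅.T Y).src (c.e (k + m))) = Sum.inl b := by
    intro t
    induction t with
    | zero => intro k a ha ht; exact ⟨a, ht a ha, Relation.ReflTransGen.refl, 0, ha⟩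
    | succ t ih =>
      intro k a ha ht
      by_cases haB : a ∈ B
      · obtain ⟨b', w, k1, -, htri, hcol, -⟩ := delb_rim_step hOk hc k ha (hB haB)
        obtain ⟨b, hb, hpath, m, hm⟩ := ih (k + 1) b' k1 (by rw [show k + 1 + t = k + (t + 1) by ring]; exact ht)
        refine ⟨b, hb, Relation.ReflTransGen.head ⟨haB, htri.adj.symm, ?_⟩ hpath, m + 1, by rw [show k + (m + 1) = k + 1 + m by ring]; exact hm⟩
        rw [← hs _ _ ha, ← hs _ _ k1, hcol]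
      · exact ⟨a, haB, Relation.ReflTransGen.refl, 0, ha⟩
  have hn := pl_cyc_pos c
  have hle : k ≤ j + k * c.n := le_trans (Nat.le_mul_of_pos_right k hn) (Nat.le_add_left _ _)
  refine key (j + k * c.n - k) k a ha ?_
  rw [Nat.add_sub_cancel' hle, pl_cyc_per]
  exact hj

/-- **ARM EXTRACTION**, backward -/
theorem delb_rim_arm' (hOk : 𝔅.Ok Y K) {B : Set ℂ} (hB : B ⊆ K) {s : 𝔅.V Y → Bool} {σ : ℂ → Bool} (hs : DelbCol 𝔅 s σ) {c : (𝔅.T Y).Cyc} (hc : c.IsRim s)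
    {k : ℕ} {a : ℂ} (ha : 𝔅.lab Y ((𝔅.T Y).src (c.e k)) = Sum.inl a) (hesc : ∃ j ≤ k, ∀ p, 𝔅.lab Y ((𝔅.T Y).src (c.e j)) = Sum.inl p → p ∉ B) :
    ∃ b, b ∉ B ∧ Relation.ReflTransGen (fun u v => u ∈ B ∧ DelAdj Y u v ∧ σ u = σ v) a b ∧ ∃ m ≤ k, 𝔅.lab Y ((𝔅.T Y).src (c.e (k - m))) = Sum.inl b := by
  obtain ⟨j, hjk, hj⟩ := hesc
  have key : ∀ (t k : ℕ) (a : ℂ), 𝔅.lab Y ((𝔅.T Y).src (c.e (j + t))) = Sum.inl a → k = j + t →
      ∃ b, b ∉ B ∧ Relation.ReflTransGen (fun u v => u ∈ B ∧ DelAdj Y u v ∧ σ u = σ v) a b ∧ ∃ m ≤ k, 𝔅.lab Y ((𝔅.T Y).src (c.e (k - m))) = Sum.inl b := by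
    intro t
    induction t with
    | zero => intro k a ha hk; subst hk; exact ⟨a, hj a ha, Relation.ReflTransGen.refl, 0, Nat.zero_le _, ha⟩
    | succ t ih =>
      intro k a ha hk
      subst hk
      by_cases haB : a ∈ B
      · obtain ⟨a', w, k1, -, htri, hcol, -⟩ := delb_rim_step' hOk hc (j + t) (b := a) ha (hB haB)
        obtain ⟨b, hb, hpath, m, hm, hm'⟩ := ih (j + t) a' k1 rfl
        refine ⟨b, hb, Relation.ReflTransGen.head ⟨haB, htri.adj, ?_⟩ hpath, m + 1, by omega, ?_⟩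
        · rw [← hs _ _ ha, ← hs _ _ k1]; exact hcol
        · rw [show j + (t + 1) - (m + 1) = j + t - m by omega]; exact hm'
      · exact ⟨a, haB, Relation.ReflTransGen.refl, 0, Nat.zero_le _, ha⟩
  exact key (k - j) k a (by rw [Nat.add_sub_cancel' hjk]; exact ha) (Nat.add_sub_cancel' hjk).symm

end rim

end Claimed.Agent.R289
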