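import Claimed.Agent.R289.Vor.Basic

/-!
# Row 289 (S0537), box DEL (head helper253), file Del/Apex : G2 = THE LOCAL STRUCTURE OF THE DELAUNAY COMPLEX      (owner helper19; prefix `del`, `Del`)      0 sorry

Everything is a statement on a SITE SET `Y : Set ℂ` (vocabulary of `Vor/Basic`: `vorCell`, `vorDet`, `VorLF`, `VorGP`); no probability.      Design: `origin/helper264:notes/R289/planarity_264.md` sec. 4 (G2).
LOWEST FILE of `R289/Del`: it DECLARES the shared definitions of the box (text of helper253): `delBis`, `DelAdj`, `DelTri`, `delApex`.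

* `delBis a b s = (a+b)/2 + s i (b-a)`  the bisector of `a b`, parametrised towards the LEFT of `a → b`;   `del_bis`: it is the set of the points at equal distance from `a`, `b`
* **KEY** `del_key`: `‖x(s) - c‖² - ‖x(s) - a‖² = P(c) - 2 s det(a,b,c)`, `P(c) = ⟨c - a, c - b⟩` (`delP`);   `del_bis_le`, `del_bis_dist_eq`
* `delS a b c`, `delO a b c`  parameter of the circumcentre, circumcentre;   `del_O_unique`, `del_O_rot`
* `delI Y a b`  admissible parameters;   **`del_inter_eq`**: `C_a ∩ C_b = x '' delI`;   `del_I_ordConnected`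
* EXITS:  `del_tri_iff` (empty disc form), **`del_tri_cyc`**, **`del_tri_unique`**, **`del_apex_exists`** (bounded cell), `del_exists_tri` (a site on the left), **`del_three`**, **`del_le_three`**,
  **`del_side_nondeg`**, **`del_I_eq`**, **`del_side_eq`** (`C_a ∩ C_b` = the segment between the two circumcentres), `del_tri_adj`, `del_apex_eq`, `del_apex_tri`, `del_apex_rot`, `del_apex_adj`.
-/

set_option autoImplicit false

namespace Claimed.Agent.R289

open Complex Set

/-! ## 0. definitions -/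

/-- the perpendicular bisector of `a b`, parametrised towards the LEFT of `a → b` -/
noncomputable def delBis (a b : ℂ) (s : ℝ) : ℂ := (a + b) / 2 + (s : ℂ) * (Complex.I * (b - a))

/-- two different sites whose cells meet -/
def DelAdj (Y : Set ℂ) (a b : ℂ) : Prop := a ∈ Y ∧ b ∈ Y ∧ a ≠ b ∧ (vorCell Y a ∩ vorCell Y b).Nonempty

/-- `a b c` is a positively oriented Delaunay triangle -/
def DelTri (Y : Set ℂ) (a b c : ℂ) : Prop :=
  a ∈ Y ∧ b ∈ Y ∧ c ∈ Y ∧ 0 < vorDet a b c ∧ (vorCell Y a ∩ vorCell Y b ∩ vorCell Y c).Nonempty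

/-- the third vertex of the triangle on the left of `a → b` -/
noncomputable def delApex (Y : Set ℂ) (a b : ℂ) : ℂ := by
  classical exact if h : ∃ c, DelTri Y a b c then h.choose else a

/-- `⟨c - a, c - b⟩` -/
def delP (a b c : ℂ) : ℝ := (c.re - a.re) * (c.re - b.re) + (c.im - a.im) * (c.im - b.im)

/-- parameter of the circumcentre of `a b c` on the bisector of `a b` -/
noncomputable def delS (a b c : ℂ) : ℝ := delP a b c / (2 * vorDet a b c)

/-- the circumcentre of `a b c` -/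
noncomputable def delO (a b c : ℂ) : ℂ := delBis a b (delS a b c)

/-- the admissible parameters on the bisector of `a b` -/
def delI (Y : Set ℂ) (a b : ℂ) : Set ℝ := {s | ∀ w ∈ Y, 2 * s * vorDet a b w ≤ delP a b w}

theorem del_eqns_cite : True := by
  have := @delBis.eq_1
  have := @DelAdj.eq_1
  have := @DelTri.eq_1
  have := @delApex.eq_1
  have := @delP.eq_1
  have := @delS.eq_1
  have := @delO.eq_1
  have := @delI.eq_1
  trivial

/-! ## 1. the bisector -/

theorem del_bis_re (a b : ℂ) (s : ℝ) : (delBis a b s).re = (a.re + b.re) / 2 - s * (b.im - a.im) := by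
  simp [delBis]
  ring

theorem del_bis_im (a b : ℂ) (s : ℝ) : (delBis a b s).im = (a.im + b.im) / 2 + s * (b.re - a.re) := by
  simp [delBis]

theorem del_sq (z : ℂ) : ‖z‖ ^ 2 = z.re ^ 2 + z.im ^ 2 := by
  rw [Complex.sq_norm, Complex.normSq_apply]; ring

theorem del_eq_iff (z w : ℂ) : ‖z‖ = ‖w‖ ↔ z.re ^ 2 + z.im ^ 2 = w.re ^ 2 + w.im ^ 2 := by
  rw [← del_sq, ← del_sq]
  exact (pow_left_inj₀ (norm_nonneg _) (norm_nonneg _) two_ne_zero).symm

/-- **the key identity** -/
theorem del_key (a b c : ℂ) (s : ℝ) :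
    ‖delBis a b s - c‖ ^ 2 - ‖delBis a b s - a‖ ^ 2 = delP a b c - 2 * s * vorDet a b c := by
  rw [del_sq, del_sq]
  simp only [sub_re, sub_im, del_bis_re, del_bis_im, delP, vorDet]
  ring

theorem del_bis_eq (a b : ℂ) (s : ℝ) : ‖delBis a b s - a‖ = ‖delBis a b s - b‖ := by
  rw [del_eq_iff]
  simp only [sub_re, sub_im, del_bis_re, del_bis_im]
  ring

/-- the points at equal distance from `a` and `b` -/
theorem del_bis {a b z : ℂ} (hab : a ≠ b) (h : ‖z - a‖ = ‖z - b‖) : ∃ s : ℝ, z = delBis a b s := by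
  rw [del_eq_iff] at h
  simp only [sub_re, sub_im] at h
  have hn : 0 < (b.re - a.re) ^ 2 + (b.im - a.im) ^ 2 := by
    by_contra hh
    have h1 : (b.re - a.re) ^ 2 + (b.im - a.im) ^ 2 = 0 := le_antisymm (not_lt.1 hh) (by positivity)
    have h2 : b.re - a.re = 0 := by nlinarith [sq_nonneg (b.re - a.re), sq_nonneg (b.im - a.im)]
    have h3 : b.im - a.im = 0 := by nlinarith [sq_nonneg (b.re - a.re), sq_nonneg (b.im - a.im)]
    exact hab (Complex.ext (by linarith) (by linarith))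
  set N := (b.re - a.re) ^ 2 + (b.im - a.im) ^ 2 with hN
  refine ⟨((z.im - (a.im + b.im) / 2) * (b.re - a.re) - (z.re - (a.re + b.re) / 2) * (b.im - a.im)) / N, ?_⟩
  have h0 : (z.re - (a.re + b.re) / 2) * (b.re - a.re) + (z.im - (a.im + b.im) / 2) * (b.im - a.im) = 0 := by
    nlinarith
  apply Complex.ext
  · rw [del_bis_re]
    field_simp
    rw [hN]
    linear_combination (2 * (b.re - a.re)) * h0
  · rw [del_bis_im]
    field_simp
    rw [hN]
    linear_combination (2 * (b.im - a.im)) * h0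

theorem del_det_rot (a b c : ℂ) : vorDet b c a = vorDet a b c := by
  simp only [vorDet]; ring

theorem del_det_swap (a b c : ℂ) : vorDet b a c = -vorDet a b c := by
  simp only [vorDet]; ring

theorem del_P_swap (a b c : ℂ) : delP b a c = delP a b c := by
  simp only [delP]; ring

theorem del_bis_swap (a b : ℂ) (s : ℝ) : delBis b a s = delBis a b (-s) := by
  apply Complex.ext
  · rw [del_bis_re, del_bis_re]; ring
  · rw [del_bis_im, del_bis_im]; ring

@[simp] theorem del_det_left (a b : ℂ) : vorDet a b a = 0 := by simp [vorDet]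

@[simp] theorem del_det_right (a b : ℂ) : vorDet a b b = 0 := by
  simp only [vorDet]; ring

@[simp] theorem del_det_self (a c : ℂ) : vorDet a a c = 0 := by simp [vorDet]

theorem del_bis_inj {a b : ℂ} (hab : a ≠ b) {s t : ℝ} (h : delBis a b s = delBis a b t) : s = t := by
  have h1 := congrArg Complex.re h
  have h2 := congrArg Complex.im h
  rw [del_bis_re, del_bis_re] at h1
  rw [del_bis_im, del_bis_im] at h2
  by_contra hst
  have hst' : s - t ≠ 0 := sub_ne_zero.2 hst
  have e1 : (s - t) * (b.im - a.im) = 0 := by linarith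
  have e2 : (s - t) * (b.re - a.re) = 0 := by linarith
  have f1 := (mul_eq_zero.1 e1).resolve_left hst'
  have f2 := (mul_eq_zero.1 e2).resolve_left hst'
  exact hab (Complex.ext (by linarith) (by linarith))

/-- **KEY FORMULA**: comparison of the distances on the bisector -/
theorem del_bis_le (a b c : ℂ) (s : ℝ) : ‖delBis a b s - a‖ ≤ ‖delBis a b s - c‖ ↔ 2 * s * vorDet a b c ≤ delP a b c := by
  have h := del_key a b c s
  rw [← pow_le_pow_iff_left₀ (norm_nonneg _) (norm_nonneg _) two_ne_zero]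
  constructor <;> intro h' <;> linarith

theorem del_bis_dist_eq (a b c : ℂ) (s : ℝ) : ‖delBis a b s - a‖ = ‖delBis a b s - c‖ ↔ 2 * s * vorDet a b c = delP a b c := by
  have h := del_key a b c s
  rw [← pow_left_inj₀ (norm_nonneg _) (norm_nonneg _) two_ne_zero]
  constructor <;> intro h' <;> linarith

/-- affine in the parameter -/
theorem del_bis_lin (a b : ℂ) (s t θ : ℝ) : delBis a b ((1 - θ) * s + θ * t) = (1 - θ) • delBis a b s + θ • delBis a b t := by
  apply Complex.ext
  · simp only [add_re, real_smul, mul_re, ofReal_re, ofReal_im, zero_mul, sub_zero, del_bis_re]; ring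
  · simp only [add_im, real_smul, mul_im, ofReal_re, ofReal_im, zero_mul, add_zero, del_bis_im]; ring

/-! ## 2. the circumcentre -/

theorem del_S_spec {a b c : ℂ} (h : vorDet a b c ≠ 0) : 2 * delS a b c * vorDet a b c = delP a b c := by
  unfold delS; field_simp

theorem del_O_ab (a b c : ℂ) : ‖delO a b c - a‖ = ‖delO a b c - b‖ := del_bis_eq a b _

theorem del_O_ac {a b c : ℂ} (h : vorDet a b c ≠ 0) : ‖delO a b c - a‖ = ‖delO a b c - c‖ :=
  (del_bis_dist_eq a b c _).2 (del_S_spec h)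

theorem del_ne_of_det {a b c : ℂ} (h : vorDet a b c ≠ 0) : a ≠ b ∧ a ≠ c ∧ b ≠ c := by
  refine ⟨?_, ?_, ?_⟩ <;> rintro rfl <;> simp at h

/-- the circumcentre is the only point at equal distance from three points which are not on a line -/
theorem del_O_unique {a b c z : ℂ} (h : vorDet a b c ≠ 0) (h1 : ‖z - a‖ = ‖z - b‖) (h2 : ‖z - a‖ = ‖z - c‖) :
    z = delO a b c := by
  obtain ⟨s, rfl⟩ := del_bis (del_ne_of_det h).1 h1
  have e := (del_bis_dist_eq a b c s).1 h2
  have e' := del_S_spec h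
  have : s = delS a b c := by
    have : (s - delS a b c) * vorDet a b c = 0 := by linarith
    have := (mul_eq_zero.1 this).resolve_right h
    linarith
  rw [this]; rfl

theorem del_O_rot {a b c : ℂ} (h : vorDet a b c ≠ 0) : delO b c a = delO a b c := by
  have h' : vorDet b c a ≠ 0 := by rwa [del_det_rot]
  refine del_O_unique h ?_ ?_
  · exact (del_O_ac h').symm
  · rw [← del_O_ac h']; exact del_O_ab b c a

theorem del_S_swap (a b c : ℂ) : delS b a c = -delS a b c := by
  unfold delS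
  rw [del_P_swap, del_det_swap, mul_neg, div_neg]

theorem del_O_swap (a b c : ℂ) : delO b a c = delO a b c := by
  unfold delO
  rw [del_bis_swap, del_S_swap, neg_neg]

/-! ## 3. the common side of two cells -/

theorem DelAdj.symm {Y : Set ℂ} {a b : ℂ} (h : DelAdj Y a b) : DelAdj Y b a :=
  ⟨h.2.1, h.1, h.2.2.1.symm, by rw [inter_comm]; exact h.2.2.2⟩

theorem del_bis_mem_cell (Y : Set ℂ) (a b : ℂ) (s : ℝ) : delBis a b s ∈ vorCell Y a ↔ s ∈ delI Y a b :=
  forall₂_congr fun w _ => del_bis_le a b w s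

theorem del_bis_mem_cell' (Y : Set ℂ) (a b : ℂ) (s : ℝ) : delBis a b s ∈ vorCell Y b ↔ s ∈ delI Y a b := by
  rw [← del_bis_mem_cell]
  refine forall₂_congr fun w _ => ?_
  rw [del_bis_eq a b s]

/-- **the common side of two cells** -/
theorem del_inter_eq {Y : Set ℂ} {a b : ℂ} (ha : a ∈ Y) (hb : b ∈ Y) (hab : a ≠ b) :
    vorCell Y a ∩ vorCell Y b = delBis a b '' delI Y a b := by
  ext z
  constructor
  · rintro ⟨h1, h2⟩
    obtain ⟨s, rfl⟩ := del_bis hab (le_antisymm (h1 b hb) (h2 a ha))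
    exact ⟨s, (del_bis_mem_cell Y a b s).1 h1, rfl⟩
  · rintro ⟨s, hs, rfl⟩
    exact ⟨(del_bis_mem_cell Y a b s).2 hs, (del_bis_mem_cell' Y a b s).2 hs⟩

theorem del_adj_iff {Y : Set ℂ} {a b : ℂ} : DelAdj Y a b ↔ a ∈ Y ∧ b ∈ Y ∧ a ≠ b ∧ (delI Y a b).Nonempty := by
  constructor
  · rintro ⟨ha, hb, hab, h⟩
    rw [del_inter_eq ha hb hab] at h
    exact ⟨ha, hb, hab, h.of_image⟩
  · rintro ⟨ha, hb, hab, h⟩
    refine ⟨ha, hb, hab, ?_⟩
    rw [del_inter_eq ha hb hab]
    exact h.image _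

theorem del_I_swap (Y : Set ℂ) (a b : ℂ) (s : ℝ) : s ∈ delI Y b a ↔ -s ∈ delI Y a b := by
  refine forall₂_congr fun w _ => ?_
  rw [del_det_swap a b, del_P_swap a b]
  constructor <;> intro h <;> linarith

theorem del_I_ordConnected (Y : Set ℂ) (a b : ℂ) : (delI Y a b).OrdConnected := by
  refine ⟨fun s hs t ht r hr w hw => ?_⟩
  have h1 := hs w hw
  have h2 := ht w hw
  rcases le_total 0 (vorDet a b w) with h | h
  · nlinarith [hr.2]
  · nlinarith [hr.1]

/-! ## 4. Delaunay triangles -/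

section tri

variable {Y : Set ℂ} {a b c : ℂ}

/-- **empty disc form** of `DelTri` -/
theorem del_tri_iff : DelTri Y a b c ↔
    a ∈ Y ∧ b ∈ Y ∧ c ∈ Y ∧ 0 < vorDet a b c ∧ ∀ w ∈ Y, ‖delO a b c - a‖ ≤ ‖delO a b c - w‖ := by
  constructor
  · rintro ⟨ha, hb, hc, hl, z, ⟨h1, h2⟩, h3⟩
    have e := del_O_unique hl.ne' (le_antisymm (h1 b hb) (h2 a ha)) (le_antisymm (h1 c hc) (h3 a ha))
    exact ⟨ha, hb, hc, hl, e ▸ h1⟩
  · rintro ⟨ha, hb, hc, hl, h⟩
    refine ⟨ha, hb, hc, hl, delO a b c, ⟨h, fun w hw => ?_⟩, fun w hw => ?_⟩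
    · rw [← del_O_ab]; exact h w hw
    · rw [← del_O_ac hl.ne']; exact h w hw

theorem DelTri.ne (h : DelTri Y a b c) : a ≠ b ∧ a ≠ c ∧ b ≠ c := del_ne_of_det h.2.2.2.1.ne'

theorem DelTri.left (h : DelTri Y a b c) : 0 < vorDet a b c := h.2.2.2.1

theorem DelTri.empty (h : DelTri Y a b c) : ∀ w ∈ Y, ‖delO a b c - a‖ ≤ ‖delO a b c - w‖ := (del_tri_iff.1 h).2.2.2.2

/-- **EXIT: rotation** -/
theorem del_tri_cyc (h : DelTri Y a b c) : DelTri Y b c a := by
  obtain ⟨ha, hb, hc, hl, z, ⟨h1, h2⟩, h3⟩ := h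
  exact ⟨hb, hc, ha, by rw [del_det_rot]; exact hl, z, ⟨h2, h3⟩, h1⟩

theorem DelTri.mem_I (h : DelTri Y a b c) : delS a b c ∈ delI Y a b := (del_bis_mem_cell Y a b _).1 h.empty

theorem DelTri.O_mem_a (h : DelTri Y a b c) : delO a b c ∈ vorCell Y a := h.empty

theorem DelTri.O_mem_b (h : DelTri Y a b c) : delO a b c ∈ vorCell Y b := (del_bis_mem_cell' Y a b _).2 h.mem_I

theorem DelTri.O_mem_c (h : DelTri Y a b c) : delO a b c ∈ vorCell Y c := fun w hw => by
  rw [← del_O_ac h.left.ne']; exact h.empty w hw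

/-- the three sides of a Delaunay triangle are Delaunay edges -/
theorem del_tri_adj (h : DelTri Y a b c) : DelAdj Y a b ∧ DelAdj Y b c ∧ DelAdj Y c a :=
  ⟨⟨h.1, h.2.1, h.ne.1, _, h.O_mem_a, h.O_mem_b⟩, ⟨h.2.1, h.2.2.1, h.ne.2.2, _, h.O_mem_b, h.O_mem_c⟩,
    ⟨h.2.2.1, h.1, h.ne.2.1.symm, _, h.O_mem_c, h.O_mem_a⟩⟩

/-- the circumcentre is the LEFT end of the common side -/
theorem DelTri.I_le (h : DelTri Y a b c) {s : ℝ} (hs : s ∈ delI Y a b) : s ≤ delS a b c := by
  have h1 := hs c h.2.2.1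
  rw [← del_S_spec h.left.ne'] at h1
  have := h.left
  by_contra hh
  nlinarith [not_le.1 hh]

/-- **EXIT: uniqueness of the apex** -/
theorem del_tri_unique (hY : VorGP Y) {c' : ℂ} (h : DelTri Y a b c) (h' : DelTri Y a b c') : c = c' := by
  by_contra hcc
  have e : delS a b c = delS a b c' := le_antisymm (h'.I_le h.mem_I) (h.I_le h'.mem_I)
  have e' : delO a b c' = delO a b c := by unfold delO; rw [e]
  have h1 := del_O_ac h'.left.ne'
  rw [e'] at h1
  exact hY.cir a h.1 b h.2.1 c h.2.2.1 c' h'.2.2.1 h.ne.1 h.ne.2.1 h'.ne.2.1 h.ne.2.2 h'.ne.2.2 hcc (delO a b c)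
    ⟨del_O_ab a b c, del_O_ac h.left.ne', h1⟩

end tri

/-- **existence of the apex**: a side with a site on its left ends at a circumcentre -/
theorem del_exists_tri {Y : Set ℂ} (hLF : VorLF Y) {a b : ℂ} (hab : DelAdj Y a b) {c₀ : ℂ} (hc₀ : c₀ ∈ Y)
    (hl : 0 < vorDet a b c₀) : ∃ c, DelTri Y a b c := by
  obtain ⟨ha, hb, hne, s₀, hs₀⟩ := del_adj_iff.1 hab
  set s₁ := delS a b c₀ with hs₁
  set F : Set ℂ := {c | c ∈ Y ∧ 0 < vorDet a b c ∧ delP a b c ≤ 2 * s₁ * vorDet a b c} with hF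
  have hFfin : F.Finite := by
    refine (hLF.finite_ball (delBis a b s₁) ‖delBis a b s₁ - a‖).subset ?_
    rintro c ⟨hc, _, hc2⟩
    refine ⟨hc, ?_⟩
    rw [Metric.mem_closedBall, dist_comm, dist_eq_norm]
    have h := del_key a b c s₁
    rw [← pow_le_pow_iff_left₀ (norm_nonneg _) (norm_nonneg _) two_ne_zero]
    linarith
  have hFne : F.Nonempty := ⟨c₀, hc₀, hl, (del_S_spec hl.ne').ge⟩
  obtain ⟨c, ⟨hcY, hcl, hc2⟩, hmin⟩ := Set.exists_min_image F (fun c => delS a b c) hFfin hFne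
  have hcs : 2 * delS a b c * vorDet a b c = delP a b c := del_S_spec hcl.ne'
  have hc1 : delS a b c ≤ s₁ := by
    by_contra hh
    nlinarith [not_le.1 hh]
  have hc0 : s₀ ≤ delS a b c := by
    have := hs₀ c hcY
    by_contra hh
    nlinarith [not_le.1 hh]
  refine ⟨c, del_tri_iff.2 ⟨ha, hb, hcY, hcl, (del_bis_mem_cell Y a b _).2 fun w hw => ?_⟩⟩
  rcases lt_trichotomy (vorDet a b w) 0 with h | h | h
  · have := hs₀ w hw
    nlinarith
  · have := hs₀ w hw
    rw [h] at this ⊢
    linarith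
  · have hws : 2 * delS a b w * vorDet a b w = delP a b w := del_S_spec h.ne'
    by_cases hwF : delP a b w ≤ 2 * s₁ * vorDet a b w
    · have := hmin w ⟨hw, h, hwF⟩
      nlinarith
    · nlinarith [not_le.1 hwF]

/-- a side of a bounded cell has a site on its left -/
theorem del_exists_left {Y : Set ℂ} {a b : ℂ} (hbd : Bornology.IsBounded (vorCell Y a)) (hab : DelAdj Y a b) :
    ∃ c ∈ Y, 0 < vorDet a b c := by
  by_contra hno
  push Not at hno
  obtain ⟨ha, hb, hne, s₀, hs₀⟩ := del_adj_iff.1 hab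
  obtain ⟨R, hR⟩ := hbd.subset_closedBall a
  have hmem : ∀ s, s₀ ≤ s → delBis a b s ∈ vorCell Y a := fun s hs =>
    (del_bis_mem_cell Y a b s).2 fun w hw => by
      have h1 := hs₀ w hw
      have h2 := hno w hw
      nlinarith
  have hN : 0 < ‖b - a‖ := norm_pos_iff.2 (sub_ne_zero.2 hne.symm)
  have hd : ∀ s : ℝ, |s| * ‖b - a‖ ≤ ‖delBis a b s - a‖ + ‖b - a‖ := by
    intro s
    have e : (s : ℂ) * (Complex.I * (b - a)) = (delBis a b s - a) - (b - a) / 2 := by
      unfold delBis; ring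
    have h1 : ‖(s : ℂ) * (Complex.I * (b - a))‖ = |s| * ‖b - a‖ := by
      rw [norm_mul, norm_mul, Complex.norm_I, one_mul, Complex.norm_real, Real.norm_eq_abs]
    have h2 : ‖(b - a) / 2‖ ≤ ‖b - a‖ := by
      rw [norm_div]
      have : ‖(2 : ℂ)‖ = 2 := by simp
      rw [this]
      linarith
    rw [← h1, e]
    exact (norm_sub_le _ _).trans (by linarith)
  set s := max s₀ ((|R| + ‖b - a‖) / ‖b - a‖ + 1) with hs
  have h1 := hR (hmem s (le_max_left _ _))
  rw [Metric.mem_closedBall, dist_eq_norm] at h1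
  have h2 := hd s
  have h3 : (|R| + ‖b - a‖) / ‖b - a‖ + 1 ≤ |s| := (le_max_right _ _).trans (le_abs_self s)
  have h4 : (|R| + ‖b - a‖) + ‖b - a‖ ≤ |s| * ‖b - a‖ := by
    have := mul_le_mul_of_nonneg_right h3 hN.le
    rw [add_mul, div_mul_cancel₀ _ hN.ne', one_mul] at this
    exact this
  linarith [le_abs_self R]

/-- **EXIT: existence of the apex** for the sides of a bounded cell -/
theorem del_apex_exists {Y : Set ℂ} (hLF : VorLF Y) {a b : ℂ} (hbd : Bornology.IsBounded (vorCell Y a)) (hab : DelAdj Y a b) :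
    ∃ c, DelTri Y a b c := by
  obtain ⟨c₀, hc₀, hl⟩ := del_exists_left hbd hab
  exact del_exists_tri hLF hab hc₀ hl

/-- **EXIT**: three different cells through one point form a Delaunay triangle -/
theorem del_three {Y : Set ℂ} (hY : VorGP Y) {a b c z : ℂ} (ha : a ∈ Y) (hb : b ∈ Y) (hc : c ∈ Y) (hab : a ≠ b) (hac : a ≠ c)
    (hbc : b ≠ c) (hza : z ∈ vorCell Y a) (hzb : z ∈ vorCell Y b) (hzc : z ∈ vorCell Y c) : DelTri Y a b c ∨ DelTri Y b a c := by
  rcases lt_or_gt_of_ne (hY.col a ha b hb c hc hab hac hbc) with h | h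
  · exact Or.inr ⟨hb, ha, hc, by rw [del_det_swap]; linarith, z, ⟨hzb, hza⟩, hzc⟩
  · exact Or.inl ⟨ha, hb, hc, h, z, ⟨hza, hzb⟩, hzc⟩

/-- **EXIT**: at most three cells through one point -/
theorem del_le_three {Y : Set ℂ} (hY : VorGP Y) {a b c d z : ℂ} (ha : a ∈ Y) (hb : b ∈ Y) (hc : c ∈ Y) (hd : d ∈ Y) (hab : a ≠ b)
    (hac : a ≠ c) (hbc : b ≠ c) (hza : z ∈ vorCell Y a) (hzb : z ∈ vorCell Y b) (hzc : z ∈ vorCell Y c) (hzd : z ∈ vorCell Y d) :
    d = a ∨ d = b ∨ d = c := by
  by_contra hh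
  push Not at hh
  exact hY.cir a ha b hb c hc d hd hab hac (Ne.symm hh.1) hbc (Ne.symm hh.2.1) (Ne.symm hh.2.2) z
    ⟨le_antisymm (hza b hb) (hzb a ha), le_antisymm (hza c hc) (hzc a ha), le_antisymm (hza d hd) (hzd a ha)⟩

/-! ## 5. the side between two triangles -/

section side

variable {Y : Set ℂ} {a b c c' : ℂ}

/-- the circumcentre of the right triangle is the RIGHT end of the common side -/
theorem DelTri.le_I (h' : DelTri Y b a c') {s : ℝ} (hs : s ∈ delI Y a b) : delS a b c' ≤ s := by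
  have h1 := h'.I_le ((del_I_swap Y a b (-s)).2 (by rwa [neg_neg]))
  rw [del_S_swap] at h1
  linarith

theorem DelTri.mem_I' (h' : DelTri Y b a c') : delS a b c' ∈ delI Y a b := by
  have h1 := (del_I_swap Y a b _).1 h'.mem_I
  rwa [del_S_swap, neg_neg] at h1

/-- **EXIT: the common side is not degenerate** -/
theorem del_side_nondeg (hY : VorGP Y) (h : DelTri Y a b c) (h' : DelTri Y b a c') : delS a b c' < delS a b c := by
  refine lt_of_le_of_ne (h.I_le h'.mem_I') fun e => ?_
  have hcc : c ≠ c' := by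
    rintro rfl
    have h1 := h.left
    have h2 := h'.left
    rw [del_det_swap] at h2
    linarith
  have hl' : vorDet a b c' ≠ 0 := by
    have := h'.left
    rw [del_det_swap] at this
    linarith
  have e' : delO a b c' = delO a b c := by unfold delO; rw [e]
  have h1 := del_O_ac hl'
  rw [e'] at h1
  exact hY.cir a h.1 b h.2.1 c h.2.2.1 c' h'.2.2.1 h.ne.1 h.ne.2.1 h'.ne.2.2 h.ne.2.2 h'.ne.2.1 hcc (delO a b c)
    ⟨del_O_ab a b c, del_O_ac h.left.ne', h1⟩

/-- **EXIT**: the admissible parameters between two triangles -/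
theorem del_I_eq (h : DelTri Y a b c) (h' : DelTri Y b a c') : delI Y a b = Icc (delS a b c') (delS a b c) :=
  Subset.antisymm (fun _ hs => ⟨h'.le_I hs, h.I_le hs⟩) ((del_I_ordConnected Y a b).out h'.mem_I' h.mem_I)

/-- **EXIT**: the common side is the segment between the two circumcentres -/
theorem del_side_eq (h : DelTri Y a b c) (h' : DelTri Y b a c') :
    vorCell Y a ∩ vorCell Y b = segment ℝ (delO b a c') (delO a b c) := by
  rw [del_inter_eq h.1 h.2.1 h.ne.1, del_I_eq h h', del_O_swap, ← segment_eq_Icc (h.I_le h'.mem_I')]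
  ext z
  constructor
  · rintro ⟨s, ⟨α, β, hα, hβ, hαβ, rfl⟩, rfl⟩
    refine ⟨α, β, hα, hβ, hαβ, ?_⟩
    have e : α = 1 - β := by linarith
    subst e
    simp only [smul_eq_mul]
    exact (del_bis_lin a b _ _ β).symm
  · rintro ⟨α, β, hα, hβ, hαβ, rfl⟩
    have e : α = 1 - β := by linarith
    subst e
    exact ⟨(1 - β) * delS a b c' + β * delS a b c, ⟨1 - β, β, hα, hβ, hαβ, rfl⟩, del_bis_lin a b _ _ β⟩

theorem del_O_ne (hY : VorGP Y) (h : DelTri Y a b c) (h' : DelTri Y b a c') : delO b a c' ≠ delO a b c := by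
  rw [del_O_swap]
  intro e
  exact (del_side_nondeg hY h h').ne (del_bis_inj h.ne.1 e)

end side

/-! ## 6. the function `delApex` -/

section apex

variable {Y : Set ℂ} {a b c : ℂ}

theorem del_apex_tri (h : ∃ c, DelTri Y a b c) : DelTri Y a b (delApex Y a b) := by
  unfold delApex
  rw [dif_pos h]
  exact h.choose_spec

theorem del_apex_eq (hY : VorGP Y) (h : DelTri Y a b c) : delApex Y a b = c :=
  del_tri_unique hY (del_apex_tri ⟨c, h⟩) h

/-- **EXIT (axiom of `PlTri`)**: `apex b (apex a b) = a` -/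
theorem del_apex_rot (hY : VorGP Y) (h : ∃ c, DelTri Y a b c) : delApex Y b (delApex Y a b) = a :=
  del_apex_eq hY (del_tri_cyc (del_apex_tri h))

/-- **EXIT (axiom of `PlTri`)**: `adj b (apex a b)` -/
theorem del_apex_adj (h : ∃ c, DelTri Y a b c) : DelAdj Y b (delApex Y a b) ∧ DelAdj Y (delApex Y a b) a :=
  (del_tri_adj (del_apex_tri h)).2

end apex

end Claimed.Agent.R289
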