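-- KEEP
import Claimed.Agent.R289.Vor.Basic
import Claimed.Agent.R289.PppCnt

/-!
# Row 289 (S0537), unit L0 DEL, file GenPos : GENERAL POSITION ALMOST SURELY      (helper120, prefix `delgp_`, defs `delgpCc delgpMk delgpMu DelgpOk`)

OUTPUT
* `delgp_ae  (ε) : ∀ᵐ ω ∂(pvLaw ε), DelgpOk ω`      `DelgpOk ω` = marks in the unit square, `(k,j) ↦ pvSite ω k j` injective (ALL indices), no three collinear, no four cocircular (ALL indices)
* `DelgpOk.lf / .gp / .col_inj` : `VorLF (cfSites (pvConf ω))`, `VorGP (cfSites (pvConf ω))`, a site has ONE colour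
* `delgp_ae_conf (ε) : ∀ᵐ η ∂(pvP ε), VorLF (cfSites η) ∧ VorGP (cfSites η) ∧ ∀ p ∈ η.pts, ∀ q ∈ η.pts, p.1 = q.1 → p = q`
ROUTE.  (1) plane: a line and a circle are Lebesgue null in `ℂ`; the circumcentre is an explicit measurable function.   (2) the law of one site is absolutely continuous.
(3) finitely many DIFFERENT coordinates of the infinite product are independent (`Measure.map_infinitePi_infinitePi_of_inj`), Fubini on `Fin (n+1) → ℂ` (`delgp_pi_null`).   (4) countably many index tuples.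
-/

set_option autoImplicit false

namespace Claimed.Agent.R289

open MeasureTheory ProbabilityTheory Set Filter Topology Metric Claims.C0465
open scoped ENNReal NNReal

/-! ## 1. plane geometry -/

/-- the circumcentre of a non degenerate triangle (Cramer) -/
noncomputable def delgpCc (a b c : ℂ) : ℂ :=
  ⟨(((b.re ^ 2 + b.im ^ 2) - (a.re ^ 2 + a.im ^ 2)) * (c.im - a.im) - ((c.re ^ 2 + c.im ^ 2) - (a.re ^ 2 + a.im ^ 2)) * (b.im - a.im)) / (2 * vorDet a b c),
   ((b.re - a.re) * ((c.re ^ 2 + c.im ^ 2) - (a.re ^ 2 + a.im ^ 2)) - (c.re - a.re) * ((b.re ^ 2 + b.im ^ 2) - (a.re ^ 2 + a.im ^ 2))) / (2 * vorDet a b c)⟩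

theorem delgp_norm_eq {z a b : ℂ} (h : ‖z - a‖ = ‖z - b‖) :
    (z.re - a.re) ^ 2 + (z.im - a.im) ^ 2 = (z.re - b.re) ^ 2 + (z.im - b.im) ^ 2 := by
  have h2 : ‖z - a‖ ^ 2 = ‖z - b‖ ^ 2 := by rw [h]
  rw [Complex.sq_norm, Complex.sq_norm, Complex.normSq_apply, Complex.normSq_apply] at h2
  simp only [Complex.sub_re, Complex.sub_im] at h2
  nlinarith

/-- a point equidistant from the three vertices of a non degenerate triangle is THE circumcentre -/
theorem delgp_cc_unique {a b c z : ℂ} (hD : vorDet a b c ≠ 0) (h1 : ‖z - a‖ = ‖z - b‖) (h2 : ‖z - a‖ = ‖z - c‖) : z = delgpCc a b c := by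
  have e1 := delgp_norm_eq h1
  have e2 := delgp_norm_eq h2
  have hD2 : 2 * vorDet a b c ≠ 0 := mul_ne_zero two_ne_zero hD
  apply Complex.ext
  · show z.re = _ / _
    rw [eq_div_iff hD2]
    unfold vorDet
    linear_combination (c.im - a.im) * e1 - (b.im - a.im) * e2
  · show z.im = _ / _
    rw [eq_div_iff hD2]
    unfold vorDet
    linear_combination (b.re - a.re) * e2 - (c.re - a.re) * e1

theorem delgp_measurable_det : Measurable fun p : ℂ × ℂ × ℂ => vorDet p.1 p.2.1 p.2.2 := by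
  unfold vorDet
  have hre := Complex.measurable_re
  have him := Complex.measurable_im
  fun_prop

theorem delgp_measurable_cc : Measurable fun p : ℂ × ℂ × ℂ => delgpCc p.1 p.2.1 p.2.2 := by
  have hre := Complex.measurable_re
  have him := Complex.measurable_im
  have hd := delgp_measurable_det
  have e : (fun p : ℂ × ℂ × ℂ => delgpCc p.1 p.2.1 p.2.2)
      = fun p => Complex.equivRealProdCLM.symm ((delgpCc p.1 p.2.1 p.2.2).re, (delgpCc p.1 p.2.1 p.2.2).im) := by
    funext p; apply Complex.ext <;> simp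
  rw [e]
  refine Complex.equivRealProdCLM.symm.continuous.measurable.comp (Measurable.prodMk ?_ ?_)
  · show Measurable fun p : ℂ × ℂ × ℂ => _ / (2 * vorDet p.1 p.2.1 p.2.2)
    refine Measurable.div ?_ (hd.const_mul 2)
    fun_prop
  · show Measurable fun p : ℂ × ℂ × ℂ => _ / (2 * vorDet p.1 p.2.1 p.2.2)
    refine Measurable.div ?_ (hd.const_mul 2)
    fun_prop

/-- a line is Lebesgue null -/
theorem delgp_line_null {a b : ℂ} (hab : a ≠ b) : (volume : Measure ℂ) {w | vorDet a b w = 0} = 0 := by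
  set L : ℂ →ₗ[ℝ] ℝ := (b.re - a.re) • Complex.imLm - (b.im - a.im) • Complex.reLm with hL
  have hLv : ∀ v : ℂ, L v = (b.re - a.re) * v.im - (b.im - a.im) * v.re := fun v => by simp [hL]
  set s : AffineSubspace ℝ ℂ := AffineSubspace.mk' a (LinearMap.ker L) with hs
  have hset : {w : ℂ | vorDet a b w = 0} = (s : Set ℂ) := by
    ext w
    rw [mem_ofPred_eq, SetLike.mem_coe, hs, AffineSubspace.mem_mk', LinearMap.mem_ker, hLv, vsub_eq_sub]
    unfold vorDet
    simp only [Complex.sub_re, Complex.sub_im]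
  rw [hset]
  refine Measure.addHaar_affineSubspace _ s fun htop => ?_
  have hmem : a + Complex.I * (b - a) ∈ s := by rw [htop]; exact AffineSubspace.mem_top _ _ _
  rw [hs, AffineSubspace.mem_mk', LinearMap.mem_ker, hLv, vsub_eq_sub] at hmem
  simp only [add_sub_cancel_left, Complex.mul_re, Complex.mul_im, Complex.I_re, Complex.I_im, Complex.sub_re, Complex.sub_im] at hmem
  apply hab
  have h1 : (b.re - a.re) ^ 2 + (b.im - a.im) ^ 2 = 0 := by nlinarith
  have h2 : b.re - a.re = 0 := by nlinarith [sq_nonneg (b.re - a.re), sq_nonneg (b.im - a.im)]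
  have h3 : b.im - a.im = 0 := by nlinarith [sq_nonneg (b.re - a.re), sq_nonneg (b.im - a.im)]
  apply Complex.ext <;> linarith

/-- a circle is Lebesgue null -/
theorem delgp_circle_null (z : ℂ) (r : ℝ) : (volume : Measure ℂ) {w | ‖z - w‖ = r} = 0 := by
  have : {w : ℂ | ‖z - w‖ = r} = sphere z r := by
    ext w
    rw [mem_ofPred_eq, mem_sphere, dist_comm, dist_eq_norm]
  rw [this]
  exact Measure.addHaar_sphere _ z r

/-! ## 2. the law of one mark, of one site -/

/-- the law of one mark -/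
noncomputable def delgpMk : Measure ((ℝ × ℝ) × Bool) :=
  ((volume : Measure (ℝ × ℝ)).restrict (Ico (0 : ℝ) 1 ×ˢ Ico (0 : ℝ) 1)).prod (PMF.uniformOfFintype Bool).toMeasure

instance delgp_sq_prob : IsProbabilityMeasure ((volume : Measure (ℝ × ℝ)).restrict (Ico (0 : ℝ) 1 ×ˢ Ico (0 : ℝ) 1)) := ⟨by
  rw [Measure.restrict_apply_univ, Measure.volume_eq_prod, Measure.prod_prod]; simp⟩

instance delgp_mk_prob : IsProbabilityMeasure delgpMk := by unfold delgpMk; infer_instance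

/-- the site of a mark in the unit cell `k` -/
def delgpSt (k : ℤ × ℤ) (u : (ℝ × ℝ) × Bool) : ℂ := (pvShift k u).1

theorem delgp_measurable_st (k : ℤ × ℤ) : Measurable (delgpSt k) := measurable_fst.comp (measurable_pvShift k)

theorem delgp_site_eq (ω : PVSample) (k : ℤ × ℤ) (j : ℕ) : pvSite ω k j = delgpSt k (ω.2 (k, j)) := rfl

/-- the law of one site of the unit cell `k` -/
noncomputable def delgpMu (k : ℤ × ℤ) : Measure ℂ := delgpMk.map (delgpSt k)

instance delgp_mu_prob (k : ℤ × ℤ) : IsProbabilityMeasure (delgpMu k) :=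
  Measure.isProbabilityMeasure_map (delgp_measurable_st k).aemeasurable

theorem delgp_eqns_cite : True := by
  have := @delgpCc.eq_1
  have := @delgpMk.eq_1
  have := @delgpSt.eq_1
  have := @delgpMu.eq_1
  trivial

/-- the law of one site is absolutely continuous -/
theorem delgp_mu_ac (k : ℤ × ℤ) : delgpMu k ≪ (volume : Measure ℂ) := by
  refine Measure.AbsolutelyContinuous.mk fun N hN h0 => ?_
  unfold delgpMu
  rw [Measure.map_apply (delgp_measurable_st k) hN]
  set g : ℝ × ℝ → ℂ := fun x => Complex.measurableEquivRealProd.symm (((k.1 : ℝ), (k.2 : ℝ)) + x) with hg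
  have hmp : MeasurePreserving g volume volume :=
    Complex.volume_preserving_equiv_real_prod.symm.comp (measurePreserving_add_left volume (((k.1 : ℝ), (k.2 : ℝ)) : ℝ × ℝ))
  have hpre : delgpSt k ⁻¹' N = (g ⁻¹' N) ×ˢ (univ : Set Bool) := by
    ext u
    simp only [mem_preimage, mem_prod, mem_univ, and_true]
    have : delgpSt k u = g u.1 := by
      apply Complex.ext <;> simp [delgpSt, pvShift, hg, Complex.measurableEquivRealProd]
    rw [this]
  rw [hpre]
  unfold delgpMk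
  rw [Measure.prod_prod]
  have h1 : (volume : Measure (ℝ × ℝ)) (g ⁻¹' N) = 0 := by rw [hmp.measure_preimage hN.nullMeasurableSet, h0]
  have h2 : ((volume : Measure (ℝ × ℝ)).restrict (Ico (0 : ℝ) 1 ×ˢ Ico (0 : ℝ) 1)) (g ⁻¹' N) = 0 :=
    le_antisymm ((Measure.restrict_apply_le _ _).trans h1.le) zero_le
  rw [h2, zero_mul]

/-! ## 3. finitely many different coordinates; Fubini -/

/-- the joint law of finitely many sites with DIFFERENT indices is a product -/
theorem delgp_tuple_law {n : ℕ} (idx : Fin n → (ℤ × ℤ) × ℕ) (hinj : Function.Injective idx) :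
    (Measure.infinitePi fun _ : (ℤ × ℤ) × ℕ => delgpMk).map (fun y a => delgpSt (idx a).1 (y (idx a)))
      = Measure.pi fun a => delgpMu (idx a).1 := by
  have h1 := Measure.map_infinitePi_infinitePi_of_inj (P := fun _ : (ℤ × ℤ) × ℕ => delgpMk) hinj
  have h2 := Measure.infinitePi_map_pi (fun _ : Fin n => delgpMk) (f := fun a => delgpSt (idx a).1) (fun a => delgp_measurable_st _)
  rw [← h1, Measure.map_map (by
    exact measurable_pi_lambda _ fun a => (delgp_measurable_st _).comp (measurable_pi_apply a)) (by fun_prop)] at h2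
  rw [← Measure.infinitePi_eq_pi]
  exact h2

/-- Fubini for null sets: split off the coordinate `0` -/
theorem delgp_pi_null {n : ℕ} (μ : Fin (n + 1) → Measure ℂ) [∀ a, SigmaFinite (μ a)] {N : Set (Fin (n + 1) → ℂ)} (hN : MeasurableSet N)
    (h : ∀ᵐ w' ∂(Measure.pi fun a : Fin n => μ a.succ), μ 0 {u | (Fin.cons u w' : Fin (n + 1) → ℂ) ∈ N} = 0) :
    Measure.pi μ N = 0 := by
  have mp := measurePreserving_piFinSuccAbove μ 0
  set e := MeasurableEquiv.piFinSuccAbove (fun _ : Fin (n + 1) => ℂ) 0 with he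
  have e1 : Measure.pi μ N = ((μ 0).prod (Measure.pi fun j => μ ((0 : Fin (n + 1)).succAbove j))) (e.symm ⁻¹' N) := by
    rw [← mp.measure_preimage (e.symm.measurable hN).nullMeasurableSet]
    congr 1
    ext w
    simp
  have hS : MeasurableSet (e.symm ⁻¹' N) := e.symm.measurable hN
  rw [e1, ← Measure.prod_swap, Measure.map_apply measurable_swap hS, Measure.measure_prod_null (measurable_swap hS)]
  have hμ : (fun j : Fin n => μ ((0 : Fin (n + 1)).succAbove j)) = fun a : Fin n => μ a.succ := by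
    funext j; rw [Fin.succAbove_zero]
  rw [hμ]
  filter_upwards [h] with w' hw'
  rw [Pi.zero_apply, ← hw']
  congr 1
  ext u
  simp only [mem_preimage, Prod.swap_prod_mk, mem_ofPred_eq]
  have : e.symm (u, w') = (Fin.cons u w' : Fin (n + 1) → ℂ) := by
    show Fin.insertNth (α := fun _ : Fin (n + 1) => ℂ) 0 u w' = _
    exact Fin.insertNth_zero' u w'
  rw [this]

/-! ## 4. null sets of tuples of independent absolutely continuous points -/

theorem delgp_meas_det {α : Type*} [MeasurableSpace α] {f g h : α → ℂ} (hf : Measurable f) (hg : Measurable g) (hh : Measurable h) :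
    Measurable fun x => vorDet (f x) (g x) (h x) :=
  delgp_measurable_det.comp (g := fun p : ℂ × ℂ × ℂ => vorDet p.1 p.2.1 p.2.2) (f := fun x => (f x, g x, h x)) (hf.prodMk (hg.prodMk hh))

theorem delgp_meas_cc {α : Type*} [MeasurableSpace α] {f g h : α → ℂ} (hf : Measurable f) (hg : Measurable g) (hh : Measurable h) :
    Measurable fun x => delgpCc (f x) (g x) (h x) :=
  delgp_measurable_cc.comp (g := fun p : ℂ × ℂ × ℂ => delgpCc p.1 p.2.1 p.2.2) (f := fun x => (f x, g x, h x)) (hf.prodMk (hg.prodMk hh))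

section tuples

attribute [local irreducible] delgpCc vorDet

theorem delgp_two_meas : MeasurableSet {w : Fin 2 → ℂ | w 0 = w 1} :=
  measurableSet_eq_fun (measurable_pi_apply 0) (measurable_pi_apply 1)

theorem delgp_three_meas : MeasurableSet {w : Fin 3 → ℂ | vorDet (w 1) (w 2) (w 0) = 0} :=
  (delgp_meas_det (measurable_pi_apply 1) (measurable_pi_apply 2) (measurable_pi_apply 0)) (measurableSet_singleton 0)

theorem delgp_four_meas : MeasurableSet {w : Fin 4 → ℂ | ‖delgpCc (w 1) (w 2) (w 3) - w 0‖ = ‖delgpCc (w 1) (w 2) (w 3) - w 1‖} :=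
  measurableSet_eq_fun ((delgp_meas_cc (measurable_pi_apply 1) (measurable_pi_apply 2) (measurable_pi_apply 3)).sub (measurable_pi_apply 0)).norm
    ((delgp_meas_cc (measurable_pi_apply 1) (measurable_pi_apply 2) (measurable_pi_apply 3)).sub (measurable_pi_apply 1)).norm

theorem delgp_two {μ : Fin 2 → Measure ℂ} [∀ a, SigmaFinite (μ a)] (hac : ∀ a, μ a ≪ (volume : Measure ℂ)) :
    Measure.pi μ {w : Fin 2 → ℂ | w 0 = w 1} = 0 := by
  refine delgp_pi_null μ delgp_two_meas (ae_of_all _ fun w' => ?_)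
  refine hac 0 ?_
  show volume {u : ℂ | u = w' 0} = 0
  exact measure_singleton _

theorem delgp_three {μ : Fin 3 → Measure ℂ} [∀ a, SigmaFinite (μ a)] (hac : ∀ a, μ a ≪ (volume : Measure ℂ)) :
    Measure.pi μ {w : Fin 3 → ℂ | vorDet (w 1) (w 2) (w 0) = 0} = 0 := by
  have h2 := delgp_two (μ := fun a : Fin 2 => μ a.succ) fun a => hac _
  refine delgp_pi_null μ delgp_three_meas ?_
  filter_upwards [measure_eq_zero_iff_ae_notMem.1 h2] with w' hw'
  refine hac 0 ?_
  show volume {u : ℂ | vorDet (w' 0) (w' 1) u = 0} = 0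
  exact delgp_line_null hw'

theorem delgp_four {μ : Fin 4 → Measure ℂ} [∀ a, SigmaFinite (μ a)] (hac : ∀ a, μ a ≪ (volume : Measure ℂ)) :
    Measure.pi μ {w : Fin 4 → ℂ | ‖delgpCc (w 1) (w 2) (w 3) - w 0‖ = ‖delgpCc (w 1) (w 2) (w 3) - w 1‖} = 0 := by
  refine delgp_pi_null μ delgp_four_meas (ae_of_all _ fun w' => ?_)
  refine hac 0 ?_
  show volume {u : ℂ | ‖delgpCc (w' 0) (w' 1) (w' 2) - u‖ = ‖delgpCc (w' 0) (w' 1) (w' 2) - w' 0‖} = 0
  exact delgp_circle_null _ _

/-! ## 5. the marks: almost sure statements for fixed index tuples -/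

/-- index of a mark -/
abbrev DelgpIx := (ℤ × ℤ) × ℕ

/-- the law of the marks -/
noncomputable def delgpP2 : Measure (DelgpIx → (ℝ × ℝ) × Bool) := Measure.infinitePi fun _ : DelgpIx => delgpMk

/-- the site of index `i` as a function of the marks -/
def delgpS (y : DelgpIx → (ℝ × ℝ) × Bool) (i : DelgpIx) : ℂ := delgpSt i.1 (y i)

theorem delgp_measurable_S (i : DelgpIx) : Measurable fun y => delgpS y i := (delgp_measurable_st _).comp (measurable_pi_apply i)

/-- transfer of a null set of tuples -/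
theorem delgp_transfer {n : ℕ} (idx : Fin n → DelgpIx) (hinj : Function.Injective idx) {N : Set (Fin n → ℂ)} (hN : MeasurableSet N)
    (h0 : (Measure.pi fun a => delgpMu (idx a).1) N = 0) : ∀ᵐ y ∂delgpP2, (fun a => delgpS y (idx a)) ∉ N := by
  have hm : Measurable fun (y : DelgpIx → (ℝ × ℝ) × Bool) (a : Fin n) => delgpSt (idx a).1 (y (idx a)) :=
    measurable_pi_lambda _ fun a => delgp_measurable_S (idx a)
  rw [← delgp_tuple_law idx hinj, Measure.map_apply hm hN] at h0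
  exact measure_eq_zero_iff_ae_notMem.1 h0

theorem delgp_ae_two {i j : DelgpIx} (hij : i ≠ j) : ∀ᵐ y ∂delgpP2, delgpS y i ≠ delgpS y j := by
  have hinj : Function.Injective (![i, j] : Fin 2 → DelgpIx) := by
    intro a b hab
    fin_cases a <;> fin_cases b <;> simp_all
  exact delgp_transfer ![i, j] hinj delgp_two_meas (delgp_two fun a => delgp_mu_ac _)

theorem delgp_ae_three {i j l : DelgpIx} (hij : i ≠ j) (hil : i ≠ l) (hjl : j ≠ l) :
    ∀ᵐ y ∂delgpP2, vorDet (delgpS y i) (delgpS y j) (delgpS y l) ≠ 0 := by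
  have hinj : Function.Injective (![l, i, j] : Fin 3 → DelgpIx) := by
    intro a b hab
    fin_cases a <;> fin_cases b <;> simp_all [eq_comm]
  exact delgp_transfer ![l, i, j] hinj delgp_three_meas (delgp_three fun a => delgp_mu_ac _)

theorem delgp_ae_four {i j l m : DelgpIx} (hij : i ≠ j) (hil : i ≠ l) (him : i ≠ m) (hjl : j ≠ l) (hjm : j ≠ m) (hlm : l ≠ m) :
    ∀ᵐ y ∂delgpP2, ‖delgpCc (delgpS y i) (delgpS y j) (delgpS y l) - delgpS y m‖ ≠ ‖delgpCc (delgpS y i) (delgpS y j) (delgpS y l) - delgpS y i‖ := by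
  have hinj : Function.Injective (![m, i, j, l] : Fin 4 → DelgpIx) := by
    intro a b hab
    fin_cases a <;> fin_cases b <;> simp_all [eq_comm]
  exact delgp_transfer ![m, i, j, l] hinj delgp_four_meas (delgp_four fun a => delgp_mu_ac _)

end tuples

/-! ## 6. the good samples -/

/-- the site of index `i` of a sample -/
def delgpW (ω : PVSample) (i : DelgpIx) : ℂ := pvSite ω i.1 i.2

theorem delgp_W_eq (ω : PVSample) (i : DelgpIx) : delgpW ω i = delgpS ω.2 i := rfl

/-- **good samples**: all statements for ALL indices `(k, j)`, also the inactive ones `j ≥ ω.1 k` -/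
structure DelgpOk (ω : PVSample) : Prop where
  sq : ∀ k j, (ω.2 (k, j)).1 ∈ Ico (0 : ℝ) 1 ×ˢ Ico (0 : ℝ) 1
  inj : ∀ i j : DelgpIx, i ≠ j → delgpW ω i ≠ delgpW ω j
  col : ∀ i j l : DelgpIx, i ≠ j → i ≠ l → j ≠ l → vorDet (delgpW ω i) (delgpW ω j) (delgpW ω l) ≠ 0
  cir : ∀ i j l m : DelgpIx, i ≠ j → i ≠ l → i ≠ m → j ≠ l → j ≠ m → l ≠ m →
    ‖delgpCc (delgpW ω i) (delgpW ω j) (delgpW ω l) - delgpW ω m‖ ≠ ‖delgpCc (delgpW ω i) (delgpW ω j) (delgpW ω l) - delgpW ω i‖

theorem delgp_law_eq (ε : ℝ) : pvLaw ε = (Measure.infinitePi (fun _ : ℤ × ℤ => poissonMeasure ((ε⁻¹) ^ 2).toNNReal)).prod delgpP2 := rfl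

/-- an almost sure property of the marks is an almost sure property of the sample -/
theorem delgp_ae_snd (ε : ℝ) {p : (DelgpIx → (ℝ × ℝ) × Bool) → Prop} (h : ∀ᵐ y ∂delgpP2, p y) : ∀ᵐ ω ∂(pvLaw ε), p ω.2 := by
  rw [delgp_law_eq]
  exact Measure.quasiMeasurePreserving_snd.ae h

/-- **EXIT 1: almost every sample is good** -/
theorem delgp_ae (ε : ℝ) : ∀ᵐ ω ∂(pvLaw ε), DelgpOk ω := by
  have h2 : ∀ᵐ y ∂delgpP2, ∀ i j : DelgpIx, i ≠ j → delgpS y i ≠ delgpS y j := by
    rw [ae_all_iff]; intro i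
    rw [ae_all_iff]; intro j
    by_cases hij : i = j
    · exact ae_of_all _ fun _ h => absurd hij h
    · exact (delgp_ae_two hij).mono fun _ h _ => h
  have h3 : ∀ᵐ y ∂delgpP2, ∀ i j l : DelgpIx, i ≠ j → i ≠ l → j ≠ l → vorDet (delgpS y i) (delgpS y j) (delgpS y l) ≠ 0 := by
    rw [ae_all_iff]; intro i
    rw [ae_all_iff]; intro j
    rw [ae_all_iff]; intro l
    by_cases hc : i ≠ j ∧ i ≠ l ∧ j ≠ l
    · exact (delgp_ae_three hc.1 hc.2.1 hc.2.2).mono fun _ h _ _ _ => h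
    · exact ae_of_all _ fun _ a b c => absurd ⟨a, b, c⟩ hc
  have h4 : ∀ᵐ y ∂delgpP2, ∀ i j l m : DelgpIx, i ≠ j → i ≠ l → i ≠ m → j ≠ l → j ≠ m → l ≠ m →
      ‖delgpCc (delgpS y i) (delgpS y j) (delgpS y l) - delgpS y m‖ ≠ ‖delgpCc (delgpS y i) (delgpS y j) (delgpS y l) - delgpS y i‖ := by
    rw [ae_all_iff]; intro i
    rw [ae_all_iff]; intro j
    rw [ae_all_iff]; intro l
    rw [ae_all_iff]; intro m
    by_cases hc : i ≠ j ∧ i ≠ l ∧ i ≠ m ∧ j ≠ l ∧ j ≠ m ∧ l ≠ m
    · exact (delgp_ae_four hc.1 hc.2.1 hc.2.2.1 hc.2.2.2.1 hc.2.2.2.2.1 hc.2.2.2.2.2).mono fun _ h _ _ _ _ _ _ => h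
    · exact ae_of_all _ fun _ a b c d e f => absurd ⟨a, b, c, d, e, f⟩ hc
  filter_upwards [pvcn_pos_ae ε, delgp_ae_snd ε h2, delgp_ae_snd ε h3, delgp_ae_snd ε h4] with ω a b c d
  exact ⟨a, b, c, d⟩

/-! ## 7. good configurations -/

/-- **good configurations** (a property of the SET of coloured points; `cir` in the measurable form with the explicit circumcentre) -/
structure DelgpCf (η : Conf PvPt) : Prop where
  one : ∀ p ∈ η.pts, ∀ q ∈ η.pts, p.1 = q.1 → p.2 = q.2
  col : ∀ p ∈ η.pts, ∀ q ∈ η.pts, ∀ r ∈ η.pts, p.1 ≠ q.1 → p.1 ≠ r.1 → q.1 ≠ r.1 → vorDet p.1 q.1 r.1 ≠ 0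
  cir : ∀ p ∈ η.pts, ∀ q ∈ η.pts, ∀ r ∈ η.pts, ∀ t ∈ η.pts, p.1 ≠ q.1 → p.1 ≠ r.1 → p.1 ≠ t.1 → q.1 ≠ r.1 → q.1 ≠ t.1 → r.1 ≠ t.1 →
    ‖delgpCc p.1 q.1 r.1 - t.1‖ ≠ ‖delgpCc p.1 q.1 r.1 - p.1‖

/-- a site has one colour -/
theorem DelgpCf.one' {η : Conf PvPt} (h : DelgpCf η) {p q : PvPt} (hp : p ∈ η.pts) (hq : q ∈ η.pts) (hpq : p.1 = q.1) : p = q :=
  Prod.ext hpq (h.one p hp q hq hpq)

/-- general position of the sites -/
theorem DelgpCf.gp {η : Conf PvPt} (h : DelgpCf η) : VorGP (cfSites η) := by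
  constructor
  · rintro _ ⟨p, hp, rfl⟩ _ ⟨q, hq, rfl⟩ _ ⟨r, hr, rfl⟩ h1 h2 h3
    exact h.col p hp q hq r hr h1 h2 h3
  · rintro _ ⟨p, hp, rfl⟩ _ ⟨q, hq, rfl⟩ _ ⟨r, hr, rfl⟩ _ ⟨t, ht, rfl⟩ h1 h2 h3 h4 h5 h6 z ⟨e1, e2, e3⟩
    have hz := delgp_cc_unique (h.col p hp q hq r hr h1 h2 h4) e1 e2
    refine h.cir p hp q hq r hr t ht h1 h2 h3 h4 h5 h6 ?_
    rw [← hz, ← e3]

theorem delgp_mem_conf {ω : PVSample} {p : PvPt} : p ∈ (pvConf ω).pts ↔ ∃ i : DelgpIx, i.2 < ω.1 i.1 ∧ p = (delgpW ω i, (ω.2 i).2) := by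
  constructor
  · rintro ⟨k, j, hj, rfl⟩
    exact ⟨(k, j), hj, rfl⟩
  · rintro ⟨⟨k, j⟩, hj, rfl⟩
    exact ⟨k, j, hj, rfl⟩

/-- a good sample has a good configuration -/
theorem DelgpOk.cf {ω : PVSample} (h : DelgpOk ω) : DelgpCf (pvConf ω) := by
  have key : ∀ i j : DelgpIx, delgpW ω i ≠ delgpW ω j → i ≠ j := fun i j hne he => hne (by rw [he])
  constructor
  · intro p hp q hq hpq
    obtain ⟨i, -, rfl⟩ := delgp_mem_conf.1 hp
    obtain ⟨j, -, rfl⟩ := delgp_mem_conf.1 hq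
    by_cases hij : i = j
    · rw [hij]
    · exact absurd hpq (h.inj i j hij)
  · intro p hp q hq r hr h1 h2 h3
    obtain ⟨i, -, rfl⟩ := delgp_mem_conf.1 hp
    obtain ⟨j, -, rfl⟩ := delgp_mem_conf.1 hq
    obtain ⟨l, -, rfl⟩ := delgp_mem_conf.1 hr
    exact h.col i j l (key _ _ h1) (key _ _ h2) (key _ _ h3)
  · intro p hp q hq r hr t ht h1 h2 h3 h4 h5 h6
    obtain ⟨i, -, rfl⟩ := delgp_mem_conf.1 hp
    obtain ⟨j, -, rfl⟩ := delgp_mem_conf.1 hq
    obtain ⟨l, -, rfl⟩ := delgp_mem_conf.1 hr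
    obtain ⟨m, -, rfl⟩ := delgp_mem_conf.1 ht
    exact h.cir i j l m (key _ _ h1) (key _ _ h2) (key _ _ h3) (key _ _ h4) (key _ _ h5) (key _ _ h6)

theorem DelgpOk.gp {ω : PVSample} (h : DelgpOk ω) : VorGP (cfSites (pvConf ω)) := h.cf.gp

theorem DelgpOk.lf {ω : PVSample} (h : DelgpOk ω) : VorLF (cfSites (pvConf ω)) :=
  vor_lf_pv ω fun k j => h.sq k j

theorem DelgpOk.pvlf {ω : PVSample} (h : DelgpOk ω) : PvLF (pvConf ω) := pvcn_LF_conf ω h.sq

/-- **EXIT 1'** in the form asked by the head of DEL -/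
theorem delgp_ae_gp (ε : ℝ) : ∀ᵐ ω ∂(pvLaw ε), VorLF (cfSites (pvConf ω)) ∧ VorGP (cfSites (pvConf ω)) :=
  (delgp_ae ε).mono fun _ h => ⟨h.lf, h.gp⟩

/-! ## 8. the same under the law `pvP ε` of the configuration (bridge of `PppCnt.lean`) -/

theorem delgp_cf_iff (ω : PVSample) : DelgpCf (pvConf ω) ↔
    (∀ i j : DelgpIx, i.2 < ω.1 i.1 → j.2 < ω.1 j.1 → delgpW ω i = delgpW ω j → (ω.2 i).2 = (ω.2 j).2) ∧
    (∀ i j l : DelgpIx, i.2 < ω.1 i.1 → j.2 < ω.1 j.1 → l.2 < ω.1 l.1 → ¬ delgpW ω i = delgpW ω j → ¬ delgpW ω i = delgpW ω l → ¬ delgpW ω j = delgpW ω l →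
      ¬ vorDet (delgpW ω i) (delgpW ω j) (delgpW ω l) = 0) ∧
    (∀ i j l m : DelgpIx, i.2 < ω.1 i.1 → j.2 < ω.1 j.1 → l.2 < ω.1 l.1 → m.2 < ω.1 m.1 →
      ¬ delgpW ω i = delgpW ω j → ¬ delgpW ω i = delgpW ω l → ¬ delgpW ω i = delgpW ω m → ¬ delgpW ω j = delgpW ω l → ¬ delgpW ω j = delgpW ω m → ¬ delgpW ω l = delgpW ω m →
      ¬ ‖delgpCc (delgpW ω i) (delgpW ω j) (delgpW ω l) - delgpW ω m‖ = ‖delgpCc (delgpW ω i) (delgpW ω j) (delgpW ω l) - delgpW ω i‖) := by
  have mk : ∀ i : DelgpIx, i.2 < ω.1 i.1 → (delgpW ω i, (ω.2 i).2) ∈ (pvConf ω).pts := fun i hi => delgp_mem_conf.2 ⟨i, hi, rfl⟩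
  constructor
  · intro h
    refine ⟨fun i j hi hj e => h.one _ (mk i hi) _ (mk j hj) e, fun i j l hi hj hl => h.col _ (mk i hi) _ (mk j hj) _ (mk l hl),
      fun i j l m hi hj hl hm => h.cir _ (mk i hi) _ (mk j hj) _ (mk l hl) _ (mk m hm)⟩
  · rintro ⟨h1, h2, h3⟩
    constructor
    · intro p hp q hq
      obtain ⟨i, hi, rfl⟩ := delgp_mem_conf.1 hp
      obtain ⟨j, hj, rfl⟩ := delgp_mem_conf.1 hq
      exact h1 i j hi hj
    · intro p hp q hq r hr
      obtain ⟨i, hi, rfl⟩ := delgp_mem_conf.1 hp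
      obtain ⟨j, hj, rfl⟩ := delgp_mem_conf.1 hq
      obtain ⟨l, hl, rfl⟩ := delgp_mem_conf.1 hr
      exact h2 i j l hi hj hl
    · intro p hp q hq r hr t ht
      obtain ⟨i, hi, rfl⟩ := delgp_mem_conf.1 hp
      obtain ⟨j, hj, rfl⟩ := delgp_mem_conf.1 hq
      obtain ⟨l, hl, rfl⟩ := delgp_mem_conf.1 hr
      obtain ⟨m, hm, rfl⟩ := delgp_mem_conf.1 ht
      exact h3 i j l m hi hj hl hm

theorem delgp_measurable_W (i : DelgpIx) : Measurable fun ω : PVSample => delgpW ω i := (delgp_measurable_S i).comp measurable_snd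

/-- the pull-back of the good configurations is a measurable event of the frozen sample space -/
theorem delgp_cf_meas : MeasurableSet (pvConf ⁻¹' {η | DelgpCf η}) := by
  have hA : ∀ i : DelgpIx, Measurable fun ω : PVSample => i.2 < ω.1 i.1 := fun i =>
    measurableSet_setOfPred.1 (measurableSet_lt measurable_const ((measurable_pi_apply i.1).comp measurable_fst))
  have hW := delgp_measurable_W
  have hE : ∀ i j : DelgpIx, Measurable fun ω : PVSample => delgpW ω i = delgpW ω j := fun i j =>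
    measurableSet_setOfPred.1 (measurableSet_eq_fun (hW i) (hW j))
  have hC : ∀ i j : DelgpIx, Measurable fun ω : PVSample => (ω.2 i).2 = (ω.2 j).2 := fun i j =>
    measurableSet_setOfPred.1 (measurableSet_eq_fun (measurable_snd.comp ((measurable_pi_apply i).comp measurable_snd))
      (measurable_snd.comp ((measurable_pi_apply j).comp measurable_snd)))
  have hD : ∀ i j l : DelgpIx, Measurable fun ω : PVSample => vorDet (delgpW ω i) (delgpW ω j) (delgpW ω l) = 0 := fun i j l =>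
    measurableSet_setOfPred.1 ((delgp_meas_det (hW i) (hW j) (hW l)) (measurableSet_singleton 0))
  have hR : ∀ i j l m : DelgpIx, Measurable fun ω : PVSample =>
      ‖delgpCc (delgpW ω i) (delgpW ω j) (delgpW ω l) - delgpW ω m‖ = ‖delgpCc (delgpW ω i) (delgpW ω j) (delgpW ω l) - delgpW ω i‖ := fun i j l m =>
    measurableSet_setOfPred.1 (measurableSet_eq_fun ((delgp_meas_cc (hW i) (hW j) (hW l)).sub (hW m)).norm ((delgp_meas_cc (hW i) (hW j) (hW l)).sub (hW i)).norm)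
  have e : pvConf ⁻¹' {η | DelgpCf η} = {ω | DelgpCf (pvConf ω)} := rfl
  rw [e]
  simp only [delgp_cf_iff]
  rw [measurableSet_setOfPred]
  refine Measurable.and ?_ (Measurable.and ?_ ?_)
  · exact Measurable.forall fun i => Measurable.forall fun j => (hA i).imp ((hA j).imp ((hE i j).imp (hC i j)))
  · exact Measurable.forall fun i => Measurable.forall fun j => Measurable.forall fun l =>
      (hA i).imp ((hA j).imp ((hA l).imp ((hE i j).not.imp ((hE i l).not.imp ((hE j l).not.imp (hD i j l).not)))))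
  · exact Measurable.forall fun i => Measurable.forall fun j => Measurable.forall fun l => Measurable.forall fun m =>
      (hA i).imp ((hA j).imp ((hA l).imp ((hA m).imp ((hE i j).not.imp ((hE i l).not.imp ((hE i m).not.imp
        ((hE j l).not.imp ((hE j m).not.imp ((hE l m).not.imp (hR i j l m).not)))))))))

/-- local finiteness in unit cells gives local finiteness of the sites -/
theorem delgp_lf_of_pvlf {η : Conf PvPt} (h : PvLF η) : VorLF (cfSites η) := by
  intro R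
  obtain ⟨N, hN⟩ := exists_nat_gt (R + 1)
  have hfin : (⋃ k ∈ (Icc (-(N : ℤ)) N ×ˢ Icc (-(N : ℤ)) N : Set (ℤ × ℤ)), Prod.fst '' (η.pts ∩ pvBox k)).Finite :=
    Set.Finite.biUnion ((finite_Icc _ _).prod (finite_Icc _ _)) fun k _ => (h k).image _
  refine hfin.subset ?_
  rintro _ ⟨⟨p, hp, rfl⟩, hR⟩
  rw [mem_closedBall, dist_zero_right] at hR
  have h1 := abs_le.1 ((Complex.abs_re_le_norm _).trans hR)
  have h2 := abs_le.1 ((Complex.abs_im_le_norm _).trans hR)
  obtain ⟨k, hk⟩ := pvcn_box_cover p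
  obtain ⟨⟨a1, a2⟩, ⟨b1, b2⟩⟩ := hk
  refine mem_biUnion (x := k) ⟨⟨?_, ?_⟩, ⟨?_, ?_⟩⟩ ⟨p, ⟨hp, ⟨a1, a2⟩, ⟨b1, b2⟩⟩, rfl⟩
  · have : (-(N : ℤ) : ℝ) ≤ (k.1 : ℝ) := by push_cast; linarith
    exact_mod_cast this
  · have : (k.1 : ℝ) ≤ ((N : ℤ) : ℝ) := by push_cast; linarith
    exact_mod_cast this
  · have : (-(N : ℤ) : ℝ) ≤ (k.2 : ℝ) := by push_cast; linarith
    exact_mod_cast this
  · have : (k.2 : ℝ) ≤ ((N : ℤ) : ℝ) := by push_cast; linarith
    exact_mod_cast this

/-- almost every configuration is good -/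
theorem delgp_ae_cf (ε : ℝ) : ∀ᵐ η ∂(pvP ε), DelgpCf η := by
  have hm : MeasurableSet (pvConf ⁻¹' {η | DelgpCf η}ᶜ) := by
    rw [preimage_compl]; exact delgp_cf_meas.compl
  rw [ae_iff]
  have e : {η : Conf PvPt | ¬ DelgpCf η} = {η | DelgpCf η}ᶜ := rfl
  rw [e, pvcn_bridge_apply ε hm]
  exact ae_iff.1 ((delgp_ae ε).mono fun _ h => h.cf)

/-- **EXIT 2: general position, local finiteness, one colour per site, almost surely under `pvP ε`** -/
theorem delgp_ae_conf (ε : ℝ) : ∀ᵐ η ∂(pvP ε), VorLF (cfSites η) ∧ VorGP (cfSites η) ∧ ∀ p ∈ η.pts, ∀ q ∈ η.pts, p.1 = q.1 → p = q := by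
  filter_upwards [delgp_ae_cf ε, pvcn_LF_ae ε] with η h1 h2
  exact ⟨delgp_lf_of_pvlf h2, h1.gp, fun p hp q hq => h1.one' hp hq⟩

theorem delgp_eqns_cite2 : True := by
  have := @delgpP2.eq_1
  have := @delgpS.eq_1
  have := @delgpW.eq_1
  trivial

end Claimed.Agent.R289
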