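import Claimed.Agent.R289.Del.GenPos
import Claimed.Agent.R289.PppPv

/-!
# Row 289 (S0537), unit L0 DEL / PPP, file Del/Good : THE ALMOST SURE PROPERTIES OF THE SITES, ALL TOGETHER      (helper256, prefix `delgd_`)

GENERIC (`h : IsPpp m μ`)
* `IsPpp.ae_meets`      `m B = ∞`  ⇒ a.s. a point in `B`;      `IsPpp.ae_meets_all` countably many windows
* `IsPpp.ae_avoids`     `m B = 0` (ANY set `B`, outer measure) ⇒ a.s. no point in `B`
THE MODEL
* `delgd_int_prod`, `delgd_int_univ`, `delgd_int_col` : `pvInt ε (A ×ˢ C)`, `pvInt ε {p | p.1 ∈ A}`, one colour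
* `delgd_vol_rect` : `volume {z : ℂ | z.re ∈ S ∧ z.im ∈ T} = volume S * volume T`
* `delgd_meets_ae` (`ε ≠ 0`, `volume A = ∞`: a.s. a site in `A`), `delgd_meets_col_ae` (a site of the given colour), `delgd_avoids_ae` (`volume N = 0`: a.s. no site in `N`)
* `delgd_quad_ae` : a.s. every open quadrant contains a site  (the statement is the BODY of `VorQuad (cfSites η)` of `Del/Plane.lean`, verbatim), `delgd_quad_col_ae` (of each colour)
* `delgd_all_ae`, `delgd_all_ae_law` : `VorLF ∧ VorGP ∧ quadrants ∧ one colour per site`, under `pvP ε` and under `pvLaw ε`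
* `delgd_gp` : the contract `pv_gp` of RSW-II (262)
THE GENERAL POSITION PRINCIPLE (on the machinery of 120, `Del/GenPos.lean`)
* `delgd_pi_ac` : finite products of absolutely continuous measures
* `delgd_tuple_ae` / `delgd_tuple_ae_conf` : `N ⊆ ℂⁿ` Lebesgue null (ANY set) ⇒ a.s. NO `n`-tuple of pairwise different sites lies in `N`      (every "general position" statement = a null set of `ℂⁿ`)
* `delgd_equi_ae` : a.s. no two sites are equidistant from a given point `z`;  `delgd_cell_unique_ae` : a.s. a given point lies in ONE cell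
-/

set_option autoImplicit false

namespace Claimed.Agent.R289

open MeasureTheory ProbabilityTheory Set Filter Topology Claims.C0465
open scoped ENNReal NNReal

/-! ## 1. generic: windows of infinite mass are hit, null windows are avoided -/

section generic

variable {E : Type*} [MeasurableSpace E] {m : Measure E} {μ : Measure (Conf E)}

theorem delgd_expNeg_top : expNeg ∞ = 0 := by simp [expNeg]

/-- a window of infinite mass contains a point a.s. -/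
theorem IsPpp.ae_meets (h : IsPpp m μ) {B : Set E} (hB : MeasurableSet B) (hm : m B = ∞) : ∀ᵐ η ∂μ, ∃ p ∈ η.pts, p ∈ B := by
  have h0 : μ (Conf.void B) = 0 := by rw [h.void B hB, hm, delgd_expNeg_top]
  have h1 : ∀ᵐ η ∂μ, η ∉ Conf.void B := measure_eq_zero_iff_ae_notMem.1 h0
  filter_upwards [h1] with η hη
  rw [Conf.mem_void] at hη
  push Not at hη
  exact hη

theorem IsPpp.ae_meets_all {ι : Type*} [Countable ι] (h : IsPpp m μ) {B : ι → Set E} (hB : ∀ i, MeasurableSet (B i)) (hm : ∀ i, m (B i) = ∞) :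
    ∀ᵐ η ∂μ, ∀ i, ∃ p ∈ η.pts, p ∈ B i := ae_all_iff.2 fun i => h.ae_meets (hB i) (hm i)

/-- a null window (any set) contains no point a.s. -/
theorem IsPpp.ae_avoids (h : IsPpp m μ) {B : Set E} (hm : m B = 0) : ∀ᵐ η ∂μ, ∀ p ∈ η.pts, p ∉ B := by
  have := h.prob
  have hB' : MeasurableSet (toMeasurable m B) := measurableSet_toMeasurable m B
  have h0 : μ (Conf.void (toMeasurable m B)) = 1 := by rw [h.void _ hB', measure_toMeasurable, hm, expNeg_zero]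
  have h1 : ∀ᵐ η ∂μ, η ∈ Conf.void (toMeasurable m B) := (prob_compl_eq_zero_iff (Conf.measurableSet_void hB')).2 h0 |> fun h2 => by
    have := measure_eq_zero_iff_ae_notMem.1 h2
    filter_upwards [this] with η hη
    simpa using hη
  filter_upwards [h1] with η hη p hp hpB
  exact Conf.mem_void.1 hη p hp (subset_toMeasurable m B hpB)

end generic

/-! ## 2. the intensity of the model -/

theorem delgd_int_prod (ε : ℝ) (A : Set ℂ) (C : Set Bool) : pvInt ε (A ×ˢ C) = ENNReal.ofReal ((ε⁻¹) ^ 2) * (volume A * pvCoin C) := by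
  rw [pvInt, Measure.smul_apply, Measure.prod_prod, smul_eq_mul]

theorem delgd_int_univ (ε : ℝ) (A : Set ℂ) : pvInt ε {p | p.1 ∈ A} = ENNReal.ofReal ((ε⁻¹) ^ 2) * volume A := by
  have e : {p : PvPt | p.1 ∈ A} = A ×ˢ univ := by ext p; simp
  rw [e, delgd_int_prod, measure_univ, mul_one]

theorem delgd_int_col (ε : ℝ) (A : Set ℂ) (b : Bool) : pvInt ε {p | p.1 ∈ A ∧ p.2 = b} = ENNReal.ofReal ((ε⁻¹) ^ 2) * (volume A * 2⁻¹) := by
  have e : {p : PvPt | p.1 ∈ A ∧ p.2 = b} = A ×ˢ {b} := by ext p; simp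
  rw [e, delgd_int_prod, pvCoin_apply]

theorem delgd_rate_ne {ε : ℝ} (hε : ε ≠ 0) : ENNReal.ofReal ((ε⁻¹) ^ 2) ≠ 0 := by
  have : 0 < (ε⁻¹) ^ 2 := by positivity
  exact (ENNReal.ofReal_pos.2 this).ne'

theorem delgd_meas_fst {A : Set ℂ} (hA : MeasurableSet A) : MeasurableSet {p : PvPt | p.1 ∈ A} := measurable_fst hA

theorem delgd_meas_col {A : Set ℂ} (hA : MeasurableSet A) (b : Bool) : MeasurableSet {p : PvPt | p.1 ∈ A ∧ p.2 = b} :=
  (measurable_fst hA).inter (measurable_snd (measurableSet_singleton b))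

/-- area of a rectangle of `ℂ` -/
theorem delgd_vol_rect {S T : Set ℝ} (hS : MeasurableSet S) (hT : MeasurableSet T) :
    volume {z : ℂ | z.re ∈ S ∧ z.im ∈ T} = volume S * volume T := by
  have e : {z : ℂ | z.re ∈ S ∧ z.im ∈ T} = Complex.measurableEquivRealProd ⁻¹' (S ×ˢ T) := by
    ext z; simp [Complex.measurableEquivRealProd_apply]
  rw [e, Complex.volume_preserving_equiv_real_prod.measure_preimage (hS.prod hT).nullMeasurableSet, Measure.volume_eq_prod, Measure.prod_prod]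

theorem delgd_meas_rect {S T : Set ℝ} (hS : MeasurableSet S) (hT : MeasurableSet T) : MeasurableSet {z : ℂ | z.re ∈ S ∧ z.im ∈ T} :=
  (Complex.measurable_re hS).inter (Complex.measurable_im hT)

/-! ## 3. a.s. statements on the sites -/

/-- a window of infinite area contains a site a.s. -/
theorem delgd_meets_ae {ε : ℝ} (hε : ε ≠ 0) {A : Set ℂ} (hA : MeasurableSet A) (hv : volume A = ∞) : ∀ᵐ η ∂(pvP ε), ∃ s ∈ cfSites η, s ∈ A := by
  have h1 := (pv_isPpp ε).ae_meets (delgd_meas_fst hA) (by rw [delgd_int_univ, hv, ENNReal.mul_top (delgd_rate_ne hε)])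
  filter_upwards [h1] with η ⟨p, hp, hpA⟩
  exact ⟨p.1, ⟨p, hp, rfl⟩, hpA⟩

/-- a window of infinite area contains a site of the given colour a.s. -/
theorem delgd_meets_col_ae {ε : ℝ} (hε : ε ≠ 0) {A : Set ℂ} (hA : MeasurableSet A) (hv : volume A = ∞) (b : Bool) :
    ∀ᵐ η ∂(pvP ε), ∃ p ∈ η.pts, p.1 ∈ A ∧ p.2 = b :=
  (pv_isPpp ε).ae_meets (B := {p | p.1 ∈ A ∧ p.2 = b}) (delgd_meas_col hA b)
    (by rw [delgd_int_col, hv, ENNReal.top_mul (by simp), ENNReal.mul_top (delgd_rate_ne hε)])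

/-- a Lebesgue null set (any set) contains no site a.s. -/
theorem delgd_avoids_ae (ε : ℝ) {N : Set ℂ} (hN : volume N = 0) : ∀ᵐ η ∂(pvP ε), ∀ s ∈ cfSites η, s ∉ N := by
  have h1 := (pv_isPpp ε).ae_avoids (B := {p | p.1 ∈ N}) (by rw [delgd_int_univ, hN, mul_zero])
  filter_upwards [h1] with η hη
  rintro _ ⟨p, hp, rfl⟩
  exact hη p hp

theorem delgd_avoids_ae_law (ε : ℝ) {N : Set ℂ} (hN : volume N = 0) : ∀ᵐ ω ∂(pvLaw ε), ∀ s ∈ cfSites (pvConf ω), s ∉ N :=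
  ae_of_ae_map measurable_pvConf.aemeasurable (delgd_avoids_ae ε hN)

/-- a.s. no site at a given point -/
theorem delgd_ne_ae (ε : ℝ) (z : ℂ) : ∀ᵐ η ∂(pvP ε), z ∉ cfSites η := by
  filter_upwards [delgd_avoids_ae ε (N := {z}) (measure_singleton z)] with η hη hz
  exact hη z hz rfl

/-- the four families of quadrants with integer corners -/
theorem delgd_quad_int_ae {ε : ℝ} (hε : ε ≠ 0) (b : Bool) : ∀ᵐ η ∂(pvP ε), ∀ k : ℤ × ℤ,
    (∃ p ∈ η.pts, ((k.1 : ℝ) < p.1.re ∧ (k.2 : ℝ) < p.1.im) ∧ p.2 = b) ∧ (∃ p ∈ η.pts, (p.1.re < (k.1 : ℝ) ∧ (k.2 : ℝ) < p.1.im) ∧ p.2 = b) ∧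
    (∃ p ∈ η.pts, (p.1.re < (k.1 : ℝ) ∧ p.1.im < (k.2 : ℝ)) ∧ p.2 = b) ∧ (∃ p ∈ η.pts, ((k.1 : ℝ) < p.1.re ∧ p.1.im < (k.2 : ℝ)) ∧ p.2 = b) := by
  rw [ae_all_iff]
  intro k
  have key : ∀ S T : Set ℝ, MeasurableSet S → MeasurableSet T → volume S = ∞ → volume T = ∞ →
      ∀ᵐ η ∂(pvP ε), ∃ p ∈ η.pts, (p.1.re ∈ S ∧ p.1.im ∈ T) ∧ p.2 = b := fun S T hS hT vS vT =>
    delgd_meets_col_ae hε (delgd_meas_rect hS hT) (by rw [delgd_vol_rect hS hT, vS, vT]; simp) b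
  filter_upwards [key (Ioi k.1) (Ioi k.2) measurableSet_Ioi measurableSet_Ioi Real.volume_Ioi Real.volume_Ioi,
    key (Iio k.1) (Ioi k.2) measurableSet_Iio measurableSet_Ioi Real.volume_Iio Real.volume_Ioi,
    key (Iio k.1) (Iio k.2) measurableSet_Iio measurableSet_Iio Real.volume_Iio Real.volume_Iio,
    key (Ioi k.1) (Iio k.2) measurableSet_Ioi measurableSet_Iio Real.volume_Ioi Real.volume_Iio] with η h1 h2 h3 h4
  exact ⟨h1, h2, h3, h4⟩

/-- a.s. every open quadrant contains a site of the colour `b` -/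
theorem delgd_quad_col_ae {ε : ℝ} (hε : ε ≠ 0) (b : Bool) : ∀ᵐ η ∂(pvP ε), ∀ z : ℂ,
    (∃ p ∈ η.pts, (z.re < p.1.re ∧ z.im < p.1.im) ∧ p.2 = b) ∧ (∃ p ∈ η.pts, (p.1.re < z.re ∧ z.im < p.1.im) ∧ p.2 = b) ∧
    (∃ p ∈ η.pts, (p.1.re < z.re ∧ p.1.im < z.im) ∧ p.2 = b) ∧ (∃ p ∈ η.pts, (z.re < p.1.re ∧ p.1.im < z.im) ∧ p.2 = b) := by
  filter_upwards [delgd_quad_int_ae hε b] with η hη z
  have c1 := Int.le_ceil z.re
  have c2 := Int.le_ceil z.im
  have f1 := Int.floor_le z.re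
  have f2 := Int.floor_le z.im
  refine ⟨?_, ?_, ?_, ?_⟩
  · obtain ⟨p, hp, ⟨h1, h2⟩, hb⟩ := (hη (⌈z.re⌉, ⌈z.im⌉)).1
    exact ⟨p, hp, ⟨lt_of_le_of_lt c1 h1, lt_of_le_of_lt c2 h2⟩, hb⟩
  · obtain ⟨p, hp, ⟨h1, h2⟩, hb⟩ := (hη (⌊z.re⌋, ⌈z.im⌉)).2.1
    exact ⟨p, hp, ⟨lt_of_lt_of_le h1 f1, lt_of_le_of_lt c2 h2⟩, hb⟩
  · obtain ⟨p, hp, ⟨h1, h2⟩, hb⟩ := (hη (⌊z.re⌋, ⌊z.im⌋)).2.2.1
    exact ⟨p, hp, ⟨lt_of_lt_of_le h1 f1, lt_of_lt_of_le h2 f2⟩, hb⟩
  · obtain ⟨p, hp, ⟨h1, h2⟩, hb⟩ := (hη (⌈z.re⌉, ⌊z.im⌋)).2.2.2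
    exact ⟨p, hp, ⟨lt_of_le_of_lt c1 h1, lt_of_lt_of_le h2 f2⟩, hb⟩

/-- **QUADRANTS**: a.s. every open quadrant contains a site.  The statement is the body of `VorQuad (cfSites η)` (`Del/Plane.lean`) -/
theorem delgd_quad_ae {ε : ℝ} (hε : ε ≠ 0) : ∀ᵐ η ∂(pvP ε), ∀ z : ℂ,
    (∃ s ∈ cfSites η, z.re < s.re ∧ z.im < s.im) ∧ (∃ s ∈ cfSites η, s.re < z.re ∧ z.im < s.im) ∧
    (∃ s ∈ cfSites η, s.re < z.re ∧ s.im < z.im) ∧ (∃ s ∈ cfSites η, z.re < s.re ∧ s.im < z.im) := by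
  filter_upwards [delgd_quad_col_ae hε true] with η hη z
  obtain ⟨⟨p1, hp1, h1, -⟩, ⟨p2, hp2, h2, -⟩, ⟨p3, hp3, h3, -⟩, ⟨p4, hp4, h4, -⟩⟩ := hη z
  exact ⟨⟨p1.1, ⟨p1, hp1, rfl⟩, h1⟩, ⟨p2.1, ⟨p2, hp2, rfl⟩, h2⟩, ⟨p3.1, ⟨p3, hp3, rfl⟩, h3⟩, ⟨p4.1, ⟨p4, hp4, rfl⟩, h4⟩⟩

/-- **ALL THE A.S. PROPERTIES OF THE SITES**, under `pvP ε` -/
theorem delgd_all_ae {ε : ℝ} (hε : ε ≠ 0) : ∀ᵐ η ∂(pvP ε), VorLF (cfSites η) ∧ VorGP (cfSites η) ∧
    (∀ z : ℂ, (∃ s ∈ cfSites η, z.re < s.re ∧ z.im < s.im) ∧ (∃ s ∈ cfSites η, s.re < z.re ∧ z.im < s.im) ∧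
      (∃ s ∈ cfSites η, s.re < z.re ∧ s.im < z.im) ∧ (∃ s ∈ cfSites η, z.re < s.re ∧ s.im < z.im)) ∧
    (∀ p ∈ η.pts, ∀ q ∈ η.pts, p.1 = q.1 → p = q) ∧ PvLF η := by
  filter_upwards [delgp_ae_conf ε, delgd_quad_ae hε, pvcn_LF_ae ε] with η h1 h2 h3
  exact ⟨h1.1, h1.2.1, h2, h1.2.2, h3⟩

/-- the same under `pvLaw ε` -/
theorem delgd_all_ae_law {ε : ℝ} (hε : ε ≠ 0) : ∀ᵐ ω ∂(pvLaw ε), VorLF (cfSites (pvConf ω)) ∧ VorGP (cfSites (pvConf ω)) ∧
    (∀ z : ℂ, (∃ s ∈ cfSites (pvConf ω), z.re < s.re ∧ z.im < s.im) ∧ (∃ s ∈ cfSites (pvConf ω), s.re < z.re ∧ z.im < s.im) ∧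
      (∃ s ∈ cfSites (pvConf ω), s.re < z.re ∧ s.im < z.im) ∧ (∃ s ∈ cfSites (pvConf ω), z.re < s.re ∧ s.im < z.im)) ∧
    (∀ p ∈ (pvConf ω).pts, ∀ q ∈ (pvConf ω).pts, p.1 = q.1 → p = q) ∧ PvLF (pvConf ω) :=
  ae_of_ae_map measurable_pvConf.aemeasurable (delgd_all_ae hε)

/-- the contract `pv_gp` of RSW-II -/
theorem delgd_gp (ε : ℝ) : ∀ᵐ η ∂(pvP ε), VorGP (cfSites η) ∧ ∀ v, ¬((v, true) ∈ η.pts ∧ (v, false) ∈ η.pts) := by
  filter_upwards [delgp_ae_conf ε] with η h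
  refine ⟨h.2.1, fun v hv => ?_⟩
  have := h.2.2 _ hv.1 _ hv.2 rfl
  simp at this

/-! ## 4. the general position principle -/

theorem delgd_pi_ac {n : ℕ} (μ ν : Fin n → Measure ℂ) [∀ a, SigmaFinite (μ a)] [∀ a, SigmaFinite (ν a)] (h : ∀ a, μ a ≪ ν a) :
    Measure.pi μ ≪ Measure.pi ν := by
  induction n with
  | zero =>
    rw [Measure.pi_of_empty, Measure.pi_of_empty]
  | succ n ih =>
    have mpμ := measurePreserving_piFinSuccAbove μ 0
    have mpν := measurePreserving_piFinSuccAbove ν 0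
    have h1 : (μ 0).prod (Measure.pi fun j => μ ((0 : Fin (n + 1)).succAbove j)) ≪ (ν 0).prod (Measure.pi fun j => ν ((0 : Fin (n + 1)).succAbove j)) :=
      (h 0).prod (ih _ _ fun j => h _)
    have h2 := h1.map (MeasurableEquiv.piFinSuccAbove (fun _ : Fin (n + 1) => ℂ) 0).symm.measurable
    rwa [(mpμ.symm _).map_eq, (mpν.symm _).map_eq] at h2

theorem delgd_tuple_ae (ε : ℝ) {n : ℕ} {N : Set (Fin n → ℂ)} (hN : (volume : Measure (Fin n → ℂ)) N = 0) :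
    ∀ᵐ ω ∂(pvLaw ε), ∀ idx : Fin n → DelgpIx, Function.Injective idx → (fun a => delgpW ω (idx a)) ∉ N := by
  have hN' : (volume : Measure (Fin n → ℂ)) (toMeasurable volume N) = 0 := by rw [measure_toMeasurable, hN]
  have hm : MeasurableSet (toMeasurable (volume : Measure (Fin n → ℂ)) N) := measurableSet_toMeasurable _ _
  rw [ae_all_iff]
  intro idx
  by_cases hinj : Function.Injective idx
  · have hac : (Measure.pi fun a => delgpMu (idx a).1) ≪ (volume : Measure (Fin n → ℂ)) := by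
      rw [volume_pi]
      exact delgd_pi_ac _ _ fun a => delgp_mu_ac _
    have h1 := delgp_ae_snd ε (delgp_transfer idx hinj hm (hac hN'))
    filter_upwards [h1] with ω hω _ hmem
    exact hω (subset_toMeasurable _ _ hmem)
  · exact Eventually.of_forall fun ω h => absurd h hinj

theorem delgd_mem_sites {ω : PVSample} {z : ℂ} : z ∈ cfSites (pvConf ω) ↔ ∃ i : DelgpIx, i.2 < ω.1 i.1 ∧ delgpW ω i = z := by
  constructor
  · rintro ⟨p, hp, rfl⟩
    obtain ⟨i, hi, rfl⟩ := delgp_mem_conf.1 hp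
    exact ⟨i, hi, rfl⟩
  · rintro ⟨i, hi, rfl⟩
    exact ⟨_, delgp_mem_conf.2 ⟨i, hi, rfl⟩, rfl⟩

theorem delgd_tuple_meas {n : ℕ} {N : Set (Fin n → ℂ)} (hN : MeasurableSet N) :
    MeasurableSet (pvConf ⁻¹' {η | ∃ s : Fin n → ℂ, Function.Injective s ∧ (∀ a, s a ∈ cfSites η) ∧ s ∈ N}) := by
  have e : pvConf ⁻¹' {η | ∃ s : Fin n → ℂ, Function.Injective s ∧ (∀ a, s a ∈ cfSites η) ∧ s ∈ N}
      = ⋃ idx : Fin n → DelgpIx, (({ω : PVSample | ∀ a, (idx a).2 < ω.1 (idx a).1} ∩ {ω | Function.Injective fun a => delgpW ω (idx a)})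
        ∩ {ω | (fun a => delgpW ω (idx a)) ∈ N}) := by
    ext ω
    simp only [mem_preimage, mem_ofPred_eq, mem_iUnion, mem_inter_iff]
    constructor
    · rintro ⟨s, hs, hmem, hsN⟩
      choose idx hidx hW using fun a => delgd_mem_sites.1 (hmem a)
      have e1 : (fun a => delgpW ω (idx a)) = s := funext hW
      exact ⟨idx, ⟨hidx, e1 ▸ hs⟩, e1 ▸ hsN⟩
    · rintro ⟨idx, ⟨h1, h2⟩, h3⟩
      exact ⟨_, h2, fun a => delgd_mem_sites.2 ⟨idx a, h1 a, rfl⟩, h3⟩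
  rw [e]
  refine MeasurableSet.iUnion fun idx => (MeasurableSet.inter ?_ ?_).inter ?_
  · have : {ω : PVSample | ∀ a, (idx a).2 < ω.1 (idx a).1} = ⋂ a, {ω : PVSample | (idx a).2 < ω.1 (idx a).1} := by
      ext ω; simp
    rw [this]
    exact MeasurableSet.iInter fun a => measurableSet_lt measurable_const ((measurable_pi_apply _).comp measurable_fst)
  · have : {ω : PVSample | Function.Injective fun a => delgpW ω (idx a)}
        = ⋂ a, ⋂ b, {ω : PVSample | delgpW ω (idx a) = delgpW ω (idx b) → a = b} := by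
      ext ω; simp [Function.Injective]
    rw [this]
    refine MeasurableSet.iInter fun a => MeasurableSet.iInter fun b => ?_
    by_cases hab : a = b
    · simp [hab]
    · have : {ω : PVSample | delgpW ω (idx a) = delgpW ω (idx b) → a = b} = {ω : PVSample | delgpW ω (idx a) = delgpW ω (idx b)}ᶜ := by
        ext ω; simp [hab]
      rw [this]
      exact (measurableSet_eq_fun (delgp_measurable_W _) (delgp_measurable_W _)).compl
  · exact (measurable_pi_lambda _ fun a => delgp_measurable_W (idx a)) hN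

theorem delgd_tuple_ae_conf (ε : ℝ) {n : ℕ} {N : Set (Fin n → ℂ)} (hN : (volume : Measure (Fin n → ℂ)) N = 0) :
    ∀ᵐ η ∂(pvP ε), ∀ s : Fin n → ℂ, Function.Injective s → (∀ a, s a ∈ cfSites η) → s ∉ N := by
  have hN' : (volume : Measure (Fin n → ℂ)) (toMeasurable volume N) = 0 := by rw [measure_toMeasurable, hN]
  have hm : MeasurableSet (toMeasurable (volume : Measure (Fin n → ℂ)) N) := measurableSet_toMeasurable _ _
  have h0 : pvP ε {η | ∃ s : Fin n → ℂ, Function.Injective s ∧ (∀ a, s a ∈ cfSites η) ∧ s ∈ toMeasurable volume N} = 0 := by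
    rw [pvcn_bridge_apply ε (delgd_tuple_meas hm), measure_eq_zero_iff_ae_notMem]
    filter_upwards [delgd_tuple_ae ε hN'] with ω hω
    rintro ⟨s, hs, hmem, hsN⟩
    choose idx _ hW using fun a => delgd_mem_sites.1 (hmem a)
    have e1 : (fun a => delgpW ω (idx a)) = s := funext hW
    refine hω idx (fun a b hab => hs ?_) (e1 ▸ hsN)
    rw [← hW a, ← hW b, hab]
  filter_upwards [measure_eq_zero_iff_ae_notMem.1 h0] with η hη s hs hmem hsN
  exact hη ⟨s, hs, hmem, subset_toMeasurable _ _ hsN⟩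

theorem delgd_tuple_ae_law (ε : ℝ) {n : ℕ} {N : Set (Fin n → ℂ)} (hN : (volume : Measure (Fin n → ℂ)) N = 0) :
    ∀ᵐ ω ∂(pvLaw ε), ∀ s : Fin n → ℂ, Function.Injective s → (∀ a, s a ∈ cfSites (pvConf ω)) → s ∉ N :=
  ae_of_ae_map measurable_pvConf.aemeasurable (delgd_tuple_ae_conf ε hN)

theorem delgd_equi_null (z : ℂ) : (volume : Measure (Fin 2 → ℂ)) {s | ‖z - s 0‖ = ‖z - s 1‖} = 0 := by
  rw [volume_pi]
  refine delgp_pi_null (fun _ => volume) (measurableSet_eq_fun (by fun_prop) (by fun_prop)) (Eventually.of_forall fun w' => ?_)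
  exact delgp_circle_null z ‖z - w' 0‖

theorem delgd_equi_ae (ε : ℝ) (z : ℂ) : ∀ᵐ η ∂(pvP ε), ∀ v ∈ cfSites η, ∀ w ∈ cfSites η, ‖z - v‖ = ‖z - w‖ → v = w := by
  filter_upwards [delgd_tuple_ae_conf ε (delgd_equi_null z)] with η hη v hv w hw hvw
  by_contra hne
  refine hη ![v, w] ?_ ?_ hvw
  · intro a b hab
    fin_cases a <;> fin_cases b <;> simp_all [eq_comm]
  · intro a
    fin_cases a <;> simpa

/-- a.s. the given point lies in at most one cell -/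
theorem delgd_cell_unique_ae (ε : ℝ) (z : ℂ) : ∀ᵐ η ∂(pvP ε), ∀ v ∈ cfSites η, ∀ w ∈ cfSites η, z ∈ cfCell η v → z ∈ cfCell η w → v = w := by
  filter_upwards [delgd_equi_ae ε z] with η hη
  rintro v ⟨p, hp, rfl⟩ w ⟨q, hq, rfl⟩ hv hw
  exact hη _ ⟨p, hp, rfl⟩ _ ⟨q, hq, rfl⟩ (le_antisymm (hv q hq) (hw p hp))

end Claimed.Agent.R289
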