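-- KEEP
import Claimed.Agent.R289.Del.Plane
import Claimed.Agent.R289.Del.GenPos
import Claimed.Agent.R289.Del.Good
import Claimed.Agent.R289.Defs.Top
import Claimed.Agent.R289.Defs.Bulk

/-!
# Row 289 (S0537), box DEL (head helper253), file Del/Seam : THE SEAM  Delaunay complex of the sample  →  `PvMap` / `IsSph` of box PL      (owner helper271; prefix `dls`, `Dls`)

Vocabulary of record (helper219, `Del/Plane`): `DelGood Y` (locally finite, general position, all cells bounded, nonempty), `delPl h : PlTri ↥Y`, `delp_isSph h`, tiling `delp_tile_cover`, `delp_tile_disj`.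
Producers: `Del/Apex` (helper19), `Del/Main` (helper253, helper152), `Del/Plane` (helper219), `Del/GenPos` (helper120), `Del/Good` (helper256: a.s. quadrants).
Consumers: S1 (fields on the full-plane dart structure), PL (inside of a cycle), ARMS, OBS, EXT / DISC.

* `delMap h`     the dart structure `PvMap ↥Y (DelDart h)`, vertices = the SUBTYPE of the sites, positions = the coercion `dlsPos`;   `dlsD h hab` the dart `a → b`
* DICTIONARY     `dls_src_D … dls_rot_D`, `dls_adj_iff`, `dls_face`, `dls_face_iff`, `dls_det_pos`, `dls_simple`, `dls_ext`, **`dls_isSph`**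
* CIRCUMCENTRES  `dlsO d`, `dls_O_nxt`, `dls_O_mem`, **`dls_side`** (Voronoi edge dual to `d` = segment between the circumcentres of the two faces), `dls_O_ne`
* COLOURS        `CfOK η`, `dlsCol η : ↥(cfSites η) → Bool`, `dls_col_true`, `dls_col_false`, `dls_black_eq`, `dls_white_eq`
* CROSSINGS      `dls_vc_iff` : the vertex crossing `PvVC` of `Defs/Top` = a path of black vertices of `delMap`
* A.S.           **`dls_ae`** `0 < ε → ∀ᵐ ω ∂pvLaw ε, CfOK (pvConf ω)`, `dls_ae_conf` (under `pvP ε`), `dls_ae_geo` (`∀ᵐ g ∂pvGeo ε, DelGood (pvgSites g)`), `dls_good_merge`.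
* BULK           `delPlT Y : PlTri ↥Y` the TOTAL form (no proof argument: no edge off `DelGood Y`), `dls_T_eq h : delPlT Y = delPl h`;   **`dlsBulk : PvBulk Empty`** the full plane as a bulk family of `Defs/Bulk`,
                 **`dls_bulk_ok`** `DelGood Y → dlsBulk.Ok Y K`, `dls_bulk_col`, `dls_bulk_emb`, `dls_bulk_pos`.
-/

set_option autoImplicit false

namespace Claimed.Agent.R289

open Set Relation MeasureTheory Claims.C0465

/-! ## 0. definitions -/

/-- the darts of the Delaunay triangulation -/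
abbrev DelDart {Y : Set ℂ} (h : DelGood Y) : Type := (delPl h).Dart

/-- the dart structure of the Delaunay triangulation -/
noncomputable def delMap {Y : Set ℂ} (h : DelGood Y) : PvMap Y (DelDart h) := (delPl h).toMap

/-- the positions of the vertices -/
def dlsPos (Y : Set ℂ) : Y → ℂ := Subtype.val

/-- the dart `a → b` -/
def dlsD {Y : Set ℂ} (h : DelGood Y) {a b : ℂ} (hab : DelAdj Y a b) : DelDart h := ⟨(⟨a, hab.1⟩, ⟨b, hab.2.1⟩), hab⟩

/-- the circumcentre of the face on the left of a dart = the Voronoi vertex dual to the face -/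
noncomputable def dlsO {Y : Set ℂ} {h : DelGood Y} (d : DelDart h) : ℂ := delO ((delMap h).src d) ((delMap h).tgt d) ((delMap h).apex d)

/-- the hypotheses on a coloured configuration -/
structure CfOK (η : Conf PvPt) : Prop where
  del : DelGood (cfSites η)
  col : ∀ p ∈ η.pts, ∀ q ∈ η.pts, p.1 = q.1 → p = q

open Classical in
/-- the colour of a site -/
noncomputable def dlsCol (η : Conf PvPt) (v : cfSites η) : Bool := decide (((v : ℂ), true) ∈ η.pts)

theorem dls_eqns_cite : True := by
  have := @delMap.eq_1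
  have := @dlsPos.eq_1
  have := @dlsD.eq_1
  have := @dlsO.eq_1
  have := @dlsCol.eq_1
  trivial

/-! ## 1. dictionary -/

section dict

variable {Y : Set ℂ} {h : DelGood Y}

theorem dls_dart_adj (d : DelDart h) : DelAdj Y ((delMap h).src d) ((delMap h).tgt d) := d.2

theorem dls_apex_coe (d : DelDart h) : (((delMap h).apex d : Y) : ℂ) = delApex Y ((delMap h).src d) ((delMap h).tgt d) := rfl

/-- the face on the left of a dart is a positively oriented Delaunay triangle -/
theorem dls_face (d : DelDart h) : DelTri Y ((delMap h).src d) ((delMap h).tgt d) ((delMap h).apex d) := by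
  rw [dls_apex_coe]
  exact delp_apex_spec h (dls_dart_adj d)

theorem dls_det_pos (d : DelDart h) : 0 < vorDet ((delMap h).src d) ((delMap h).tgt d) ((delMap h).apex d) := (dls_face d).left

theorem dls_src_D {a b : ℂ} (hab : DelAdj Y a b) : (((delMap h).src (dlsD h hab) : Y) : ℂ) = a := rfl

theorem dls_tgt_D {a b : ℂ} (hab : DelAdj Y a b) : (((delMap h).tgt (dlsD h hab) : Y) : ℂ) = b := rfl

theorem dls_apex_D {a b : ℂ} (hab : DelAdj Y a b) : (((delMap h).apex (dlsD h hab) : Y) : ℂ) = delApex Y a b := rfl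

/-- a dart is determined by its two ends -/
theorem dls_ext {d d' : DelDart h} (h1 : (((delMap h).src d : Y) : ℂ) = (delMap h).src d') (h2 : (((delMap h).tgt d : Y) : ℂ) = (delMap h).tgt d') : d = d' :=
  Subtype.ext (Prod.ext (Subtype.ext h1) (Subtype.ext h2))

theorem dls_simple (h : DelGood Y) : (delMap h).Simple := (delPl h).toMap_simple

theorem dls_D_eq (d : DelDart h) : dlsD h (dls_dart_adj d) = d := rfl

theorem dls_opp_D {a b : ℂ} (hab : DelAdj Y a b) : (delMap h).opp (dlsD h hab) = dlsD h hab.symm := rfl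

theorem dls_nxt_D {a b : ℂ} (hab : DelAdj Y a b) : (delMap h).nxt (dlsD h hab) = dlsD h (del_tri_adj (delp_apex_spec h hab)).2.1 := rfl

theorem dls_rot_D {a b : ℂ} (hab : DelAdj Y a b) : (delMap h).rot (dlsD h hab) = dlsD h (del_tri_adj (delp_apex_spec h hab)).2.2.symm :=
  dls_ext ((congrArg Subtype.val ((delMap h).src_rot _)).trans rfl) ((congrArg Subtype.val ((delMap h).tgt_rot _)).trans rfl)

theorem dls_adj_iff (h : DelGood Y) (a b : Y) : (delMap h).Adj a b ↔ DelAdj Y a b := by
  constructor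
  · rintro ⟨d, rfl, rfl⟩
    exact dls_dart_adj d
  · intro hab
    exact ⟨dlsD h hab, rfl, rfl⟩

/-- faces = positively oriented Delaunay triangles -/
theorem dls_face_iff (h : DelGood Y) (a b c : ℂ) :
    DelTri Y a b c ↔ ∃ d : DelDart h, (((delMap h).src d : Y) : ℂ) = a ∧ (((delMap h).tgt d : Y) : ℂ) = b ∧ (((delMap h).apex d : Y) : ℂ) = c := by
  constructor
  · intro ht
    exact ⟨dlsD h (del_tri_adj ht).1, rfl, rfl, del_apex_eq h.gp ht⟩
  · rintro ⟨d, rfl, rfl, rfl⟩
    exact dls_face d

/-- **THE SEAM**: the Delaunay triangulation of a good site set satisfies the sphere / plane hypotheses of box PL -/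
theorem dls_isSph (h : DelGood Y) : (delMap h).IsSph := delp_isSph h

/-- the circumcentre belongs to the face, not to the dart -/
theorem dls_O_nxt (d : DelDart h) : dlsO ((delMap h).nxt d) = dlsO d := by
  unfold dlsO
  rw [(delMap h).src_nxt, (delMap h).tgt_nxt, (delMap h).apex_nxt]
  exact del_O_rot (dls_det_pos d).ne'

theorem dls_O_mem (d : DelDart h) : dlsO d ∈ vorCell Y ((delMap h).src d) := (dls_face d).O_mem_a

theorem dls_O_mem_tgt (d : DelDart h) : dlsO d ∈ vorCell Y ((delMap h).tgt d) := (dls_face d).O_mem_b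

theorem dls_O_mem_apex (d : DelDart h) : dlsO d ∈ vorCell Y ((delMap h).apex d) := (dls_face d).O_mem_c

/-- the face on the other side, in the vocabulary of the sites -/
theorem dls_face_opp (d : DelDart h) : DelTri Y ((delMap h).tgt d) ((delMap h).src d) ((delMap h).apex ((delMap h).opp d)) := by
  have := dls_face ((delMap h).opp d)
  rwa [(delMap h).tgt_opp, (delMap h).src_opp'] at this

/-- **the Voronoi edge dual to a dart** is the segment between the circumcentres of the two faces -/
theorem dls_side (d : DelDart h) : vorCell Y ((delMap h).src d) ∩ vorCell Y ((delMap h).tgt d) = segment ℝ (dlsO ((delMap h).opp d)) (dlsO d) := by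
  have := del_side_eq (dls_face d) (dls_face_opp d)
  unfold dlsO
  rw [(delMap h).tgt_opp, (delMap h).src_opp']
  exact this

/-- the Voronoi edge is not degenerate -/
theorem dls_O_ne (d : DelDart h) : dlsO ((delMap h).opp d) ≠ dlsO d := by
  have := del_O_ne h.gp (dls_face d) (dls_face_opp d)
  unfold dlsO
  rw [(delMap h).tgt_opp, (delMap h).src_opp']
  exact this

/-- the circumcentre is equidistant from the three vertices and no site is closer -/
theorem dls_O_empty (d : DelDart h) (w : ℂ) (hw : w ∈ Y) : ‖dlsO d - (delMap h).src d‖ ≤ ‖dlsO d - w‖ := (dls_face d).empty w hw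

/-- every point of the plane lies in a closed face -/
theorem dls_cover (h : DelGood Y) (z : ℂ) : ∃ d : DelDart h, z ∈ delT ((delMap h).src d) ((delMap h).tgt d) ((delMap h).apex d) := by
  obtain ⟨a, b, c, ht, hz⟩ := delp_tile_cover h z
  obtain ⟨d, rfl, rfl, rfl⟩ := (dls_face_iff h a b c).1 ht
  exact ⟨d, hz⟩

/-- an open face meets no other closed face -/
theorem dls_disj {d d' : DelDart h} {x : ℂ} (hx : x ∈ delTo ((delMap h).src d) ((delMap h).tgt d) ((delMap h).apex d))
    (hx' : x ∈ delT ((delMap h).src d') ((delMap h).tgt d') ((delMap h).apex d')) : (delMap h).SF d d' := by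
  rcases delp_tile_disj h (dls_face d) (dls_face d') hx hx' with ⟨h1, h2, _⟩ | ⟨h1, h2, _⟩ | ⟨h1, h2, _⟩
  · exact Or.inl (dls_ext h1 h2)
  · refine Or.inr (Or.inl (dls_ext ?_ ?_))
    · rw [(delMap h).src_nxt]; exact h1
    · rw [(delMap h).tgt_nxt]; exact h2
  · refine Or.inr (Or.inr (dls_ext ?_ ?_))
    · rw [(delMap h).src_nxt2]; exact h1
    · rw [(delMap h).tgt_nxt2]; exact h2

end dict

/-! ## 2. colours -/

section col

variable {η : Conf PvPt}

theorem dls_col_true (v : cfSites η) : dlsCol η v = true ↔ ((v : ℂ), true) ∈ η.pts := by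
  unfold dlsCol
  exact @decide_eq_true_iff _ (Classical.propDecidable _)

theorem dls_col_false (hη : CfOK η) (v : cfSites η) : dlsCol η v = false ↔ ((v : ℂ), false) ∈ η.pts := by
  rw [← Bool.not_eq_true, dls_col_true]
  constructor
  · intro hn
    obtain ⟨⟨w, c⟩, hp, hw⟩ := v.2
    have hw' : w = (v : ℂ) := hw
    subst hw'
    cases c
    · exact hp
    · exact absurd hp hn
  · intro hf ht
    have := hη.col _ hf _ ht rfl
    simp at this

theorem dls_col_iff (hη : CfOK η) (v : cfSites η) (c : Bool) : dlsCol η v = c ↔ ((v : ℂ), c) ∈ η.pts := by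
  cases c
  · exact dls_col_false hη v
  · exact dls_col_true v

theorem dls_mem_sites {v : ℂ} {c : Bool} (hv : (v, c) ∈ η.pts) : v ∈ cfSites η := ⟨(v, c), hv, rfl⟩

/-- the black set = the union of the cells of the black vertices -/
theorem dls_black_eq (η : Conf PvPt) : cfBlack η = {z | ∃ v : cfSites η, dlsCol η v = true ∧ z ∈ vorCell (cfSites η) v} := by
  rw [cfBlack_eq_vor]
  ext z
  constructor
  · rintro ⟨v, hv, hz⟩
    exact ⟨⟨v, dls_mem_sites hv⟩, (dls_col_true _).2 hv, hz⟩
  · rintro ⟨v, hv, hz⟩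
    exact ⟨v, (dls_col_true v).1 hv, hz⟩

/-- black site in `W`, in the vocabulary of the vertices -/
theorem dls_bk_iff (η : Conf PvPt) (W : Set ℂ) (v : ℂ) : PvBk η W v ↔ ∃ hv : v ∈ cfSites η, dlsCol η ⟨v, hv⟩ = true ∧ v ∈ W := by
  constructor
  · rintro ⟨h1, h2⟩
    exact ⟨dls_mem_sites h1, (dls_col_true _).2 h1, h2⟩
  · rintro ⟨hv, h1, h2⟩
    exact ⟨(dls_col_true _).1 h1, h2⟩

end col

/-! ## 3. crossings: sites vocabulary ↔ vertices of `delMap` -/

/-- the black vertices lying in `W` -/
def dlsBk (η : Conf PvPt) (W : Set ℂ) : Set (cfSites η) := {v | dlsCol η v = true ∧ (v : ℂ) ∈ W}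

theorem dls_eqns_cite2 : True := by
  have := @dlsBk.eq_1
  trivial

section cross

variable {η : Conf PvPt}

theorem dls_edgeIn_univ {Y : Set ℂ} (h : DelGood Y) (a b : Y) : (delMap h).EdgeIn univ a b ↔ DelAdj Y a b := by
  rw [← dls_adj_iff h]
  constructor
  · rintro ⟨d, _, h1, h2⟩
    exact ⟨d, h1, h2⟩
  · rintro ⟨d, h1, h2⟩
    exact ⟨d, Or.inl (mem_univ _), h1, h2⟩

/-- **the vertex crossing of `Defs/Top` is a primal join of black vertices** of the Delaunay dart structure -/
theorem dls_vc_iff (hη : CfOK η) (W A B : Set ℂ) :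
    PvVC η W A B ↔ ∃ u v : cfSites η, (u : ℂ) ∈ A ∧ (v : ℂ) ∈ B ∧ (delMap hη.del).Join univ (dlsBk η W) u v := by
  constructor
  · rintro ⟨u, v, hu, hv, hbu, hch⟩
    obtain ⟨hu', hcu, huW⟩ := (dls_bk_iff η W u).1 hbu
    have key : ∀ b : ℂ, ReflTransGen (fun a b => PvBk η W b ∧ (cfCell η a ∩ cfCell η b).Nonempty) u b →
        ∃ hb : b ∈ cfSites η, ReflTransGen (fun x y => (delMap hη.del).EdgeIn univ x y ∧ y ∈ dlsBk η W) ⟨u, hu'⟩ ⟨b, hb⟩ := by
      intro b hb
      induction hb with
      | refl => exact ⟨hu', ReflTransGen.refl⟩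
      | @tail x y _ hxy ih =>
        obtain ⟨hx, hch'⟩ := ih
        obtain ⟨hy, hcy, hyW⟩ := (dls_bk_iff η W y).1 hxy.1
        refine ⟨hy, ?_⟩
        by_cases e : x = y
        · subst e; exact hch'
        · refine hch'.tail ⟨(dls_edgeIn_univ hη.del _ _).2 ⟨hx, hy, e, ?_⟩, hcy, hyW⟩
          have := hxy.2
          rwa [cfCell_eq_vor, cfCell_eq_vor] at this
    obtain ⟨hv', hch'⟩ := key v hch
    exact ⟨⟨u, hu'⟩, ⟨v, hv'⟩, hu, hv, ⟨hcu, huW⟩, hch'⟩
  · rintro ⟨u, v, hu, hv, hbu, hch⟩
    refine ⟨u, v, hu, hv, (dls_bk_iff η W u).2 ⟨u.2, hbu.1, hbu.2⟩, ?_⟩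
    clear hv
    induction hch with
    | refl => exact ReflTransGen.refl
    | @tail x y _ hxy ih =>
      refine ih.tail ⟨(dls_bk_iff η W y).2 ⟨y.2, hxy.2.1, hxy.2.2⟩, ?_⟩
      have := ((dls_edgeIn_univ hη.del _ _).1 hxy.1).2.2.2
      rwa [cfCell_eq_vor, cfCell_eq_vor]

end cross

/-! ## 4. almost surely -/

/-- **almost every sample is good** (a.s. quadrants etc.: helper256, `Del/Good`; general position: helper120, `Del/GenPos`) -/
theorem dls_ae {ε : ℝ} (hε : 0 < ε) : ∀ᵐ ω ∂(pvLaw ε), CfOK (pvConf ω) := by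
  filter_upwards [delgd_all_ae_law hε.ne'] with ω h
  exact ⟨DelGood.of_quad h.1 h.2.1 h.2.2.1, h.2.2.2.1⟩

/-- the same for configurations -/
theorem dls_ae_conf {ε : ℝ} (hε : 0 < ε) : ∀ᵐ η ∂(pvP ε), CfOK η := by
  filter_upwards [delgd_all_ae hε.ne'] with η h
  exact ⟨DelGood.of_quad h.1 h.2.1 h.2.2.1, h.2.2.2.1⟩

/-- **almost every labelled geometry is good** (quenched form, vocabulary of `PppQ`) -/
theorem dls_ae_geo {ε : ℝ} (hε : 0 < ε) : ∀ᵐ g ∂(pvGeo ε), DelGood (pvgSites g) := by
  filter_upwards [pvqu_ae ε (dls_ae hε)] with g hg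
  obtain ⟨c, hc⟩ := hg.exists
  have := hc.del
  rwa [pvqu_cfSites] at this

/-- at a good geometry EVERY colouring gives a good site set -/
theorem dls_good_merge {g : PvGeoT} (hg : DelGood (pvgSites g)) (c : PvColT) : DelGood (cfSites (pvConf (pvMerge (g, c)))) := by
  rwa [pvqu_cfSites]

/-! ## 5. the total form and the full plane as a bulk family -/

/-- **total form** of the Delaunay triangulation: a function of the site set alone, no edge at all off the good event -/
noncomputable def delPlT (Y : Set ℂ) : PlTri Y where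
  adj a b := DelGood Y ∧ DelAdj Y a b
  apex a b := ⟨delApex Y a b, delp_apex_mem a.2 b⟩
  symm h := ⟨h.1, h.2.symm⟩
  irrefl _ h := h.2.2.2.1 rfl
  adj_apex h := ⟨h.1, (del_tri_adj (delp_apex_spec h.1 h.2)).2.1⟩
  apex_rot h := Subtype.ext (del_apex_rot h.1.gp ⟨_, delp_apex_spec h.1 h.2⟩)

/-- **the full plane** as a bulk family (no extra vertex) -/
noncomputable def dlsBulk : PvBulk Empty where
  V Y := Y
  D Y := (delPlT Y).Dart
  T Y := (delPlT Y).toMap
  lab _ v := Sum.inl v

theorem dls_eqns_cite3 : True := by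
  have := @delPlT.eq_1
  have := @dlsBulk.eq_1
  trivial

section bulk

variable {Y : Set ℂ}

/-- on the good event the total form IS the triangulation of `Del/Plane` -/
theorem dls_T_eq (h : DelGood Y) : delPlT Y = delPl h := by
  have e : (delPlT Y).adj = (delPl h).adj := by
    funext a b
    exact propext ⟨fun x => x.2, fun x => ⟨h, x⟩⟩
  unfold delPlT delPl at e ⊢
  simp only at e
  simp only [e]

theorem dls_T_isSph (h : DelGood Y) : (delPlT Y).toMap.IsSph := by
  rw [dls_T_eq h]
  exact delp_isSph h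

theorem dls_T_good (d : (delPlT Y).Dart) : DelGood Y := d.2.1

theorem dls_T_face (d : (delPlT Y).Dart) : DelTri Y ((delPlT Y).toMap.src d) ((delPlT Y).toMap.tgt d) ((delPlT Y).toMap.apex d) :=
  delp_apex_spec d.2.1 d.2.2

/-- the dart `a → b` of the total form -/
def dlsDT (h : DelGood Y) {a b : ℂ} (hab : DelAdj Y a b) : (delPlT Y).Dart := ⟨(⟨a, hab.1⟩, ⟨b, hab.2.1⟩), h, hab⟩

theorem dls_eqns_cite4 : True := by
  have := @dlsDT.eq_1
  trivial

theorem dls_bulk_lab (v : dlsBulk.V Y) : dlsBulk.lab Y v = Sum.inl ((show Y from v : Y) : ℂ) := rfl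

theorem dls_bulk_pos (v : dlsBulk.V Y) : dlsBulk.pos Y v = ((show Y from v : Y) : ℂ) := rfl

theorem dls_bulk_emb (d : dlsBulk.D Y) : dlsBulk.Emb Y d := ⟨_, _, _, rfl, rfl, rfl⟩

/-- **the full plane is a bulk setting**: it agrees with the Delaunay triangulation everywhere -/
theorem dls_bulk_ok (h : DelGood Y) (K : Set ℂ) : dlsBulk.Ok Y K where
  sph := dls_T_isSph h
  simple := (delPlT Y).toMap_simple
  inj := fun v w hvw => Subtype.ext (Sum.inl.inj hvw)
  site := fun v p hv => by
    have : ((show Y from v : Y) : ℂ) = p := Sum.inl.inj hv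
    rw [← this]
    exact Subtype.property _
  face := fun a b c ht _ => ⟨dlsDT h (del_tri_adj ht).1, rfl, rfl, congrArg Sum.inl (del_apex_eq h.gp ht)⟩
  del := fun d a hd _ => by
    have e : (((delPlT Y).toMap.src d : Y) : ℂ) = a := Sum.inl.inj hd
    refine ⟨_, _, rfl, rfl, ?_⟩
    rw [← e]
    exact dls_T_face d
  emb := fun d a b c h1 h2 h3 => by
    have e1 : (((delPlT Y).toMap.src d : Y) : ℂ) = a := Sum.inl.inj h1
    have e2 : (((delPlT Y).toMap.tgt d : Y) : ℂ) = b := Sum.inl.inj h2
    have e3 : (((delPlT Y).toMap.apex d : Y) : ℂ) = c := Sum.inl.inj h3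
    rw [← e1, ← e2, ← e3]
    exact dls_T_face d

/-- the colouring of the full plane: the colours of the configuration -/
theorem dls_bulk_col (η : Conf PvPt) (ξ : Empty → Bool) (v : dlsBulk.V (cfSites η)) : dlsBulk.col η ξ v = dlsCol η v := rfl

theorem dls_col_eq (η : Conf PvPt) (v : cfSites η) : dlsCol η v = cfCol η v := rfl

end bulk

end Claimed.Agent.R289
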