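import Claimed.Agent.R289.Del.Seam
import Claimed.Agent.R289.Pl.Bond
import Claimed.Agent.R289.Arm.Bxp
import Claimed.Agent.R289.Rsw.Ver

/-!
# Row 289 (S0537), box DEL, file Del/Circ : CYCLES OF THE DELAUNAY TRIANGULATION NEAR CIRCLES (Lemma 2.3 (iv)), DELAUNAY PATHS ARE ARMS      (owner helper190; prefix `dlc_`)

THE GEOMETRIC INPUT of the frames of `Arm/Bxp.lean` (helper196): vocabulary `delMap h`, `dlsPos Y`, `dlsCol η`, `CfOK η` (`Del/Seam`, 271), `PvaxAt`, `PvaxArm` (`Arm/Bxp`, 196), `rswArm`, `cfB`, `cfW` (`Rsw/Topo`, `Rsw/Ver`).  Deterministic, 0 sorry.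

* sec. 1  `dlc_infinite` (a good site set is infinite), **`dlc_nbr`** (a Delaunay neighbour in every open half plane through a site: leave the bounded cell along a ray), `dlc_farther` (a neighbour strictly farther from any given point),
          `dlc_src_surj`, `dlc_infinite_dart`, **`dlc_max`** (MAXIMUM PRINCIPLE: on the vertices of a finite disc `c.Left` the distance to `z` is bounded by its values on `c.verts`: no far vertex hides in a filled hole)
* sec. 2  `dlc_conn` (the sites whose cell meets a preconnected set are connected in the Delaunay graph), **`dlc_at`** : `VorDense Y (closedBall z (r + 3ρ)) ρ`, `r + 3ρ < r'` ⟹ a cycle `c` with `PvaxAt (delMap h) (dlsPos Y) z r r' c`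
          (outer boundary circuit `pl_star_cycle` of the sites whose cell meets `closedBall z r`)
* sec. 3  `dlcReg b η` (= `cfB η` / `cfW η`), `dlc_cell_sub`, `dlc_joined`, **`dlc_det`** (a monochromatic Delaunay path from radius `≤ r` to radius `≥ R` is an arm of the square annulus `(t, ϱ)`, `r ≤ t ≤ ϱ`, `√2 ϱ < R`), `dlc_det5` (= `pvax_det` of 196)
-/

set_option autoImplicit false

namespace Claimed.Agent.R289

open Set Metric Relation

/-! ## 1. Neighbours in every open half plane, maximum principle -/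

/-- a good site set is infinite -/
theorem dlc_infinite {Y : Set ℂ} (h : DelGood Y) : Y.Infinite := by
  intro hfin
  have hb : Bornology.IsBounded (⋃ v ∈ Y, vorCell Y v) := (Bornology.isBounded_biUnion hfin).2 fun v _ => h.bdd v
  have hu : (⋃ v ∈ Y, vorCell Y v) = univ := eq_univ_of_forall fun z => by
    obtain ⟨v, hv, hz⟩ := vor_cover h.lf h.ne z
    exact mem_biUnion hv hz
  rw [hu] at hb
  exact NormedSpace.unbounded_univ ℝ ℂ hb

/-- **a Delaunay neighbour in every open half plane through a site**: leave the bounded cell along the ray of direction `u` -/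
theorem dlc_nbr {Y : Set ℂ} (h : DelGood Y) {v : ℂ} (hv : v ∈ Y) {u : ℂ} (hu : u ≠ 0) :
    ∃ b, DelAdj Y v b ∧ 0 < (b.re - v.re) * u.re + (b.im - v.im) * u.im := by
  have hun : 0 < ‖u‖ := norm_pos_iff.2 hu
  set f : ℝ → ℂ := fun t => v + (t : ℂ) * u with hf
  have hfc : Continuous f := by rw [hf]; fun_prop
  have hfn : ∀ t : ℝ, ‖f t - v‖ = |t| * ‖u‖ := fun t => by
    rw [hf]; simp only [add_sub_cancel_left, norm_mul, Complex.norm_real, Real.norm_eq_abs]
  set S : Set ℝ := f ⁻¹' vorCell Y v with hS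
  have hScl : IsClosed S := (vor_isClosed_cell Y v).preimage hfc
  obtain ⟨R, hR⟩ := (h.bdd v).subset_closedBall v
  have hSb : BddAbove S := ⟨R / ‖u‖, fun t ht => by
    have h1 := hR ht
    rw [mem_closedBall, dist_eq_norm, hfn] at h1
    rw [le_div_iff₀ hun]
    exact (mul_le_mul_of_nonneg_right (le_abs_self t) hun.le).trans h1⟩
  obtain ⟨δ, hδ, hball⟩ := vor_ball_subset_cell h.lf v
  have h0 : δ / (2 * ‖u‖) ∈ S := by
    apply hball
    rw [mem_ball, dist_eq_norm, hfn, abs_of_pos (by positivity)]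
    have : δ / (2 * ‖u‖) * ‖u‖ = δ / 2 := by field_simp
    rw [this]; linarith
  have hmem : sSup S ∈ S := hScl.csSup_mem ⟨_, h0⟩ hSb
  have hpos : 0 < sSup S := lt_of_lt_of_le (by positivity) (le_csSup hSb h0)
  set t := sSup S with ht
  have hfr : f t ∈ frontier (vorCell Y v) := by
    rw [frontier, (vor_isClosed_cell Y v).closure_eq]
    refine ⟨hmem, fun hint => ?_⟩
    obtain ⟨ε, hε, hb⟩ := Metric.isOpen_iff.1 isOpen_interior _ hint
    have h1 : t + ε / (2 * ‖u‖) ∈ S := by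
      refine interior_subset (s := vorCell Y v) (hb ?_)
      rw [mem_ball, dist_eq_norm]
      have e : f (t + ε / (2 * ‖u‖)) - f t = ((ε / (2 * ‖u‖) : ℝ) : ℂ) * u := by
        rw [hf]; push_cast; ring
      rw [e, norm_mul, Complex.norm_real, Real.norm_eq_abs, abs_of_pos (by positivity)]
      have : ε / (2 * ‖u‖) * ‖u‖ = ε / 2 := by field_simp
      rw [this]; linarith
    have h2 := le_csSup hSb h1
    have h3 : 0 < ε / (2 * ‖u‖) := by positivity
    linarith
  obtain ⟨hc, b, hb, hbv, hcb⟩ := vor_frontier_subset h.lf hv hfr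
  refine ⟨b, ⟨hv, hb, hbv.symm, _, hc, hcb⟩, ?_⟩
  have h1 := (delp_half (f t) b v).1 (hcb v hv)
  have hre : (f t).re = v.re + t * u.re := by rw [hf]; simp
  have him : (f t).im = v.im + t * u.im := by rw [hf]; simp
  rw [hre, him] at h1
  have h2 : 0 < (v.re - b.re) ^ 2 + (v.im - b.im) ^ 2 := by
    by_contra hn
    apply hbv
    have a1 : v.re - b.re = 0 := by nlinarith [sq_nonneg (v.re - b.re), sq_nonneg (v.im - b.im)]
    have a2 : v.im - b.im = 0 := by nlinarith [sq_nonneg (v.re - b.re), sq_nonneg (v.im - b.im)]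
    exact Complex.ext (by linarith) (by linarith)
  have h3 : 0 < t * ((b.re - v.re) * u.re + (b.im - v.im) * u.im) := by nlinarith
  exact (pos_iff_pos_of_mul_pos h3).1 hpos

/-- every site has a Delaunay neighbour which is strictly farther from a given point -/
theorem dlc_farther {Y : Set ℂ} (h : DelGood Y) {v : ℂ} (hv : v ∈ Y) (z : ℂ) : ∃ b, DelAdj Y v b ∧ ‖v - z‖ < ‖b - z‖ := by
  by_cases hvz : v = z
  · obtain ⟨b, hb, -⟩ := dlc_nbr h hv one_ne_zero
    refine ⟨b, hb, ?_⟩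
    rw [hvz, sub_self, norm_zero, norm_pos_iff, sub_ne_zero, ← hvz]
    exact hb.2.2.1.symm
  · obtain ⟨b, hb, h1⟩ := dlc_nbr h hv (sub_ne_zero.2 hvz)
    refine ⟨b, hb, ?_⟩
    rw [← abs_of_nonneg (norm_nonneg (v - z)), ← abs_of_nonneg (norm_nonneg (b - z)), ← sq_lt_sq, Complex.sq_norm, Complex.sq_norm,
      Complex.normSq_apply, Complex.normSq_apply]
    simp only [Complex.sub_re, Complex.sub_im] at h1 ⊢
    nlinarith [sq_nonneg (b.re - v.re), sq_nonneg (b.im - v.im)]

/-- every vertex is the source of a dart -/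
theorem dlc_src_surj {Y : Set ℂ} (h : DelGood Y) : Function.Surjective (delMap h).src := fun v => by
  obtain ⟨b, hb, -⟩ := dlc_farther h v.2 0
  exact ⟨dlsD h hb, rfl⟩

/-- the Delaunay triangulation of a good site set has infinitely many darts -/
theorem dlc_infinite_dart {Y : Set ℂ} (h : DelGood Y) : Infinite (DelDart h) := by
  have : Infinite Y := (dlc_infinite h).to_subtype
  exact Infinite.of_surjective _ (dlc_src_surj h)

/-- **maximum principle**: the distance to a point `z`, on the vertices of a finite disc, is bounded by its values on the boundary cycle -/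
theorem dlc_max {Y : Set ℂ} (h : DelGood Y) (c : (delMap h).Cyc) (hfin : c.Left.Finite) (z : ℂ) {M : ℝ} (hM : ∀ v ∈ c.verts, ‖(v : ℂ) - z‖ ≤ M)
    {v : Y} (hv : v ∈ (delMap h).VOf c.Left) : ‖(v : ℂ) - z‖ ≤ M := by
  have hT := dls_isSph h
  obtain ⟨w, hw, hmax⟩ := Set.exists_max_image _ (fun x : Y => ‖(x : ℂ) - z‖) (pl_VOf_finite hT c hfin) ⟨v, hv⟩
  refine (hmax v hv).trans ?_
  have hw' := hw
  rw [pl_VOf_left hT c] at hw'
  rcases hw' with h1 | h1
  · exact hM w h1
  · exfalso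
    obtain ⟨b, hb, hlt⟩ := dlc_farther h w.2 z
    have h2 := (pl_int_edge hT c (d := dlsD h hb) h1).2.2
    have h3 := hmax _ h2
    have h4 : ((((delMap h).tgt (dlsD h hb) : Y)) : ℂ) = b := rfl
    simp only [h4] at h3
    linarith

/-! ## 2. Cycles near circles -/

/-- the sites whose cell meets a ball are connected in the Delaunay graph -/
theorem dlc_conn {Y : Set ℂ} (h : DelGood Y) {K : Set ℂ} (hK : IsPreconnected K) (a : Y) (ha : (a : ℂ) ∈ vorMeet Y K) (b : Y) (hb : (b : ℂ) ∈ vorMeet Y K) :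
    ReflTransGen (fun u v : Y => (delMap h).Adj u v ∧ (v : ℂ) ∈ vorMeet Y K) a b := by
  have key : ∀ x : ℂ, ReflTransGen (VorAdjIn Y K) a x → ∃ hx : x ∈ Y, ReflTransGen (fun u v : Y => (delMap h).Adj u v ∧ (v : ℂ) ∈ vorMeet Y K) a ⟨x, hx⟩ := by
    intro x hx
    induction hx with
    | refl => exact ⟨a.2, ReflTransGen.refl⟩
    | @tail x y _ hxy ih =>
      obtain ⟨hx', hch⟩ := ih
      exact ⟨hxy.2.1, hch.tail ⟨(dls_adj_iff h _ _).2 hxy.adj, hxy.mem_right⟩⟩
  obtain ⟨_, hch⟩ := key b (del_win_conn h.lf hK ha hb)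
  exact hch

/-- **CYCLES NEAR CIRCLES** (Lemma 2.3 (iv), deterministic form) -/
theorem dlc_at {Y : Set ℂ} (h : DelGood Y) {z : ℂ} {r ρ r' : ℝ} (hr : 0 ≤ r) (hρ : 0 < ρ) (hd : VorDense Y (closedBall z (r + 3 * ρ)) ρ) (hr' : r + 3 * ρ < r') :
    ∃ c : (delMap h).Cyc, PvaxAt (delMap h) (dlsPos Y) z r r' c := by
  have hT := dls_isSph h
  have := dlc_infinite_dart h
  set K : Set ℂ := closedBall z r with hK
  set X : Set Y := {v | (v : ℂ) ∈ vorMeet Y K} with hX
  have hXfin : X.Finite := (vor_finite_meet h.lf (isBounded_closedBall (x := z) (r := r))).preimage Subtype.val_injective.injOn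
  have hXne : X.Nonempty := by
    obtain ⟨v, hv, hz⟩ := vor_cover h.lf h.ne z
    exact ⟨⟨v, hv⟩, hv, z, hz, mem_closedBall_self hr⟩
  obtain ⟨c, hfin, hint, hc⟩ := pl_star_cycle hT (dls_simple h) hXfin hXne fun a ha b hb => dlc_conn h (convex_closedBall z r).isPreconnected a ha b hb
  refine ⟨c, hfin, fun v hv => hint ⟨v.2, v, vor_self_mem Y v, ?_⟩, fun v hv => lt_of_le_of_lt (dlc_max h c hfin z ?_ hv) hr'⟩
  · rw [hK, mem_closedBall, dist_eq_norm]; exact hv
  · rintro u ⟨i, rfl⟩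
    obtain ⟨-, ha⟩ := hc i
    set a := (delMap h).apex (c.e i) with haa
    set u := (delMap h).src (c.e i) with huu
    obtain ⟨-, w, hwa, hwK⟩ := ha
    rw [hK, mem_closedBall, dist_eq_norm] at hwK
    have hwd : w ∈ closedBall z (r + 3 * ρ) := by rw [mem_closedBall, dist_eq_norm]; linarith
    have h1 : ‖w - a‖ ≤ ρ := vor_site_near hd hwa hwd
    have haz : ‖(a : ℂ) - z‖ ≤ r + ρ := by
      calc ‖(a : ℂ) - z‖ = ‖(w - z) - (w - a)‖ := by ring_nf
        _ ≤ ‖w - z‖ + ‖w - a‖ := norm_sub_le _ _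
        _ ≤ r + ρ := by linarith
    obtain ⟨-, -, -, p, hpa, hpu⟩ := (dls_adj_iff h a u).1 (pl_adj_apex_src (c.e i))
    have hsub : closedBall (a : ℂ) (2 * ρ) ⊆ closedBall z (r + 3 * ρ) := by
      refine closedBall_subset_closedBall' ?_
      rw [dist_eq_norm]; linarith
    have h2 := vor_cell_subset_ball hρ.le (by linarith : ρ < 2 * ρ) (hd.mono subset_rfl hsub le_rfl) hpa
    rw [mem_closedBall, dist_eq_norm] at h2
    have hpz : ‖p - z‖ ≤ r + 2 * ρ := by
      calc ‖p - z‖ = ‖(p - a) + (a - z)‖ := by ring_nf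
        _ ≤ ‖p - a‖ + ‖(a : ℂ) - z‖ := norm_add_le _ _
        _ ≤ r + 2 * ρ := by linarith
    have h3 : ‖p - u‖ ≤ ρ := vor_site_near hd hpu (by rw [mem_closedBall, dist_eq_norm]; linarith)
    calc ‖(u : ℂ) - z‖ = ‖(p - z) - (p - u)‖ := by ring_nf
      _ ≤ ‖p - z‖ + ‖p - u‖ := norm_sub_le _ _
      _ ≤ r + 3 * ρ := by linarith

/-! ## 3. A monochromatic Delaunay path is an arm of the union of the closed cells -/

/-- the region of colour `b`, monotone form of `Rsw/Ver` -/
def dlcReg (b : Bool) (η : Conf PvPt) : Set ℂ := if b then cfB η else cfW η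

theorem dlc_eqns_cite : True := by
  have := @dlcReg.eq_1
  trivial

/-- the closed cell of a site of colour `b` lies in the region of colour `b` -/
theorem dlc_cell_sub {η : Conf PvPt} (h : CfOK η) {b : Bool} {v : cfSites η} (hv : dlsCol η v = b) : vorCell (cfSites η) v ⊆ dlcReg b η := by
  intro x hx
  have hv' := (dls_col_iff h v b).1 hv
  unfold dlcReg
  cases b
  · exact ⟨v, hv', fun w hw => hx w (pvr_Bk_sub η hw)⟩
  · exact ⟨v, hv', fun w hw => hx w (pvr_Wh_sub η hw)⟩

/-- a monochromatic path of the Delaunay graph is a path in the region of its colour -/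
theorem dlc_joined {η : Conf PvPt} (h : CfOK η) {b : Bool} {u w : cfSites η} (hu : dlsCol η u = b)
    (hch : ReflTransGen (fun x y => (delMap h.del).Adj x y ∧ dlsCol η y = b) u w) : dlsCol η w = b ∧ JoinedIn (dlcReg b η) u w := by
  induction hch with
  | refl => exact ⟨hu, JoinedIn.refl (dlc_cell_sub h hu (vor_self_mem _ _))⟩
  | @tail x y _ hxy ih =>
    obtain ⟨hx, hj⟩ := ih
    obtain ⟨-, -, -, p, hpx, hpy⟩ := (dls_adj_iff h.del x y).1 hxy.1
    have h1 : JoinedIn (dlcReg b η) x p :=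
      (((vor_convex_cell (cfSites η) x).isPathConnected ⟨_, hpx⟩).joinedIn _ (vor_self_mem _ _) _ hpx).mono (dlc_cell_sub h hx)
    have h2 : JoinedIn (dlcReg b η) p y :=
      (((vor_convex_cell (cfSites η) y).isPathConnected ⟨_, hpy⟩).joinedIn _ hpy _ (vor_self_mem _ _)).mono (dlc_cell_sub h hxy.2)
    exact ⟨hxy.2, (hj.trans h1).trans h2⟩

/-- **a monochromatic Delaunay path from radius `≤ r` to radius `≥ R` is an arm of the square annulus `(t, ϱ)`**, `r ≤ t ≤ ϱ`, `√2 ϱ < R` -/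
theorem dlc_det {η : Conf PvPt} (h : CfOK η) {z : ℂ} {r R t ϱ : ℝ} {b : Bool} (hrt : r ≤ t) (htϱ : t ≤ ϱ) (hR : 2 * ϱ ^ 2 < R ^ 2) (hR0 : 0 ≤ R)
    (ha : PvaxArm (delMap h.del) (dlsPos _) z r R b (dlsCol η)) : (rswArm z.re z.im t ϱ).Holds (dlcReg b η) := by
  obtain ⟨u, w, hu, hw, hcu, hch⟩ := ha
  obtain ⟨-, hj⟩ := dlc_joined h hcu hch
  have hbox : ∀ {x : ℂ} {a : ℝ}, ‖x - z‖ ≤ a → x ∈ rswRect (z.re - a) (z.re + a) (z.im - a) (z.im + a) := by
    intro x a hx
    have h1 := (Complex.abs_re_le_norm (x - z)).trans hx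
    have h2 := (Complex.abs_im_le_norm (x - z)).trans hx
    rw [Complex.sub_re, abs_le] at h1
    rw [Complex.sub_im, abs_le] at h2
    exact ⟨by linarith [h1.1], by linarith [h1.2], by linarith [h2.1], by linarith [h2.2]⟩
  have hu' : ‖((u : ℂ)) - z‖ ≤ r := hu
  have hw' : R ≤ ‖((w : ℂ)) - z‖ := hw
  have huS : (u : ℂ) ∈ rswRect (z.re - t) (z.re + t) (z.im - t) (z.im + t) := hbox (hu'.trans hrt)
  have huK : (u : ℂ) ∈ rswRect (z.re - ϱ) (z.re + ϱ) (z.im - ϱ) (z.im + ϱ) := hbox ((hu'.trans hrt).trans htϱ)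
  have hout : ¬ (z.re - ϱ < (w : ℂ).re ∧ (w : ℂ).re < z.re + ϱ ∧ z.im - ϱ < (w : ℂ).im ∧ (w : ℂ).im < z.im + ϱ) := by
    rintro ⟨a1, a2, a3, a4⟩
    have h1 : R ^ 2 ≤ ‖((w : ℂ)) - z‖ ^ 2 := pow_le_pow_left₀ hR0 hw' 2
    rw [Complex.sq_norm, Complex.normSq_apply, Complex.sub_re, Complex.sub_im] at h1
    nlinarith
  obtain ⟨y, hy, hyb⟩ := rsw_first_exit hj huK hout
  exact ⟨u, huS, y, ⟨hy.target_mem.2, hyb⟩, hy⟩

/-- the statement of record of helper196 (`pvax_det`, ratio 5) -/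
theorem dlc_det5 {η : Conf PvPt} (h : CfOK η) {z : ℂ} {u : ℝ} (hu : 0 < u) {b : Bool}
    (ha : PvaxArm (delMap h.del) (dlsPos _) z (u / 2) (4 * u) b (dlsCol η)) : (rswArm z.re z.im (u / 2) (5 * u / 2)).Holds (dlcReg b η) :=
  dlc_det h le_rfl (by linarith) (by nlinarith) (by linarith) ha

end Claimed.Agent.R289
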