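import Claimed.Agent.R289.Del.Apex
import Claimed.Agent.R289.Pl.Defs

/-!
# Row 289 (S0537), box DEL, file Del/Main : DELAUNAY STRUCTURE OF A VORONOI TESSELLATION      (head helper253; team 19, 148, 120; prefix `del`, `Del`)

Deterministic, on a site set `Y : Set ℂ` (vocabulary of `Vor/Basic.lean`).  Design: helper264, notes/R289/planarity_264.md, G2 G3 G4 + sec. 3 "Use".   TEX[Cardy:intro:geometry].
NO lifting to the paraboloid, NO convex hulls, NO Euler formula: a Delaunay triangle is a positively oriented triple of sites whose three cells have a common point.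

* G2 (bisector `delBis`, `DelAdj`, `DelTri`, `delApex`, circumcentre `delO`; cyclic, unique apex, existence of the apex, at most 3 cells at a point, nondegenerate sides, rotation) = `Del/Apex.lean` of helper19, 0 sorry
* sec. 0  defs: `DelTriIn Y K` (the Voronoi vertex lies in the window `K`), `delBox`
* sec. 1-2  complements to G2: three points of a circle are not collinear, window forms
* sec. 3  G3: cyclic links                                                                  (148)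
* sec. 4  windows: finiteness, connectedness, H¹(ℤ/2) = 0 (nerve lemma), apex and links of inner sites, LOC, mesh  (253)
* sec. 5  chains of cells of one colour <-> connected sets (the frozen event speaks of connected subsets of `pvBlack ω ∩ closure D`)  (253)
* sec. 6  a.s. general position: statement only; proof in Del/GenPos.lean                    (120)
-/

set_option autoImplicit false

namespace Claimed.Agent.R289

open Set Metric Claims.C0465

/-! ## 0. definitions -/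

/-- positively oriented Delaunay triangle whose Voronoi vertex lies in `K` -/
def DelTriIn (Y K : Set ℂ) (a b c : ℂ) : Prop :=
  a ∈ Y ∧ b ∈ Y ∧ c ∈ Y ∧ 0 < vorDet a b c ∧ (vorCell Y a ∩ vorCell Y b ∩ vorCell Y c ∩ K).Nonempty

/-- closed rectangle (the form of the nerve lemma `pl_nerve`) -/
def delBox (x0 x1 y0 y1 : ℝ) : Set ℂ := Icc x0 x1 ×ℂ Icc y0 y1

theorem del_main_eqns_cite : True := by
  have := @DelTriIn.eq_1
  have := @delBox.eq_1
  trivial

/-! ## 1. complements to G2 -/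

/-- Lagrange identity -/
theorem del_det_sq_add (a b c : ℂ) : vorDet a b c ^ 2 + delP a b c ^ 2 = Complex.normSq (c - a) * Complex.normSq (c - b) := by
  simp only [vorDet, delP, Complex.normSq_apply, Complex.sub_re, Complex.sub_im]; ring

/-- three different points of a circle are not collinear (so `VorGP.col` is never needed for triangles) -/
theorem del_det_ne {a b c z : ℂ} (hab : a ≠ b) (hac : a ≠ c) (hbc : b ≠ c) (h1 : ‖z - a‖ = ‖z - b‖) (h2 : ‖z - a‖ = ‖z - c‖) : vorDet a b c ≠ 0 := by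
  intro hd
  obtain ⟨s, rfl⟩ := del_bis hab h1
  have hP := (del_bis_dist_eq a b c s).1 h2
  rw [hd, mul_zero] at hP
  have key := del_det_sq_add a b c
  rw [hd, ← hP] at key
  have : Complex.normSq (c - a) * Complex.normSq (c - b) = 0 := by rw [← key]; ring
  rcases mul_eq_zero.1 this with h | h
  · exact hac (sub_eq_zero.1 (Complex.normSq_eq_zero.1 h)).symm
  · exact hbc (sub_eq_zero.1 (Complex.normSq_eq_zero.1 h)).symm

/-! ## 2. window forms -/

theorem del_adj_iff_univ (Y : Set ℂ) (a b : ℂ) : DelAdj Y a b ↔ VorAdjIn Y univ a b := by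
  simp [DelAdj, VorAdjIn]

theorem VorAdjIn.adj {Y K : Set ℂ} {a b : ℂ} (h : VorAdjIn Y K a b) : DelAdj Y a b := ⟨h.1, h.2.1, h.2.2.1, h.2.2.2.mono inter_subset_left⟩

theorem VorAdjIn.symm {Y K : Set ℂ} {a b : ℂ} (h : VorAdjIn Y K a b) : VorAdjIn Y K b a :=
  ⟨h.2.1, h.1, h.2.2.1.symm, by rw [inter_comm (vorCell Y b)]; exact h.2.2.2⟩

theorem DelTriIn.tri {Y K : Set ℂ} {a b c : ℂ} (h : DelTriIn Y K a b c) : DelTri Y a b c := ⟨h.1, h.2.1, h.2.2.1, h.2.2.2.1, h.2.2.2.2.mono inter_subset_left⟩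

theorem del_tri_iff_univ (Y : Set ℂ) (a b c : ℂ) : DelTri Y a b c ↔ DelTriIn Y univ a b c := by
  simp [DelTri, DelTriIn]

theorem DelTriIn.cyc {Y K : Set ℂ} {a b c : ℂ} (h : DelTriIn Y K a b c) : DelTriIn Y K b c a := by
  obtain ⟨ha, hb, hc, hd, z, ⟨⟨h1, h2⟩, h3⟩, h4⟩ := h
  exact ⟨hb, hc, ha, by rwa [del_det_rot], z, ⟨⟨h2, h3⟩, h1⟩, h4⟩

theorem DelTriIn.adj {Y K : Set ℂ} {a b c : ℂ} (h : DelTriIn Y K a b c) : VorAdjIn Y K a b := by
  have hne := h.tri.ne.1
  obtain ⟨ha, hb, _, hd, z, ⟨⟨h1, h2⟩, _⟩, h4⟩ := h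
  exact ⟨ha, hb, hne, z, ⟨h1, h2⟩, h4⟩

theorem DelTri.adj {Y : Set ℂ} {a b c : ℂ} (h : DelTri Y a b c) : DelAdj Y a b := (del_tri_adj h).1

/-- two points of cells of sites are equidistant -/
theorem vor_equidist {Y : Set ℂ} {a b z : ℂ} (ha : a ∈ Y) (hb : b ∈ Y) (h1 : z ∈ vorCell Y a) (h2 : z ∈ vorCell Y b) : ‖z - a‖ = ‖z - b‖ :=
  le_antisymm (h1 b hb) (h2 a ha)

/-- a point equidistant to `a` and `c` which lies in the cell of `a` lies in the cell of `c` -/
theorem vor_mem_of_equidist {Y : Set ℂ} {a c z : ℂ} (h1 : z ∈ vorCell Y a) (h : ‖z - a‖ = ‖z - c‖) : z ∈ vorCell Y c := fun u hu => h ▸ h1 u hu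

/-- the Voronoi vertex of a triangle is its circumcentre -/
theorem DelTriIn.cc_mem {Y K : Set ℂ} {a b c : ℂ} (h : DelTriIn Y K a b c) :
    delO a b c ∈ vorCell Y a ∩ vorCell Y b ∩ vorCell Y c ∩ K := by
  obtain ⟨ha, hb, hc, hd, z, ⟨⟨h1, h2⟩, h3⟩, h4⟩ := h
  have : z = delO a b c := del_O_unique hd.ne' (vor_equidist ha hb h1 h2) (vor_equidist ha hc h1 h3)
  exact this ▸ ⟨⟨⟨h1, h2⟩, h3⟩, h4⟩

theorem del_triIn_iff {Y K : Set ℂ} {a b c : ℂ} : DelTriIn Y K a b c ↔ DelTri Y a b c ∧ delO a b c ∈ K := by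
  constructor
  · exact fun h => ⟨h.tri, h.cc_mem.2⟩
  · rintro ⟨h, hK⟩
    have := ((del_tri_iff_univ Y a b c).1 h).cc_mem
    exact ⟨h.1, h.2.1, h.2.2.1, h.2.2.2.1, _, this.1, hK⟩

/-- three different cells through a point of `K`: a triangle of the window, in one of the two orientations (no general position needed) -/
theorem del_three_in {Y K : Set ℂ} {a b c z : ℂ} (ha : a ∈ Y) (hb : b ∈ Y) (hc : c ∈ Y) (hab : a ≠ b) (hac : a ≠ c) (hbc : b ≠ c)
    (h1 : z ∈ vorCell Y a) (h2 : z ∈ vorCell Y b) (h3 : z ∈ vorCell Y c) (hK : z ∈ K) : DelTriIn Y K a b c ∨ DelTriIn Y K b a c := by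
  have hd := del_det_ne hab hac hbc (vor_equidist ha hb h1 h2) (vor_equidist ha hc h1 h3)
  rcases lt_or_gt_of_ne hd with h | h
  · exact Or.inr ⟨hb, ha, hc, by rw [del_det_swap]; linarith, z, ⟨⟨h2, h1⟩, h3⟩, hK⟩
  · exact Or.inl ⟨ha, hb, hc, h, z, ⟨⟨h1, h2⟩, h3⟩, hK⟩

/-! ## 3. G3: cyclic links  (owner 148) -/

/-- the neighbours of a site with bounded cell are finitely many -/
theorem del_nbrs_finite {Y : Set ℂ} (lf : VorLF Y) {v : ℂ} (hb : Bornology.IsBounded (vorCell Y v)) : {b | DelAdj Y v b}.Finite := by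
  refine (vor_finite_meet lf hb).subset ?_
  rintro b ⟨_, hbY, _, z, hz1, hz2⟩
  exact ⟨hbY, z, hz2, hz1⟩

/-- weak form (equivalence closure).  PLAN (264 sec. 4): `O := {x | EqvGen R b x}`, `R x y := DelTri Y v x y`.  `A := ⋃_{x ∈ O} cell v ∩ cell x`, `B := ⋃_{x ∈ N(v) \ O} cell v ∩ cell x`: finite unions of closed sets
(`del_nbrs_finite`), they cover `frontier (cell v)` (`vor_frontier_subset`), which is preconnected (`vor_frontier_connected`), both meet it (`vor_mem_frontier`).  `isPreconnected_closed_iff`: a point `z ∈ cell v ∩ cell x ∩ cell y`, `x ∈ O`, `y ∉ O`;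
`del_three_in` at `v x y`: `DelTri v x y` or `DelTri x v y`, the latter is `DelTri v y x` (`cyc`): in both cases `y ∈ O`. -/
theorem del_link_eqv {Y : Set ℂ} (lf : VorLF Y) {v b b' : ℂ} (hb : Bornology.IsBounded (vorCell Y v)) (h : DelAdj Y v b) (h' : DelAdj Y v b') :
    Relation.EqvGen (fun x y => DelTri Y v x y) b b' := by
  classical
  by_contra hcon
  set R : ℂ → ℂ → Prop := fun x y => DelTri Y v x y with hR
  set N : Set ℂ := {x | DelAdj Y v x} with hN
  have hNfin : N.Finite := del_nbrs_finite lf hb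
  set A : Set ℂ := ⋃ x ∈ {x | x ∈ N ∧ Relation.EqvGen R b x}, vorCell Y v ∩ vorCell Y x with hA
  set B : Set ℂ := ⋃ x ∈ {x | x ∈ N ∧ ¬ Relation.EqvGen R b x}, vorCell Y v ∩ vorCell Y x with hB
  have hAc : IsClosed A := (hNfin.subset fun x hx => hx.1).isClosed_biUnion fun x _ =>
    (vor_isClosed_cell Y v).inter (vor_isClosed_cell Y x)
  have hBc : IsClosed B := (hNfin.subset fun x hx => hx.1).isClosed_biUnion fun x _ =>
    (vor_isClosed_cell Y v).inter (vor_isClosed_cell Y x)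
  have hvY : v ∈ Y := h.1
  have hcov : frontier (vorCell Y v) ⊆ A ∪ B := by
    intro z hz
    obtain ⟨hzv, x, hxY, hxv, hzx⟩ := vor_frontier_subset lf hvY hz
    have hxN : x ∈ N := ⟨hvY, hxY, hxv.symm, z, hzv, hzx⟩
    by_cases hx : Relation.EqvGen R b x
    · exact Or.inl (Set.mem_biUnion (show x ∈ {x | x ∈ N ∧ Relation.EqvGen R b x} from ⟨hxN, hx⟩) ⟨hzv, hzx⟩)
    · exact Or.inr (Set.mem_biUnion (show x ∈ {x | x ∈ N ∧ ¬ Relation.EqvGen R b x} from ⟨hxN, hx⟩) ⟨hzv, hzx⟩)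
  have hAne : (frontier (vorCell Y v) ∩ A).Nonempty := by
    obtain ⟨-, hbY, hvb, z, hzv, hzb⟩ := h
    exact ⟨z, vor_mem_frontier hbY hvb hzv hzb hvY,
      Set.mem_biUnion (show b ∈ {x | x ∈ N ∧ Relation.EqvGen R b x} from ⟨⟨hvY, hbY, hvb, z, hzv, hzb⟩, Relation.EqvGen.refl b⟩) ⟨hzv, hzb⟩⟩
  have hBne : (frontier (vorCell Y v) ∩ B).Nonempty := by
    obtain ⟨-, hbY, hvb, z, hzv, hzb⟩ := h'
    exact ⟨z, vor_mem_frontier hbY hvb hzv hzb hvY,
      Set.mem_biUnion (show b' ∈ {x | x ∈ N ∧ ¬ Relation.EqvGen R b x} from ⟨⟨hvY, hbY, hvb, z, hzv, hzb⟩, hcon⟩) ⟨hzv, hzb⟩⟩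
  obtain ⟨z, -, hzA, hzB⟩ := isPreconnected_closed_iff.1 (vor_frontier_connected lf hb).isPreconnected A B hAc hBc hcov hAne hBne
  simp only [hA, hB, Set.mem_iUnion, exists_prop] at hzA hzB
  obtain ⟨x, ⟨hxN, hxO⟩, hzv, hzx⟩ := hzA
  obtain ⟨y, ⟨hyN, hyO⟩, -, hzy⟩ := hzB
  have hxy : x ≠ y := by
    rintro rfl
    exact hyO hxO
  rcases del_three_in (K := Set.univ) hvY hxN.2.1 hyN.2.1 hxN.2.2.1 hyN.2.2.1 hxy hzv hzx hzy (Set.mem_univ z) with ht | ht
  · exact hyO (hxO.trans _ _ _ (Relation.EqvGen.rel _ _ ht.tri))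
  · exact hyO (hxO.trans _ _ _ (Relation.EqvGen.symm _ _ (Relation.EqvGen.rel _ _ (del_tri_cyc ht.tri))))

/-- a functional, injective, total relation on a finite set: the equivalence closure is the reflexive transitive closure (orbits of a permutation of a finite set).
PLAN: it suffices `R x y → ReflTransGen R y x`.  Iterate `f` (the function of `R`) from `y`: pigeonhole gives `f^[i] y = f^[j] y`, `i < j`; injectivity: `y = f^[j-i] y`, so `x = f^[j-i-1] y` by injectivity at the last step. -/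
theorem del_perm_closure {α : Type*} {N : Set α} (hN : N.Finite) {R : α → α → Prop} (htot : ∀ x ∈ N, ∃ y ∈ N, R x y)
    (hfun : ∀ x y y', R x y → R x y' → y = y') (hinj : ∀ x x' y, R x y → R x' y → x = x') (hdom : ∀ x y, R x y → x ∈ N ∧ y ∈ N)
    {x y : α} (h : Relation.EqvGen R x y) : Relation.ReflTransGen R x y := by
  classical
  have : Finite N := hN.to_subtype
  choose! g hgN hgR using htot
  have hiter : ∀ (k : ℕ) (y : α), y ∈ N → g^[k] y ∈ N ∧ Relation.ReflTransGen R y (g^[k] y) := by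
    intro k
    induction k with
    | zero => intro y hy; exact ⟨hy, Relation.ReflTransGen.refl⟩
    | succ k ih =>
      intro y hy
      rw [Function.iterate_succ_apply']
      obtain ⟨h1, h2⟩ := ih y hy
      exact ⟨hgN _ h1, h2.tail (hgR _ h1)⟩
  have hginj : ∀ u ∈ N, ∀ w ∈ N, g u = g w → u = w := fun u hu w hw he =>
    hinj u w (g u) (hgR u hu) (he ▸ hgR w hw)
  have hcancel : ∀ (i m : ℕ) (y : α), y ∈ N → g^[i] y = g^[i + m] y → y = g^[m] y := by
    intro i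
    induction i with
    | zero => intro m y _ he; simpa using he
    | succ i ih =>
      intro m y hy he
      have e : i + 1 + m = (i + m) + 1 := by omega
      rw [e, Function.iterate_succ_apply', Function.iterate_succ_apply'] at he
      exact ih m y hy (hginj _ (hiter i y hy).1 _ (hiter (i + m) y hy).1 he)
  have hrev : ∀ x y, R x y → Relation.ReflTransGen R y x := by
    intro x y hxy
    obtain ⟨hx, hy⟩ := hdom x y hxy
    obtain ⟨i, j, hij, he⟩ := Finite.exists_ne_map_eq_of_infinite (fun k : ℕ => (⟨g^[k] y, (hiter k y hy).1⟩ : N))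
    have he' : g^[i] y = g^[j] y := congrArg Subtype.val he
    obtain ⟨m, hm⟩ : ∃ m : ℕ, y = g^[m + 1] y := by
      rcases lt_or_gt_of_ne hij with h | h
      · refine ⟨j - i - 1, hcancel i _ y hy ?_⟩
        rw [he']; congr 1; omega
      · refine ⟨i - j - 1, hcancel j _ y hy ?_⟩
        rw [← he']; congr 1; omega
    rw [Function.iterate_succ_apply'] at hm
    have h1 : R (g^[m] y) y := by
      have := hgR _ (hiter m y hy).1
      rwa [← hm] at this
    have h2 : x = g^[m] y := hinj _ _ _ hxy h1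
    rw [h2]
    exact (hiter m y hy).2
  have hsymm : ∀ x y, Relation.ReflTransGen R x y → Relation.ReflTransGen R y x := by
    intro x y hxy
    induction hxy with
    | refl => exact Relation.ReflTransGen.refl
    | tail _ h2 ih => exact (hrev _ _ h2).trans ih
  induction h with
  | rel x y hxy => exact Relation.ReflTransGen.single hxy
  | refl x => exact Relation.ReflTransGen.refl
  | symm x y _ ih => exact hsymm _ _ ih
  | trans x y z _ _ ih1 ih2 => exact ih1.trans ih2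

/-- **G3: LinkCyc**: the rotation `b ↦ delApex Y v b` is transitive on the neighbours of a site with bounded cell -/
theorem del_link_cyc {Y : Set ℂ} (lf : VorLF Y) (gp : VorGP Y) {v b b' : ℂ} (hb : Bornology.IsBounded (vorCell Y v)) (h : DelAdj Y v b) (h' : DelAdj Y v b') :
    Relation.ReflTransGen (fun x y => DelTri Y v x y) b b' := by
  refine del_perm_closure (N := {b | DelAdj Y v b}) (del_nbrs_finite lf hb) ?_ ?_ ?_ ?_ (del_link_eqv lf hb h h')
  · intro x hx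
    obtain ⟨c, hc⟩ := del_apex_exists lf hb hx
    exact ⟨c, (del_tri_cyc (del_tri_cyc hc)).adj.symm, hc⟩
  · exact fun x y y' h1 h2 => del_tri_unique gp h1 h2
  · intro x x' y h1 h2
    exact del_tri_unique gp (del_tri_cyc (del_tri_cyc h1)) (del_tri_cyc (del_tri_cyc h2))
  · exact fun x y h1 => ⟨h1.adj, (del_tri_cyc (del_tri_cyc h1)).adj.symm⟩

/-! ## 4. windows  (owner 253).   The WINDOW COMPLEX of `K`: vertices `vorMeet Y K`, edges `VorAdjIn Y K`, positively oriented triangles `DelTriIn Y K`. -/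

theorem del_win_finite {Y K : Set ℂ} (lf : VorLF Y) (hK : Bornology.IsBounded K) : (vorMeet Y K).Finite := vor_finite_meet lf hK

theorem VorAdjIn.mem_left {Y K : Set ℂ} {a b : ℂ} (h : VorAdjIn Y K a b) : a ∈ vorMeet Y K := by
  obtain ⟨ha, _, _, z, ⟨h1, _⟩, hz⟩ := h
  exact ⟨ha, z, h1, hz⟩

theorem VorAdjIn.mem_right {Y K : Set ℂ} {a b : ℂ} (h : VorAdjIn Y K a b) : b ∈ vorMeet Y K := h.symm.mem_left

/-- Conn -/
theorem del_win_conn {Y K : Set ℂ} (lf : VorLF Y) (hK : IsPreconnected K) {a b : ℂ} (ha : a ∈ vorMeet Y K) (hb : b ∈ vorMeet Y K) :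
    Relation.ReflTransGen (VorAdjIn Y K) a b := vor_block_connected lf hK ha hb

/-- uniqueness of the apex in a window -/
theorem del_win_unique {Y K : Set ℂ} (gp : VorGP Y) {a b c c' : ℂ} (h : DelTriIn Y K a b c) (h' : DelTriIn Y K a b c') : c = c' := del_tri_unique gp h.tri h'.tri

/-- every directed edge at an INNER site (cell bounded and inside the window) has its left triangle in the window -/
theorem del_win_apex {Y K : Set ℂ} (lf : VorLF Y) {a b : ℂ} (hb : Bornology.IsBounded (vorCell Y a)) (haK : vorCell Y a ⊆ K) (h : DelAdj Y a b) :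
    ∃ c, DelTriIn Y K a b c := by
  obtain ⟨c, hc⟩ := del_apex_exists lf hb h
  exact ⟨c, del_triIn_iff.2 ⟨hc, haK ((del_tri_iff_univ Y a b c).1 hc).cc_mem.1.1.1⟩⟩

/-- a triangle at an inner site is a triangle of the window -/
theorem DelTri.inWin {Y K : Set ℂ} {a b c : ℂ} (h : DelTri Y a b c) (haK : vorCell Y a ⊆ K) : DelTriIn Y K a b c :=
  del_triIn_iff.2 ⟨h, haK ((del_tri_iff_univ Y a b c).1 h).cc_mem.1.1.1⟩

/-- an edge at an inner site is an edge of the window -/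
theorem DelAdj.inWin {Y K : Set ℂ} {a b : ℂ} (h : DelAdj Y a b) (haK : vorCell Y a ⊆ K) : VorAdjIn Y K a b := by
  obtain ⟨ha, hb, hab, z, h1, h2⟩ := h
  exact ⟨ha, hb, hab, z, ⟨h1, h2⟩, haK h1⟩

/-- LinkCyc at the inner sites of a window -/
theorem del_win_link {Y K : Set ℂ} (lf : VorLF Y) (gp : VorGP Y) {v b b' : ℂ} (hb : Bornology.IsBounded (vorCell Y v)) (hvK : vorCell Y v ⊆ K)
    (h : DelAdj Y v b) (h' : DelAdj Y v b') : Relation.ReflTransGen (fun x y => DelTriIn Y K v x y) b b' :=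
  Relation.ReflTransGen.mono (fun _ _ hxy => DelTri.inWin hxy hvK) _ _ (del_link_cyc lf gp hb h h')

/-- LOC for edges -/
theorem del_loc_adj {Y Y' K : Set ℂ} {ρ : ℝ} (hd : VorDense Y K ρ) (hYY : Y ∩ vorNbd K ρ = Y' ∩ vorNbd K ρ) {a b : ℂ} :
    VorAdjIn Y K a b ↔ VorAdjIn Y' K a b := by
  have key : ∀ {Y Y' : Set ℂ}, VorDense Y K ρ → Y ∩ vorNbd K ρ = Y' ∩ vorNbd K ρ → VorAdjIn Y K a b → VorAdjIn Y' K a b := by
    rintro Y Y' hd hYY ⟨ha, hb, hab, z, ⟨h1, h2⟩, hz⟩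
    have e1 := vor_loc_aux hd hYY hz ⟨ha, h1⟩
    have e2 := vor_loc_aux hd hYY hz ⟨hb, h2⟩
    exact ⟨e1.1, e2.1, hab, z, ⟨e1.2, e2.2⟩, hz⟩
  exact ⟨key hd hYY, key (vor_dense_transfer hd hYY) hYY.symm⟩

/-- LOC for triangles: the window complex of `K` is a function of `Y ∩ K^{+ρ}` on the event that `Y` is `ρ`-dense on `K` -/
theorem del_loc_tri {Y Y' K : Set ℂ} {ρ : ℝ} (hd : VorDense Y K ρ) (hYY : Y ∩ vorNbd K ρ = Y' ∩ vorNbd K ρ) {a b c : ℂ} :
    DelTriIn Y K a b c ↔ DelTriIn Y' K a b c := by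
  have key : ∀ {Y Y' : Set ℂ}, VorDense Y K ρ → Y ∩ vorNbd K ρ = Y' ∩ vorNbd K ρ → DelTriIn Y K a b c → DelTriIn Y' K a b c := by
    rintro Y Y' hd hYY ⟨ha, hb, hc, hdet, z, ⟨⟨h1, h2⟩, h3⟩, hz⟩
    have e1 := vor_loc_aux hd hYY hz ⟨ha, h1⟩
    have e2 := vor_loc_aux hd hYY hz ⟨hb, h2⟩
    have e3 := vor_loc_aux hd hYY hz ⟨hc, h3⟩
    exact ⟨e1.1, e2.1, e3.1, hdet, z, ⟨⟨e1.2, e2.2⟩, e3.2⟩, hz⟩
  exact ⟨key hd hYY, key (vor_dense_transfer hd hYY) hYY.symm⟩

theorem del_loc_meet {Y Y' K : Set ℂ} {ρ : ℝ} (hd : VorDense Y K ρ) (hYY : Y ∩ vorNbd K ρ = Y' ∩ vorNbd K ρ) : vorMeet Y K = vorMeet Y' K := by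
  have key : ∀ {Y Y' : Set ℂ}, VorDense Y K ρ → Y ∩ vorNbd K ρ = Y' ∩ vorNbd K ρ → vorMeet Y K ⊆ vorMeet Y' K := by
    rintro Y Y' hd hYY v ⟨hv, z, h1, hz⟩
    have e1 := vor_loc_aux hd hYY hz ⟨hv, h1⟩
    exact ⟨e1.1, z, e1.2, hz⟩
  exact Subset.antisymm (key hd hYY) (key (vor_dense_transfer hd hYY) hYY.symm)

/-- mesh: circumradius -/
theorem del_tri_radius {Y K : Set ℂ} {ρ : ℝ} (hd : VorDense Y K ρ) {a b c : ℂ} (h : DelTriIn Y K a b c) : ‖delO a b c - a‖ ≤ ρ :=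
  vor_site_near hd h.cc_mem.1.1.1 h.cc_mem.2

/-- mesh: length of an edge -/
theorem del_adj_dist {Y K : Set ℂ} {ρ : ℝ} (hd : VorDense Y K ρ) {a b : ℂ} (h : VorAdjIn Y K a b) : ‖a - b‖ ≤ 2 * ρ := by
  obtain ⟨_, _, _, z, ⟨h1, h2⟩, hz⟩ := h
  have e1 := vor_site_near hd h1 hz
  have e2 := vor_site_near hd h2 hz
  calc ‖a - b‖ = ‖(z - b) - (z - a)‖ := by ring_nf
    _ ≤ ‖z - b‖ + ‖z - a‖ := norm_sub_le _ _
    _ ≤ 2 * ρ := by linarith

theorem del_box_bounded (x0 x1 y0 y1 : ℝ) : Bornology.IsBounded (delBox x0 x1 y0 y1) :=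
  Bornology.IsBounded.reProdIm (isBounded_Icc _ _) (isBounded_Icc _ _)

theorem del_box_convex (x0 x1 y0 y1 : ℝ) : Convex ℝ (delBox x0 x1 y0 y1) := by
  intro x hx y hy s t hs ht hst
  obtain ⟨⟨a1, a2⟩, ⟨a3, a4⟩⟩ := hx
  obtain ⟨⟨b1, b2⟩, ⟨b3, b4⟩⟩ := hy
  have e1 : (s • x + t • y).re = s * x.re + t * y.re := by simp
  have e2 : (s • x + t • y).im = s * x.im + t * y.im := by simp
  have hs' : s = 1 - t := by linarith
  refine ⟨⟨?_, ?_⟩, ⟨?_, ?_⟩⟩
  · show x0 ≤ (s • x + t • y).re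
    rw [e1, hs']; nlinarith
  · show (s • x + t • y).re ≤ x1
    rw [e1, hs']; nlinarith
  · show y0 ≤ (s • x + t • y).im
    rw [e2, hs']; nlinarith
  · show (s • x + t • y).im ≤ y1
    rw [e2, hs']; nlinarith

/-- **H¹(ℤ/2) = 0 of the window complex of a box** (nerve lemma of helper264; no general position needed) -/
theorem del_win_H1 {Y : Set ℂ} (lf : VorLF Y) (hne : Y.Nonempty) {x0 x1 y0 y1 : ℝ} (hy : y0 ≤ y1) (f : ℂ → ℂ → ZMod 2)
    (fs : ∀ a b, VorAdjIn Y (delBox x0 x1 y0 y1) a b → f a b = f b a)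
    (fc : ∀ a b c, DelTriIn Y (delBox x0 x1 y0 y1) a b c → f a b + f b c + f c a = 0) :
    ∃ u : ℂ → ZMod 2, ∀ a b, VorAdjIn Y (delBox x0 x1 y0 y1) a b → f a b = u a + u b := by
  classical
  set K := delBox x0 x1 y0 y1 with hK
  have hfin : (vorMeet Y K).Finite := vor_finite_meet lf (del_box_bounded _ _ _ _)
  have : Finite ↥(vorMeet Y K) := hfin.to_subtype
  let g : ↥(vorMeet Y K) → ↥(vorMeet Y K) → ZMod 2 := fun i j => if VorAdjIn Y K i j then f i j else 0
  have g0 : ∀ i, g i i = 0 := fun i => if_neg fun h => h.2.2.1 rfl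
  have gs : ∀ i j, g i j = g j i := fun i j => by
    by_cases h : VorAdjIn Y K i j
    · simp only [g, if_pos h, if_pos h.symm, fs _ _ h]
    · have h' : ¬ VorAdjIn Y K j i := fun h' => h h'.symm
      simp only [g, if_neg h, if_neg h']
  have hcov : Icc x0 x1 ×ℂ Icc y0 y1 ⊆ ⋃ i : ↥(vorMeet Y K), vorCell Y i := fun z hz => by
    obtain ⟨v, hv, hzv⟩ := vor_cover lf hne z
    exact mem_iUnion.2 ⟨⟨v, hv, z, hzv, hz⟩, hzv⟩
  have gc : ∀ i j k : ↥(vorMeet Y K), (vorCell Y i ∩ vorCell Y j ∩ vorCell Y k ∩ (Icc x0 x1 ×ℂ Icc y0 y1)).Nonempty → g i j + g j k + g k i = 0 := by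
    rintro i j k ⟨z, ⟨⟨h1, h2⟩, h3⟩, hz⟩
    by_cases hij : i = j
    · subst hij; rw [g0, zero_add, gs i k]; exact pl_z2_add_self _
    by_cases hjk : j = k
    · subst hjk; rw [g0, add_zero, gs i j]; exact pl_z2_add_self _
    by_cases hik : i = k
    · subst hik; rw [g0, add_zero, gs i j]; exact pl_z2_add_self _
    have nij : (i : ℂ) ≠ j := fun h => hij (Subtype.ext h)
    have njk : (j : ℂ) ≠ k := fun h => hjk (Subtype.ext h)
    have nik : (i : ℂ) ≠ k := fun h => hik (Subtype.ext h)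
    have aij : VorAdjIn Y K i j := ⟨i.2.1, j.2.1, nij, z, ⟨h1, h2⟩, hz⟩
    have ajk : VorAdjIn Y K j k := ⟨j.2.1, k.2.1, njk, z, ⟨h2, h3⟩, hz⟩
    have aki : VorAdjIn Y K k i := ⟨k.2.1, i.2.1, nik.symm, z, ⟨h3, h1⟩, hz⟩
    simp only [g, if_pos aij, if_pos ajk, if_pos aki]
    rcases del_three_in (K := K) i.2.1 j.2.1 k.2.1 nij nik njk h1 h2 h3 hz with h | h
    · exact fc _ _ _ h
    · have := fc _ _ _ h
      rw [fs _ _ aij, fs _ _ ajk, fs _ _ aki]
      rw [← this]; ring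
  obtain ⟨u, hu⟩ := pl_nerve hy (fun i : ↥(vorMeet Y K) => vorCell Y i) (fun i => vor_isClosed_cell Y i) (fun i => vor_convex_cell Y i) hcov g g0 gs gc
  refine ⟨fun a => if h : a ∈ vorMeet Y K then u ⟨a, h⟩ else 0, fun a b hab => ?_⟩
  simp only [dif_pos hab.mem_left, dif_pos hab.mem_right]
  have := hu ⟨a, hab.mem_left⟩ ⟨b, hab.mem_right⟩ hab.2.2.2
  simpa only [g, if_pos hab] using this

/-! ## 5. chains of cells of one colour  (owner 253) -/

/-- a preconnected subset `S` of the union of the cells of `A` (e.g. the black sites): the cells of `A` meeting `S` are chained, consecutive cells meeting INSIDE `S`.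
This is the passage from the frozen event (connected subsets of `pvBlack ω ∩ closure D`) to black paths of the Delaunay graph. -/
theorem vor_block_connected_in {Y A S : Set ℂ} (lf : VorLF Y) (hA : A ⊆ Y) (hS : IsPreconnected S) (hSA : S ⊆ vorUn Y A) {a b : ℂ}
    (ha : a ∈ A) (haS : (vorCell Y a ∩ S).Nonempty) (hb : b ∈ A) (hbS : (vorCell Y b ∩ S).Nonempty) :
    Relation.ReflTransGen (fun x y => x ∈ A ∧ y ∈ A ∧ (vorCell Y x ∩ vorCell Y y ∩ S).Nonempty) a b := by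
  by_contra hcon
  set R : ℂ → ℂ → Prop := fun x y => x ∈ A ∧ y ∈ A ∧ (vorCell Y x ∩ vorCell Y y ∩ S).Nonempty with hR
  have cA : IsClosed (vorUn Y {v | v ∈ A ∧ Relation.ReflTransGen R a v}) := vor_isClosed_un lf fun v hv => hA hv.1
  have cB : IsClosed (vorUn Y {v | v ∈ A ∧ ¬ Relation.ReflTransGen R a v}) := vor_isClosed_un lf fun v hv => hA hv.1
  have hcov : S ⊆ vorUn Y {v | v ∈ A ∧ Relation.ReflTransGen R a v} ∪ vorUn Y {v | v ∈ A ∧ ¬ Relation.ReflTransGen R a v} := fun z hz => by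
    obtain ⟨v, hv, hzv⟩ := hSA hz
    by_cases hc : Relation.ReflTransGen R a v
    · exact Or.inl ⟨v, ⟨hv, hc⟩, hzv⟩
    · exact Or.inr ⟨v, ⟨hv, hc⟩, hzv⟩
  obtain ⟨za, hza, hzaS⟩ := haS
  obtain ⟨zb, hzb, hzbS⟩ := hbS
  obtain ⟨z, hzS, ⟨v, hv, hzv⟩, ⟨w, hw, hzw⟩⟩ := isPreconnected_closed_iff.1 hS _ _ cA cB hcov ⟨za, hzaS, a, ⟨ha, Relation.ReflTransGen.refl⟩, hza⟩
    ⟨zb, hzbS, b, ⟨hb, hcon⟩, hzb⟩
  exact hw.2 (hv.2.tail ⟨hv.1, hw.1, z, ⟨hzv, hzw⟩, hzS⟩)

end Claimed.Agent.R289
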