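import Claimed.Agent.R289.Vor.Cov
import Claimed.Agent.R289.Del.Main
import Claimed.Agent.R289.Del.Area

/-!
# Row 289 (S0537), box DEL (head helper253), file Del/Cov : COVARIANCE OF THE DELAUNAY NOTIONS      (owner helper135; prefix `delc_`, records `DelSimP`, `DelSimN`)

`VorSim g r` (helper172, `Vor/Cov`) = surjective similarity of ratio `r`.   Here the ORIENTATION is added:
* `DelSimP g r`  direct similarity:    `vorDet (g a) (g b) (g c) =   r² vorDet a b c`      (instances: `z ↦ a z + b`, `z ↦ a z`, `z ↦ z + b`, `z ↦ c • z`, `vorSim a b`, `id`)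
* `DelSimN g r`  indirect similarity:  `vorDet (g a) (g b) (g c) = - r² vorDet a b c`      (instances: `conj`, `vorCj`, `z ↦ - conj z`);      composition table `P∘P = P`, `P∘N = N`, `N∘P = N`, `N∘N = P`
* any similarity: `delc_adj`, `delc_P` (`delP` is multiplied by `r²`), `delc_O` (circumcentres)
* direct:   `delc_tri`, `delc_triIn`, `delc_S`, `delc_bis`, `delc_I`, `delc_apex` (general position), `delc_T`, `delc_To`
* indirect: `delc_tri_neg : DelTri (g '' Y) (g a) (g c) (g b) ↔ DelTri Y a b c`, `delc_triIn_neg`, `delc_S_neg`, `delc_bis_neg`, `delc_I_neg`, `delc_apex_neg`, `delc_T_neg`, `delc_To_neg`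
* barycentres for the concrete maps;   the colour flip and the image of a coloured configuration (`cfSites`).
-/

set_option autoImplicit false

namespace Claimed.Agent.R289

open Set Metric Claims.C0465

/-! ## 0. oriented similarities -/

/-- direct (orientation preserving) similarity of ratio `r` -/
structure DelSimP (g : ℂ → ℂ) (r : ℝ) : Prop extends VorSim g r where
  det : ∀ a b c, vorDet (g a) (g b) (g c) = r ^ 2 * vorDet a b c

/-- indirect (orientation reversing) similarity of ratio `r` -/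
structure DelSimN (g : ℂ → ℂ) (r : ℝ) : Prop extends VorSim g r where
  det : ∀ a b c, vorDet (g a) (g b) (g c) = -(r ^ 2 * vorDet a b c)

theorem delc_P_affine (a b : ℂ) (ha : a ≠ 0) : DelSimP (fun z => a * z + b) ‖a‖ :=
  { vorc_sim_affine a b ha with det := fun x y z => vor_sim_det a b x y z }

theorem delc_P_vorSim (a b : ℂ) (ha : a ≠ 0) : DelSimP (vorSim a b) ‖a‖ := delc_P_affine a b ha

theorem delc_P_mul (a : ℂ) (ha : a ≠ 0) : DelSimP (fun z => a * z) ‖a‖ := by
  simpa using delc_P_affine a 0 ha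

theorem delc_P_add (b : ℂ) : DelSimP (fun z => z + b) 1 := by
  simpa using delc_P_affine 1 b one_ne_zero

theorem delc_P_id : DelSimP id 1 := by
  have := delc_P_add 0
  simpa [Function.id_def] using this

theorem delc_P_smul (c : ℝ) (hc : c ≠ 0) : DelSimP (fun z : ℂ => c • z) |c| := by
  have := delc_P_mul (c : ℂ) (by exact_mod_cast hc)
  simpa [Complex.real_smul] using this

theorem delc_N_conj : DelSimN (starRingEnd ℂ) 1 :=
  { vorc_sim_conj with det := fun x y z => by rw [vorc_det_conj]; ring }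

theorem delc_N_vorCj : DelSimN vorCj 1 := delc_N_conj

theorem DelSimP.comp {g g' : ℂ → ℂ} {r r' : ℝ} (h : DelSimP g r) (h' : DelSimP g' r') : DelSimP (g ∘ g') (r * r') :=
  { h.toVorSim.comp h'.toVorSim with det := fun a b c => by simp only [Function.comp]; rw [h.det, h'.det]; ring }

theorem DelSimP.comp_neg {g g' : ℂ → ℂ} {r r' : ℝ} (h : DelSimP g r) (h' : DelSimN g' r') : DelSimN (g ∘ g') (r * r') :=
  { h.toVorSim.comp h'.toVorSim with det := fun a b c => by simp only [Function.comp]; rw [h.det, h'.det]; ring }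

theorem DelSimN.comp_pos {g g' : ℂ → ℂ} {r r' : ℝ} (h : DelSimN g r) (h' : DelSimP g' r') : DelSimN (g ∘ g') (r * r') :=
  { h.toVorSim.comp h'.toVorSim with det := fun a b c => by simp only [Function.comp]; rw [h.det, h'.det]; ring }

theorem DelSimN.comp {g g' : ℂ → ℂ} {r r' : ℝ} (h : DelSimN g r) (h' : DelSimN g' r') : DelSimP (g ∘ g') (r * r') :=
  { h.toVorSim.comp h'.toVorSim with det := fun a b c => by simp only [Function.comp]; rw [h.det, h'.det]; ring }

/-- the reflection in the imaginary axis -/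
theorem delc_N_nconj : DelSimN (fun z => -(starRingEnd ℂ) z) 1 := by
  have := (delc_P_mul (-1) (by norm_num)).comp_neg delc_N_conj
  simpa [Function.comp_def] using this

/-- a reflection followed by a direct similarity -/
theorem delc_N_affine (a b : ℂ) (ha : a ≠ 0) : DelSimN (fun z => a * (starRingEnd ℂ) z + b) ‖a‖ := by
  have := (delc_P_affine a b ha).comp_neg delc_N_conj
  simpa [Function.comp_def] using this

theorem DelSimP.det_pos {g : ℂ → ℂ} {r : ℝ} (h : DelSimP g r) (a b c : ℂ) : 0 < vorDet (g a) (g b) (g c) ↔ 0 < vorDet a b c := by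
  rw [h.det]; exact mul_pos_iff_of_pos_left (pow_pos h.pos 2)

theorem DelSimP.det_nonneg {g : ℂ → ℂ} {r : ℝ} (h : DelSimP g r) (a b c : ℂ) : 0 ≤ vorDet (g a) (g b) (g c) ↔ 0 ≤ vorDet a b c := by
  rw [h.det]; exact mul_nonneg_iff_of_pos_left (pow_pos h.pos 2)

theorem delc_det_acb (a b c : ℂ) : vorDet a c b = -vorDet a b c := by
  simp only [vorDet]; ring

/-- an indirect similarity and a transposition of the last two points -/
theorem DelSimN.det_acb {g : ℂ → ℂ} {r : ℝ} (h : DelSimN g r) (a b c : ℂ) : vorDet (g a) (g c) (g b) = r ^ 2 * vorDet a b c := by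
  rw [h.det, delc_det_acb]; ring

/-- an indirect similarity and a transposition of the first two points -/
theorem DelSimN.det_bac {g : ℂ → ℂ} {r : ℝ} (h : DelSimN g r) (a b c : ℂ) : vorDet (g b) (g a) (g c) = r ^ 2 * vorDet a b c := by
  rw [h.det, vorc_det_swap]; ring

theorem DelSimN.det_pos {g : ℂ → ℂ} {r : ℝ} (h : DelSimN g r) (a b c : ℂ) : 0 < vorDet (g a) (g c) (g b) ↔ 0 < vorDet a b c := by
  rw [h.det_acb]; exact mul_pos_iff_of_pos_left (pow_pos h.pos 2)

theorem DelSimN.det_pos' {g : ℂ → ℂ} {r : ℝ} (h : DelSimN g r) (a b c : ℂ) : 0 < vorDet (g b) (g a) (g c) ↔ 0 < vorDet a b c := by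
  rw [h.det_bac]; exact mul_pos_iff_of_pos_left (pow_pos h.pos 2)

theorem DelSimN.det_nonneg' {g : ℂ → ℂ} {r : ℝ} (h : DelSimN g r) (a b c : ℂ) : 0 ≤ vorDet (g b) (g a) (g c) ↔ 0 ≤ vorDet a b c := by
  rw [h.det_bac]; exact mul_nonneg_iff_of_pos_left (pow_pos h.pos 2)

/-! ## 1. any similarity: adjacency, common points, `delP`, circumcentres -/

theorem delc_adj {g : ℂ → ℂ} {r : ℝ} (h : VorSim g r) (Y : Set ℂ) (a b : ℂ) : DelAdj (g '' Y) (g a) (g b) ↔ DelAdj Y a b := by
  rw [del_adj_iff_univ, del_adj_iff_univ]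
  have := vorc_adjIn h Y univ a b
  rwa [image_univ_of_surjective h.surj] at this

/-- the common points of three cells -/
theorem delc_inter3 {g : ℂ → ℂ} {r : ℝ} (h : VorSim g r) (Y K : Set ℂ) (a b c : ℂ) :
    (vorCell (g '' Y) (g a) ∩ vorCell (g '' Y) (g b) ∩ vorCell (g '' Y) (g c) ∩ g '' K).Nonempty ↔
      (vorCell Y a ∩ vorCell Y b ∩ vorCell Y c ∩ K).Nonempty := by
  constructor
  · rintro ⟨_, ⟨⟨h1, h2⟩, h3⟩, ⟨z, hz, rfl⟩⟩
    exact ⟨z, ⟨⟨(vorc_mem_cell h Y a z).1 h1, (vorc_mem_cell h Y b z).1 h2⟩, (vorc_mem_cell h Y c z).1 h3⟩, hz⟩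
  · rintro ⟨z, ⟨⟨h1, h2⟩, h3⟩, hz⟩
    exact ⟨g z, ⟨⟨(vorc_mem_cell h Y a z).2 h1, (vorc_mem_cell h Y b z).2 h2⟩, (vorc_mem_cell h Y c z).2 h3⟩, ⟨z, hz, rfl⟩⟩

/-- polarisation: `delP` is a function of the three distances -/
theorem delc_P_polar (a b c : ℂ) : 2 * delP a b c = ‖c - a‖ ^ 2 + ‖c - b‖ ^ 2 - ‖a - b‖ ^ 2 := by
  rw [del_sq, del_sq, del_sq]
  simp only [delP, Complex.sub_re, Complex.sub_im]
  ring

theorem delc_P {g : ℂ → ℂ} {r : ℝ} (h : VorSim g r) (a b c : ℂ) : delP (g a) (g b) (g c) = r ^ 2 * delP a b c := by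
  have h1 := delc_P_polar (g a) (g b) (g c)
  rw [h.norm, h.norm, h.norm] at h1
  have h2 := delc_P_polar a b c
  have : 2 * delP (g a) (g b) (g c) = r ^ 2 * (2 * delP a b c) := by rw [h1, h2]; ring
  linarith

/-- circumcentres -/
theorem delc_O {g : ℂ → ℂ} {r : ℝ} (h : VorSim g r) {a b c : ℂ} (hd : vorDet a b c ≠ 0) : delO (g a) (g b) (g c) = g (delO a b c) := by
  refine (del_O_unique ((vorc_det_ne_zero h a b c).2 hd) ?_ ?_).symm
  · rw [h.norm, h.norm, del_O_ab]
  · rw [h.norm, h.norm, del_O_ac hd]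

/-- circumradii -/
theorem delc_radius {g : ℂ → ℂ} {r : ℝ} (h : VorSim g r) {a b c : ℂ} (hd : vorDet a b c ≠ 0) :
    ‖delO (g a) (g b) (g c) - g a‖ = r * ‖delO a b c - a‖ := by
  rw [delc_O h hd, h.norm]

/-! ## 2. direct similarities -/

theorem delc_triIn {g : ℂ → ℂ} {r : ℝ} (h : DelSimP g r) (Y K : Set ℂ) (a b c : ℂ) :
    DelTriIn (g '' Y) (g '' K) (g a) (g b) (g c) ↔ DelTriIn Y K a b c := by
  unfold DelTriIn
  rw [h.toVorSim.mem_image, h.toVorSim.mem_image, h.toVorSim.mem_image, h.det_pos, delc_inter3 h.toVorSim]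

theorem delc_tri {g : ℂ → ℂ} {r : ℝ} (h : DelSimP g r) (Y : Set ℂ) (a b c : ℂ) : DelTri (g '' Y) (g a) (g b) (g c) ↔ DelTri Y a b c := by
  rw [del_tri_iff_univ, del_tri_iff_univ]
  have := delc_triIn h Y univ a b c
  rwa [image_univ_of_surjective h.surj] at this

theorem delc_S {g : ℂ → ℂ} {r : ℝ} (h : DelSimP g r) (a b c : ℂ) : delS (g a) (g b) (g c) = delS a b c := by
  unfold delS
  rw [delc_P h.toVorSim, h.det]
  have hr : r ^ 2 ≠ 0 := pow_ne_zero 2 h.pos.ne'
  rw [show 2 * (r ^ 2 * vorDet a b c) = r ^ 2 * (2 * vorDet a b c) by ring, mul_div_mul_left _ _ hr]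

/-- the height of a point of the bisector -/
theorem delc_det_bis (a b : ℂ) (s : ℝ) : vorDet a b (delBis a b s) = s * ‖b - a‖ ^ 2 := by
  rw [del_sq]
  simp only [vorDet, del_bis_re, del_bis_im, Complex.sub_re, Complex.sub_im]
  ring

theorem delc_bis_self (a : ℂ) (s : ℝ) : delBis a a s = a := by
  simp [delBis]

theorem delc_bis {g : ℂ → ℂ} {r : ℝ} (h : DelSimP g r) (a b : ℂ) (s : ℝ) : delBis (g a) (g b) s = g (delBis a b s) := by
  by_cases hab : a = b
  · subst hab; rw [delc_bis_self, delc_bis_self]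
  · have hg : g a ≠ g b := fun e => hab (h.toVorSim.inj e)
    obtain ⟨s', hs'⟩ := del_bis hg (z := g (delBis a b s)) (by rw [h.norm, h.norm, del_bis_eq])
    have e1 := delc_det_bis (g a) (g b) s'
    rw [← hs', h.det, delc_det_bis, h.norm] at e1
    have hn : 0 < ‖b - a‖ := norm_pos_iff.2 (sub_ne_zero.2 (Ne.symm hab))
    have hpos : 0 < r ^ 2 * ‖b - a‖ ^ 2 := by have := h.pos; positivity
    have e2 : s * (r ^ 2 * ‖b - a‖ ^ 2) = s' * (r ^ 2 * ‖b - a‖ ^ 2) := by linear_combination e1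
    have hss : s = s' := mul_right_cancel₀ hpos.ne' e2
    rw [hs', hss]

theorem delc_I {g : ℂ → ℂ} {r : ℝ} (h : DelSimP g r) (Y : Set ℂ) (a b : ℂ) : delI (g '' Y) (g a) (g b) = delI Y a b := by
  ext s
  rw [← del_bis_mem_cell, ← del_bis_mem_cell, delc_bis h, vorc_mem_cell h.toVorSim]

theorem delc_apex {g : ℂ → ℂ} {r : ℝ} (h : DelSimP g r) {Y : Set ℂ} (hY : VorGP Y) (a b : ℂ) :
    delApex (g '' Y) (g a) (g b) = g (delApex Y a b) := by
  by_cases hex : ∃ c, DelTri Y a b c
  · exact del_apex_eq (vorc_gp_image h.toVorSim hY) ((delc_tri h Y a b _).2 (del_apex_tri hex))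
  · have hex' : ¬ ∃ c, DelTri (g '' Y) (g a) (g b) c := by
      rintro ⟨c', hc'⟩
      obtain ⟨c, rfl⟩ := h.surj c'
      exact hex ⟨c, (delc_tri h Y a b c).1 hc'⟩
    unfold delApex
    rw [dif_neg hex, dif_neg hex']

theorem delc_T {g : ℂ → ℂ} {r : ℝ} (h : DelSimP g r) (a b c : ℂ) : delT (g a) (g b) (g c) = g '' delT a b c := by
  ext w
  obtain ⟨x, rfl⟩ := h.surj w
  rw [h.toVorSim.mem_image]
  simp only [dela_mem, h.det_nonneg]

theorem delc_To {g : ℂ → ℂ} {r : ℝ} (h : DelSimP g r) (a b c : ℂ) : delTo (g a) (g b) (g c) = g '' delTo a b c := by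
  ext w
  obtain ⟨x, rfl⟩ := h.surj w
  rw [h.toVorSim.mem_image]
  simp only [dela_mem_open, h.det_pos]

/-- the link of a vertex (chains of consecutive triangles round `v`) -/
theorem delc_link {g : ℂ → ℂ} {r : ℝ} (h : DelSimP g r) (Y : Set ℂ) (v : ℂ) {b b' : ℂ}
    (H : Relation.ReflTransGen (fun x y => DelTri Y v x y) b b') :
    Relation.ReflTransGen (fun x y => DelTri (g '' Y) (g v) x y) (g b) (g b') :=
  H.lift g fun x y hxy => (delc_tri h Y v x y).2 hxy

/-- chains of adjacent sites -/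
theorem delc_chain {g : ℂ → ℂ} {r : ℝ} (h : VorSim g r) (Y : Set ℂ) {b b' : ℂ} (H : Relation.ReflTransGen (DelAdj Y) b b') :
    Relation.ReflTransGen (DelAdj (g '' Y)) (g b) (g b') :=
  H.lift g fun x y hxy => (delc_adj h Y x y).2 hxy

/-! ## 3. indirect similarities: the orientation of every triangle is reversed -/

theorem delc_triIn_neg {g : ℂ → ℂ} {r : ℝ} (h : DelSimN g r) (Y K : Set ℂ) (a b c : ℂ) :
    DelTriIn (g '' Y) (g '' K) (g a) (g c) (g b) ↔ DelTriIn Y K a b c := by
  unfold DelTriIn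
  rw [h.toVorSim.mem_image, h.toVorSim.mem_image, h.toVorSim.mem_image, h.det_pos, delc_inter3 h.toVorSim]
  have e : vorCell Y a ∩ vorCell Y c ∩ vorCell Y b ∩ K = vorCell Y a ∩ vorCell Y b ∩ vorCell Y c ∩ K := by
    ext z; simp only [mem_inter_iff]; tauto
  rw [e]
  tauto

theorem delc_tri_neg {g : ℂ → ℂ} {r : ℝ} (h : DelSimN g r) (Y : Set ℂ) (a b c : ℂ) : DelTri (g '' Y) (g a) (g c) (g b) ↔ DelTri Y a b c := by
  rw [del_tri_iff_univ, del_tri_iff_univ]
  have := delc_triIn_neg h Y univ a b c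
  rwa [image_univ_of_surjective h.surj] at this

/-- the form adapted to the apex: the triangle on the left of `a → b` goes to the triangle on the left of `g b → g a` -/
theorem delc_tri_neg' {g : ℂ → ℂ} {r : ℝ} (h : DelSimN g r) (Y : Set ℂ) (a b c : ℂ) : DelTri (g '' Y) (g b) (g a) (g c) ↔ DelTri Y a b c := by
  constructor
  · intro H
    exact del_tri_cyc (del_tri_cyc ((delc_tri_neg h Y b c a).1 H))
  · intro H
    exact (delc_tri_neg h Y b c a).2 (del_tri_cyc H)

theorem delc_S_neg {g : ℂ → ℂ} {r : ℝ} (h : DelSimN g r) (a b c : ℂ) : delS (g a) (g b) (g c) = -delS a b c := by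
  unfold delS
  rw [delc_P h.toVorSim, h.det]
  have hr : r ^ 2 ≠ 0 := pow_ne_zero 2 h.pos.ne'
  rw [show 2 * -(r ^ 2 * vorDet a b c) = r ^ 2 * (-(2 * vorDet a b c)) by ring, mul_div_mul_left _ _ hr, div_neg]

theorem delc_bis_neg {g : ℂ → ℂ} {r : ℝ} (h : DelSimN g r) (a b : ℂ) (s : ℝ) : delBis (g a) (g b) (-s) = g (delBis a b s) := by
  by_cases hab : a = b
  · subst hab; rw [delc_bis_self, delc_bis_self]
  · have hg : g a ≠ g b := fun e => hab (h.toVorSim.inj e)
    obtain ⟨s', hs'⟩ := del_bis hg (z := g (delBis a b s)) (by rw [h.norm, h.norm, del_bis_eq])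
    have e1 := delc_det_bis (g a) (g b) s'
    rw [← hs', h.det, delc_det_bis, h.norm] at e1
    have hn : 0 < ‖b - a‖ := norm_pos_iff.2 (sub_ne_zero.2 (Ne.symm hab))
    have hpos : 0 < r ^ 2 * ‖b - a‖ ^ 2 := by have := h.pos; positivity
    have e2 : (-s) * (r ^ 2 * ‖b - a‖ ^ 2) = s' * (r ^ 2 * ‖b - a‖ ^ 2) := by linear_combination e1
    have hss : -s = s' := mul_right_cancel₀ hpos.ne' e2
    rw [hs', hss]

theorem delc_I_neg {g : ℂ → ℂ} {r : ℝ} (h : DelSimN g r) (Y : Set ℂ) (a b : ℂ) (s : ℝ) : -s ∈ delI (g '' Y) (g a) (g b) ↔ s ∈ delI Y a b := by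
  rw [← del_bis_mem_cell, ← del_bis_mem_cell, delc_bis_neg h, vorc_mem_cell h.toVorSim]

/-- swapping the two ends absorbs the sign -/
theorem delc_I_neg' {g : ℂ → ℂ} {r : ℝ} (h : DelSimN g r) (Y : Set ℂ) (a b : ℂ) : delI (g '' Y) (g b) (g a) = delI Y a b := by
  ext s
  rw [del_I_swap, delc_I_neg h]

theorem delc_apex_neg {g : ℂ → ℂ} {r : ℝ} (h : DelSimN g r) {Y : Set ℂ} (hY : VorGP Y) {a b : ℂ} (hex : ∃ c, DelTri Y a b c) :
    delApex (g '' Y) (g b) (g a) = g (delApex Y a b) :=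
  del_apex_eq (vorc_gp_image h.toVorSim hY) ((delc_tri_neg' h Y a b _).2 (del_apex_tri hex))

theorem delc_T_neg {g : ℂ → ℂ} {r : ℝ} (h : DelSimN g r) (a b c : ℂ) : delT (g a) (g c) (g b) = g '' delT a b c := by
  ext w
  obtain ⟨x, rfl⟩ := h.surj w
  rw [h.toVorSim.mem_image]
  simp only [dela_mem, h.det_nonneg']
  tauto

theorem delc_To_neg {g : ℂ → ℂ} {r : ℝ} (h : DelSimN g r) (a b c : ℂ) : delTo (g a) (g c) (g b) = g '' delTo a b c := by
  ext w
  obtain ⟨x, rfl⟩ := h.surj w
  rw [h.toVorSim.mem_image]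
  simp only [dela_mem_open, h.det_pos']
  tauto

/-- the link of a vertex is run through in the opposite sense -/
theorem delc_link_neg {g : ℂ → ℂ} {r : ℝ} (h : DelSimN g r) (Y : Set ℂ) (v : ℂ) {b b' : ℂ}
    (H : Relation.ReflTransGen (fun x y => DelTri Y v x y) b b') :
    Relation.ReflTransGen (fun x y => DelTri (g '' Y) (g v) y x) (g b) (g b') :=
  H.lift g fun x y hxy => (delc_tri_neg h Y v x y).2 hxy

/-! ## 4. barycentres and midpoints for the concrete maps -/

theorem delc_bar_affine (α β a b c : ℂ) : delBar (α * a + β) (α * b + β) (α * c + β) = α * delBar a b c + β := by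
  unfold delBar; ring

theorem delc_bar_vorSim (α β a b c : ℂ) : delBar (vorSim α β a) (vorSim α β b) (vorSim α β c) = vorSim α β (delBar a b c) :=
  delc_bar_affine α β a b c

theorem delc_bar_add (β a b c : ℂ) : delBar (a + β) (b + β) (c + β) = delBar a b c + β := by
  unfold delBar; ring

theorem delc_bar_mul (α a b c : ℂ) : delBar (α * a) (α * b) (α * c) = α * delBar a b c := by
  unfold delBar; ring

theorem delc_bar_smul (t : ℝ) (a b c : ℂ) : delBar (t • a) (t • b) (t • c) = t • delBar a b c := by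
  simp only [Complex.real_smul]; exact delc_bar_mul _ a b c

theorem delc_bar_conj (a b c : ℂ) :
    delBar ((starRingEnd ℂ) a) ((starRingEnd ℂ) b) ((starRingEnd ℂ) c) = (starRingEnd ℂ) (delBar a b c) := by
  unfold delBar
  rw [map_div₀, map_add, map_add, map_ofNat]

theorem delc_bar_perm (a b c : ℂ) : delBar a c b = delBar a b c := by
  unfold delBar; ring

theorem delc_bar_cyc (a b c : ℂ) : delBar b c a = delBar a b c := by
  unfold delBar; ring

/-! ## 5. coloured configurations: image under a map of the plane, colour flip -/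

theorem delc_conf_adj {g : ℂ → ℂ} {r : ℝ} (h : VorSim g r) (η : Conf PvPt) (a b : ℂ) :
    DelAdj (cfSites (Conf.image (Prod.map g id) η)) (g a) (g b) ↔ DelAdj (cfSites η) a b := by
  rw [vorc_sites_image]; exact delc_adj h _ a b

theorem delc_conf_tri {g : ℂ → ℂ} {r : ℝ} (h : DelSimP g r) (η : Conf PvPt) (a b c : ℂ) :
    DelTri (cfSites (Conf.image (Prod.map g id) η)) (g a) (g b) (g c) ↔ DelTri (cfSites η) a b c := by
  rw [vorc_sites_image]; exact delc_tri h _ a b c

theorem delc_conf_triIn {g : ℂ → ℂ} {r : ℝ} (h : DelSimP g r) (η : Conf PvPt) (K : Set ℂ) (a b c : ℂ) :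
    DelTriIn (cfSites (Conf.image (Prod.map g id) η)) (g '' K) (g a) (g b) (g c) ↔ DelTriIn (cfSites η) K a b c := by
  rw [vorc_sites_image]; exact delc_triIn h _ K a b c

theorem delc_conf_tri_neg {g : ℂ → ℂ} {r : ℝ} (h : DelSimN g r) (η : Conf PvPt) (a b c : ℂ) :
    DelTri (cfSites (Conf.image (Prod.map g id) η)) (g a) (g c) (g b) ↔ DelTri (cfSites η) a b c := by
  rw [vorc_sites_image]; exact delc_tri_neg h _ a b c

theorem delc_conf_triIn_neg {g : ℂ → ℂ} {r : ℝ} (h : DelSimN g r) (η : Conf PvPt) (K : Set ℂ) (a b c : ℂ) :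
    DelTriIn (cfSites (Conf.image (Prod.map g id) η)) (g '' K) (g a) (g c) (g b) ↔ DelTriIn (cfSites η) K a b c := by
  rw [vorc_sites_image]; exact delc_triIn_neg h _ K a b c

theorem delc_conf_apex {g : ℂ → ℂ} {r : ℝ} (h : DelSimP g r) {η : Conf PvPt} (hY : VorGP (cfSites η)) (a b : ℂ) :
    delApex (cfSites (Conf.image (Prod.map g id) η)) (g a) (g b) = g (delApex (cfSites η) a b) := by
  rw [vorc_sites_image]; exact delc_apex h hY a b

/-- the colour of the image point -/
theorem delc_conf_col {g : ℂ → ℂ} (hg : Function.Injective g) (η : Conf PvPt) (v : ℂ) (c : Bool) :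
    (g v, c) ∈ (Conf.image (Prod.map g id) η).pts ↔ (v, c) ∈ η.pts := by
  simp only [Conf.image, mem_image, Prod.map, id]
  constructor
  · rintro ⟨⟨w, c'⟩, hw, e⟩
    simp only [Prod.mk.injEq] at e
    obtain ⟨e1, rfl⟩ := e
    rwa [← hg e1]
  · intro hv
    exact ⟨(v, c), hv, rfl⟩

/-- the Delaunay complex does not see the colours -/
theorem delc_flip_adj (η : Conf PvPt) (a b : ℂ) : DelAdj (cfSites (Conf.image (Prod.map id not) η)) a b ↔ DelAdj (cfSites η) a b := by
  rw [vorc_sites_flip]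

theorem delc_flip_tri (η : Conf PvPt) (a b c : ℂ) : DelTri (cfSites (Conf.image (Prod.map id not) η)) a b c ↔ DelTri (cfSites η) a b c := by
  rw [vorc_sites_flip]

theorem delc_flip_triIn (η : Conf PvPt) (K : Set ℂ) (a b c : ℂ) :
    DelTriIn (cfSites (Conf.image (Prod.map id not) η)) K a b c ↔ DelTriIn (cfSites η) K a b c := by
  rw [vorc_sites_flip]

theorem delc_flip_apex (η : Conf PvPt) (a b : ℂ) : delApex (cfSites (Conf.image (Prod.map id not) η)) a b = delApex (cfSites η) a b := by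
  rw [vorc_sites_flip]

theorem delc_flip_I (η : Conf PvPt) (a b : ℂ) : delI (cfSites (Conf.image (Prod.map id not) η)) a b = delI (cfSites η) a b := by
  rw [vorc_sites_flip]

/-- the colour of a flipped point -/
theorem delc_flip_col (η : Conf PvPt) (v : ℂ) (c : Bool) : (v, c) ∈ (Conf.image (Prod.map id not) η).pts ↔ (v, !c) ∈ η.pts := by
  simp only [Conf.image, mem_image, Prod.map, id]
  constructor
  · rintro ⟨⟨w, c'⟩, hw, e⟩
    simp only [Prod.mk.injEq] at e
    obtain ⟨rfl, rfl⟩ := e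
    simpa using hw
  · intro hv
    exact ⟨(v, !c), hv, by simp⟩

/-! ## 6. areas -/

/-- the area of a positively oriented triangle is multiplied by `r²` (direct similarity) -/
theorem delc_volume {g : ℂ → ℂ} {r : ℝ} (h : DelSimP g r) {a b c : ℂ} (hd : 0 < vorDet a b c) :
    (MeasureTheory.volume (delT (g a) (g b) (g c))).toReal = r ^ 2 * (MeasureTheory.volume (delT a b c)).toReal := by
  rw [dela_volume_real ((h.det_pos a b c).2 hd), dela_volume_real hd, h.det]; ring

/-- the area of a positively oriented triangle is multiplied by `r²` (indirect similarity, transposed image) -/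
theorem delc_volume_neg {g : ℂ → ℂ} {r : ℝ} (h : DelSimN g r) {a b c : ℂ} (hd : 0 < vorDet a b c) :
    (MeasureTheory.volume (delT (g a) (g c) (g b))).toReal = r ^ 2 * (MeasureTheory.volume (delT a b c)).toReal := by
  rw [dela_volume_real ((h.det_pos a b c).2 hd), dela_volume_real hd, h.det_acb]; ring

/-- the image of a triangle has the expected area, as a set -/
theorem delc_volume_image {g : ℂ → ℂ} {r : ℝ} (h : DelSimP g r) {a b c : ℂ} (hd : 0 < vorDet a b c) :
    (MeasureTheory.volume (g '' delT a b c)).toReal = r ^ 2 * (MeasureTheory.volume (delT a b c)).toReal := by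
  rw [← delc_T h]; exact delc_volume h hd

end Claimed.Agent.R289
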