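import Claimed.Agent.R289.Del.Wind

/-!
# Row 289 (S0537), box DEL-ORD (head helper253), file Del/OrdArg : ORIENTATION OF A CYCLE BY ARGUMENTS      (owner helper135; prefix `doa_`)

`T : PvMap`, `c : T.Cyc` with `Left` finite and POSITIVELY drawn by `pos` (`DelwPos`), `z0` a point off the lines of the edges of `Left`.
`P v = q v * (pos v - z0)` with `q` nonvanishing and slowly varying along the edges of `Left` (in the use: `P = g ∘ pos`, `g` the chart with `g z0 = 0`, `q = g(z)/(z - z0)`).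
**`doa_main`**:   `0 ≤ ∑_{i<n} arg (P c_{i+1} / P c_i)`:   the image polygon does not turn clockwise round `0`.
No Jordan curve theorem, no homotopy: the discrete Green formula (`doa_green`, local form of `delw_green`) applied twice.
* sec. 1  arguments: `doa_arg_inv`, `doa_arg_mul` (right half plane), `doa_re_pos` (`‖b - a‖ ≤ ‖a‖/4 ⟹ 0 < re (b/a)`), `doa_arg3_zero` (three ratios in the right half plane with product `1`)
* sec. 2  **ARG LEMMA** `doa_arg_tri`: `a b c` positively oriented, `z0` off the three lines ⟹ `0 ≤ arg (b'/a') + arg (c'/b') + arg (a'/c')` (`x' = x - z0`);   `doa_arg_tri_cases`: the sum is `0` or `2π`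
* sec. 3  Green with a LOCAL antisymmetry hypothesis, Stokes
* sec. 5  **`doa_main_det`** = `doa_main` WITHOUT the hypothesis `vorDet ≠ 0` (only `pos c_i ≠ z0`): THE FORM TO USE for `pvg_ord` (typed for every `DelGood Y`)
* sec. 4  the two dart functions, `doa_sum_q = 0`, `0 ≤ doa_sum_pos`, `doa_main`;   EXACT FORMS: `doa_sum_pos_eq` (`= 2π` if `z0` lies in exactly one open face of `Left`), `doa_sum_pos_zero`, **`doa_main_eq`** (`∑ arg = 2π`), `doa_turn_int` (always in `2π ℤ`)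
-/

set_option autoImplicit false

namespace Claimed.Agent.R289

open Set Complex

/-! ## 1. arguments -/

theorem doa_arg_inv {w : ℂ} (h : w.arg ≠ Real.pi) : (w⁻¹).arg = -w.arg := by
  rw [Complex.arg_inv, if_neg h]

theorem doa_arg_ne_pi_of_re {w : ℂ} (h : 0 < w.re) : w.arg ≠ Real.pi := by
  intro e
  exact absurd (Complex.arg_eq_pi_iff.1 e).1 (not_lt.2 h.le)

theorem doa_arg_ne_pi_of_im {w : ℂ} (h : w.im ≠ 0) : w.arg ≠ Real.pi := by
  intro e
  exact h (Complex.arg_eq_pi_iff.1 e).2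

theorem doa_ne_zero_of_re {w : ℂ} (h : 0 < w.re) : w ≠ 0 := by
  rintro rfl
  simp at h

theorem doa_abs_arg_lt {w : ℂ} (h : 0 < w.re) : |w.arg| < Real.pi / 2 := Complex.abs_arg_lt_pi_div_two_iff.2 (Or.inl h)

/-- arguments add in the right half plane -/
theorem doa_arg_mul {w w' : ℂ} (h : 0 < w.re) (h' : 0 < w'.re) : (w * w').arg = w.arg + w'.arg := by
  have h1 := abs_lt.1 (doa_abs_arg_lt h)
  have h2 := abs_lt.1 (doa_abs_arg_lt h')
  exact Complex.arg_mul (doa_ne_zero_of_re h) (doa_ne_zero_of_re h') ⟨by linarith [h1.1, h2.1], by linarith [h1.2, h2.2]⟩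

/-- a small relative increment keeps the ratio in the right half plane -/
theorem doa_re_pos {a b : ℂ} (ha : a ≠ 0) (h : ‖b - a‖ ≤ ‖a‖ / 4) : 0 < (b / a).re := by
  have e : b / a = 1 + (b - a) / a := by field_simp; ring
  have hn : ‖(b - a) / a‖ ≤ 1 / 4 := by
    rw [norm_div, div_le_iff₀ (norm_pos_iff.2 ha)]; linarith
  have h1 : -‖(b - a) / a‖ ≤ ((b - a) / a).re := by
    have := Complex.abs_re_le_norm ((b - a) / a)
    exact (abs_le.1 this).1
  rw [e, Complex.add_re, Complex.one_re]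
  linarith

/-- three ratios in the right half plane with product one -/
theorem doa_arg3_zero {w1 w2 w3 : ℂ} (h1 : 0 < w1.re) (h2 : 0 < w2.re) (h3 : 0 < w3.re) (hp : w1 * w2 * w3 = 1) : w1.arg + w2.arg + w3.arg = 0 := by
  have e : w1 * w2 = w3⁻¹ := eq_inv_of_mul_eq_one_left hp
  have := doa_arg_mul h1 h2
  rw [e, doa_arg_inv (doa_arg_ne_pi_of_re h3)] at this
  linarith

/-! ## 2. the ARG LEMMA -/

/-- imaginary part of a ratio = determinant -/
theorem doa_im_ratio (a b z : ℂ) : ((b - z) / (a - z)).im = vorDet a b z / Complex.normSq (a - z) := by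
  rw [Complex.div_im]
  simp only [vorDet, Complex.sub_re, Complex.sub_im]
  ring

theorem doa_ne_of_det {a b z : ℂ} (h : vorDet a b z ≠ 0) : a - z ≠ 0 ∧ b - z ≠ 0 := by
  constructor
  · intro e
    apply h
    have : a = z := sub_eq_zero.1 e
    subst this
    simp only [vorDet]; ring
  · intro e
    apply h
    have : b = z := sub_eq_zero.1 e
    subst this
    simp only [vorDet]; ring

theorem doa_im_pos {a b z : ℂ} (h : 0 < vorDet a b z) : 0 < ((b - z) / (a - z)).im := by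
  rw [doa_im_ratio]
  exact div_pos h (Complex.normSq_pos.2 (doa_ne_of_det h.ne').1)

theorem doa_im_neg {a b z : ℂ} (h : vorDet a b z < 0) : ((b - z) / (a - z)).im < 0 := by
  rw [doa_im_ratio]
  exact div_neg_of_neg_of_pos h (Complex.normSq_pos.2 (doa_ne_of_det h.ne).1)

theorem doa_im_ne {a b z : ℂ} (h : vorDet a b z ≠ 0) : ((b - z) / (a - z)).im ≠ 0 := by
  rcases lt_or_gt_of_ne h with h1 | h1
  · exact (doa_im_neg h1).ne
  · exact (doa_im_pos h1).ne'

/-- the argument of the ratio has the sign of the determinant -/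
theorem doa_arg_pos {a b z : ℂ} (h : 0 < vorDet a b z) : 0 < ((b - z) / (a - z)).arg := by
  have h1 := doa_im_pos h
  rcases (Complex.arg_nonneg_iff.2 h1.le).lt_or_eq with h2 | h2
  · exact h2
  · exfalso
    have := Complex.arg_eq_zero_iff.1 h2.symm
    exact h1.ne' this.2

/-- the sum of the three arguments is a multiple of `2π` -/
theorem doa_arg3_int {w1 w2 w3 : ℂ} (h1 : w1 ≠ 0) (h2 : w2 ≠ 0) (h3 : w3 ≠ 0) (hp : w1 * w2 * w3 = 1) : ∃ k : ℤ, w1.arg + w2.arg + w3.arg = 2 * Real.pi * k := by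
  have e : ((w1.arg + w2.arg + w3.arg : ℝ) : Real.Angle) = ((0 : ℝ) : Real.Angle) := by
    rw [Real.Angle.coe_add, Real.Angle.coe_add, ← Complex.arg_mul_coe_angle h1 h2, ← Complex.arg_mul_coe_angle (mul_ne_zero h1 h2) h3, hp, Complex.arg_one]
  obtain ⟨k, hk⟩ := Real.Angle.angle_eq_iff_two_pi_dvd_sub.1 e
  exact ⟨k, by linarith⟩

theorem doa_ratio3 {a b c z : ℂ} (ha : a - z ≠ 0) (hb : b - z ≠ 0) (hc : c - z ≠ 0) : (b - z) / (a - z) * ((c - z) / (b - z)) * ((a - z) / (c - z)) = 1 := by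
  field_simp

/-- **ARG LEMMA**: the sum of the three arguments seen from `z` is `0` or `2π` for a positively oriented triangle -/
theorem doa_arg_tri_cases {a b c z : ℂ} (hD : 0 < vorDet a b c) (h1 : vorDet a b z ≠ 0) (h2 : vorDet b c z ≠ 0) (_h3 : vorDet c a z ≠ 0) :
    ((b - z) / (a - z)).arg + ((c - z) / (b - z)).arg + ((a - z) / (c - z)).arg = 0 ∨
      ((b - z) / (a - z)).arg + ((c - z) / (b - z)).arg + ((a - z) / (c - z)).arg = 2 * Real.pi := by
  have ha := (doa_ne_of_det h1).1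
  have hb := (doa_ne_of_det h1).2
  have hc := (doa_ne_of_det h2).2
  obtain ⟨k, hk⟩ := doa_arg3_int (div_ne_zero hb ha) (div_ne_zero hc hb) (div_ne_zero ha hc) (doa_ratio3 ha hb hc)
  have hpi := Real.pi_pos
  have l1 := Complex.neg_pi_lt_arg ((b - z) / (a - z))
  have l2 := Complex.neg_pi_lt_arg ((c - z) / (b - z))
  have l3 := Complex.neg_pi_lt_arg ((a - z) / (c - z))
  have u1 := Complex.arg_le_pi ((b - z) / (a - z))
  have u2 := Complex.arg_le_pi ((c - z) / (b - z))
  have u3 := Complex.arg_le_pi ((a - z) / (c - z))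
  have n1 := doa_arg_ne_pi_of_im (doa_im_ne h1)
  -- one of the three determinants is positive
  have hs := dela_det_sum a b c z
  have hlow : -(2 * Real.pi) < ((b - z) / (a - z)).arg + ((c - z) / (b - z)).arg + ((a - z) / (c - z)).arg := by
    by_cases p1 : 0 < vorDet a b z
    · have := doa_arg_pos p1; linarith
    · by_cases p2 : 0 < vorDet b c z
      · have := doa_arg_pos p2; linarith
      · have p3 : 0 < vorDet c a z := by linarith [not_lt.1 p1, not_lt.1 p2]
        have := doa_arg_pos p3; linarith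
  have hup : ((b - z) / (a - z)).arg + ((c - z) / (b - z)).arg + ((a - z) / (c - z)).arg < 3 * Real.pi := by
    have : ((b - z) / (a - z)).arg < Real.pi := lt_of_le_of_ne u1 n1
    linarith
  rw [hk] at hlow hup ⊢
  have k1 : (-1 : ℝ) < k := by
    by_contra hn
    have : (k : ℝ) ≤ -1 := not_lt.1 hn
    nlinarith
  have k2 : (k : ℝ) < 2 := by
    by_contra hn
    have : (2 : ℝ) ≤ k := not_lt.1 hn
    nlinarith
  have k1' : (-1 : ℤ) < k := by exact_mod_cast k1
  have k2' : k < 2 := by exact_mod_cast k2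
  have : k = 0 ∨ k = 1 := by omega
  rcases this with rfl | rfl
  · left; simp
  · right; simp

theorem doa_arg_tri {a b c z : ℂ} (hD : 0 < vorDet a b c) (h1 : vorDet a b z ≠ 0) (h2 : vorDet b c z ≠ 0) (h3 : vorDet c a z ≠ 0) :
    0 ≤ ((b - z) / (a - z)).arg + ((c - z) / (b - z)).arg + ((a - z) / (c - z)).arg := by
  rcases doa_arg_tri_cases hD h1 h2 h3 with e | e <;> rw [e]
  have := Real.pi_pos; linarith

theorem doa_arg_neg {a b z : ℂ} (h : vorDet a b z < 0) : ((b - z) / (a - z)).arg < 0 := Complex.arg_neg_iff.2 (doa_im_neg h)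

theorem doa_arg_lt_pi {a b z : ℂ} (h : vorDet a b z ≠ 0) : ((b - z) / (a - z)).arg < Real.pi :=
  lt_of_le_of_ne (Complex.arg_le_pi _) (doa_arg_ne_pi_of_im (doa_im_ne h))

/-- seen from a point of the open triangle the three arguments add up to a full turn -/
theorem doa_arg_tri_in {a b c z : ℂ} (hD : 0 < vorDet a b c) (hz : z ∈ delTo a b c) :
    ((b - z) / (a - z)).arg + ((c - z) / (b - z)).arg + ((a - z) / (c - z)).arg = 2 * Real.pi := by
  obtain ⟨h1, h2, h3⟩ := hz
  rcases doa_arg_tri_cases hD h1.ne' h2.ne' h3.ne' with e | e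
  · have p1 := doa_arg_pos h1
    have p2 := doa_arg_pos h2
    have p3 := doa_arg_pos h3
    linarith
  · exact e

/-- seen from a point off the open triangle (and off the three lines) the three arguments cancel -/
theorem doa_arg_tri_out {a b c z : ℂ} (hD : 0 < vorDet a b c) (h1 : vorDet a b z ≠ 0) (h2 : vorDet b c z ≠ 0) (h3 : vorDet c a z ≠ 0) (hz : z ∉ delTo a b c) :
    ((b - z) / (a - z)).arg + ((c - z) / (b - z)).arg + ((a - z) / (c - z)).arg = 0 := by
  rcases doa_arg_tri_cases hD h1 h2 h3 with e | e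
  · exact e
  · exfalso
    have u1 := doa_arg_lt_pi h1
    have u2 := doa_arg_lt_pi h2
    have u3 := doa_arg_lt_pi h3
    have : vorDet a b z < 0 ∨ vorDet b c z < 0 ∨ vorDet c a z < 0 := by
      by_contra hn
      simp only [not_or, not_lt] at hn
      exact hz ⟨lt_of_le_of_ne hn.1 h1.symm, lt_of_le_of_ne hn.2.1 h2.symm, lt_of_le_of_ne hn.2.2 h3.symm⟩
    rcases this with n | n | n
    · have := doa_arg_neg n; linarith
    · have := doa_arg_neg n; linarith
    · have := doa_arg_neg n; linarith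

/-- the arguments of a closed chain of nonzero ratios add up to a multiple of `2π` -/
theorem doa_sum_arg_angle (n : ℕ) (w : ℕ → ℂ) (hw : ∀ i < n, w i ≠ 0) :
    ((∑ i ∈ Finset.range n, (w i).arg : ℝ) : Real.Angle) = ((∏ i ∈ Finset.range n, w i).arg : Real.Angle) := by
  induction n with
  | zero => simp
  | succ n ih =>
    rw [Finset.sum_range_succ, Finset.prod_range_succ, Real.Angle.coe_add, ih fun i hi => hw i (Nat.lt_succ_of_lt hi),
      Complex.arg_mul_coe_angle (Finset.prod_ne_zero_iff.2 fun i hi => hw i (Nat.lt_succ_of_lt (Finset.mem_range.1 hi))) (hw n (Nat.lt_succ_self n))]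

theorem doa_prod_tel (n : ℕ) (f : ℕ → ℂ) (hf : ∀ i, f i ≠ 0) : ∏ i ∈ Finset.range n, f (i + 1) / f i = f n / f 0 := by
  induction n with
  | zero => simp [hf 0]
  | succ n ih =>
    rw [Finset.prod_range_succ, ih]
    have := hf n
    field_simp

theorem doa_sum_arg_int (n : ℕ) (w : ℕ → ℂ) (hw : ∀ i < n, w i ≠ 0) (hp : ∏ i ∈ Finset.range n, w i = 1) :
    ∃ k : ℤ, ∑ i ∈ Finset.range n, (w i).arg = 2 * Real.pi * k := by
  have e := doa_sum_arg_angle n w hw
  rw [hp, Complex.arg_one] at e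
  obtain ⟨k, hk⟩ := Real.Angle.angle_eq_iff_two_pi_dvd_sub.1 e
  exact ⟨k, by linarith⟩

/-! ## 3. Green and Stokes with a LOCAL antisymmetry hypothesis -/

section Green

variable {V D : Type} {T : PvMap V D}

/-- **boundary sum**: the inner edges of the disc cancel; antisymmetry is asked on the inner edges only -/
theorem doa_green {G : Type*} [AddCommGroup G] (hT : T.IsSph) (c : T.Cyc) (hfin : c.Left.Finite) (f : D → G)
    (hs : ∀ d ∈ c.Left, T.opp d ∈ c.Left → f (T.opp d) = -f d) : ∑ d ∈ hfin.toFinset, f d = ∑ i ∈ Finset.range c.n, f (c.e i) := by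
  classical
  -- cut `f` off the inner edges and the boundary darts
  let f' : D → G := fun d => if d ∈ c.Left then f d else if T.opp d ∈ c.Left then -f (T.opp d) else 0
  have hs' : ∀ d, f' (T.opp d) = -f' d := by
    intro d
    simp only [f', T.opp_opp]
    by_cases h1 : d ∈ c.Left <;> by_cases h2 : T.opp d ∈ c.Left
    · rw [if_pos h2, if_pos h1]; exact hs d h1 h2
    · rw [if_neg h2, if_pos h1, if_pos h1]
    · rw [if_pos h2, if_neg h1, if_pos h2, neg_neg]
    · rw [if_neg h2, if_neg h1, if_neg h1, if_neg h2, neg_zero]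
  have h := delw_green hT c hfin f' hs'
  have j2 := (pl_jordan hT c).2.1
  rw [Finset.sum_congr rfl (fun d hd => (if_pos (hfin.mem_toFinset.1 hd) : f' d = f d)),
    Finset.sum_congr rfl (fun i _ => (if_pos (j2 i) : f' (c.e i) = f (c.e i)))] at h
  exact h

/-- **Stokes**: three times the boundary sum = the sum over the darts of the disc of the face sums -/
theorem doa_stokes {G : Type*} [AddCommGroup G] (hT : T.IsSph) (c : T.Cyc) (hfin : c.Left.Finite) (f : D → G)
    (hs : ∀ d ∈ c.Left, T.opp d ∈ c.Left → f (T.opp d) = -f d) :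
    (3 : ℕ) • ∑ i ∈ Finset.range c.n, f (c.e i) = ∑ d ∈ hfin.toFinset, (f d + f (T.nxt d) + f (T.nxt (T.nxt d))) := by
  have hA := pl_left_face c
  rw [← doa_green hT c hfin f hs, Finset.sum_add_distrib, Finset.sum_add_distrib, delw_sum_nxt hA hfin (fun d => f (T.nxt d)), delw_sum_nxt hA hfin f]
  abel

/-! ## 4. the two dart functions and the main statement -/

/-- turning of `pos - z0` along the dart -/
noncomputable def doaA (T : PvMap V D) (pos : V → ℂ) (z0 : ℂ) (d : D) : ℝ := ((pos (T.tgt d) - z0) / (pos (T.src d) - z0)).arg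

/-- turning of `q` along the dart -/
noncomputable def doaB (T : PvMap V D) (q : V → ℂ) (d : D) : ℝ := (q (T.tgt d) / q (T.src d)).arg

theorem doa_eqns_cite : True := by
  have := @doaA.eq_1; have := @doaB.eq_1
  trivial

theorem doa_left_nxt (c : T.Cyc) {d : D} (hd : d ∈ c.Left) : T.nxt d ∈ c.Left := (pl_left_face c d).2 hd

theorem doa_A_anti {pos : V → ℂ} {z0 : ℂ} {d : D} (hz : vorDet (pos (T.src d)) (pos (T.tgt d)) z0 ≠ 0) : doaA T pos z0 (T.opp d) = -doaA T pos z0 d := by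
  unfold doaA
  rw [T.src_opp', T.tgt_opp, ← doa_arg_inv (doa_arg_ne_pi_of_im (doa_im_ne hz)), inv_div]

theorem doa_B_anti {q : V → ℂ} {d : D} (h : 0 < (q (T.tgt d) / q (T.src d)).re) : doaB T q (T.opp d) = -doaB T q d := by
  unfold doaB
  rw [T.src_opp', T.tgt_opp, ← doa_arg_inv (doa_arg_ne_pi_of_re h), inv_div]

/-- the slowly varying factor does not turn -/
theorem doa_sum_q (hT : T.IsSph) (c : T.Cyc) (hfin : c.Left.Finite) {q : V → ℂ} (hq0 : ∀ d ∈ c.Left, q (T.src d) ≠ 0)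
    (hq : ∀ d ∈ c.Left, ‖q (T.tgt d) - q (T.src d)‖ ≤ ‖q (T.src d)‖ / 4) : ∑ i ∈ Finset.range c.n, doaB T q (c.e i) = 0 := by
  have hre : ∀ d ∈ c.Left, 0 < (q (T.tgt d) / q (T.src d)).re := fun d hd => doa_re_pos (hq0 d hd) (hq d hd)
  have h := doa_stokes hT c hfin (doaB T q) (fun d hd _ => doa_B_anti (hre d hd))
  have h0 : ∑ d ∈ hfin.toFinset, (doaB T q d + doaB T q (T.nxt d) + doaB T q (T.nxt (T.nxt d))) = 0 := by
    refine Finset.sum_eq_zero fun d hd => ?_
    have hd0 := hfin.mem_toFinset.1 hd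
    have hd1 := doa_left_nxt c hd0
    have hd2 := doa_left_nxt c hd1
    refine doa_arg3_zero (hre d hd0) (hre _ hd1) (hre _ hd2) ?_
    have n0 := hq0 d hd0
    have n1 := hq0 _ hd1
    have n2 := hq0 _ hd2
    rw [T.tgt_nxt2, T.tgt_nxt, T.src_nxt2]
    rw [T.src_nxt] at n1 ⊢
    rw [T.src_nxt2] at n2
    field_simp
  rw [h0] at h
  simpa using h

/-- the positively drawn disc does not turn clockwise round `z0` -/
theorem doa_sum_pos (hT : T.IsSph) (c : T.Cyc) (hfin : c.Left.Finite) {pos : V → ℂ} {z0 : ℂ} (hp : DelwPos T pos c.Left)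
    (hz : ∀ d ∈ c.Left, vorDet (pos (T.src d)) (pos (T.tgt d)) z0 ≠ 0) : 0 ≤ ∑ i ∈ Finset.range c.n, doaA T pos z0 (c.e i) := by
  have h := doa_stokes hT c hfin (doaA T pos z0) (fun d hd _ => doa_A_anti (hz d hd))
  have h0 : 0 ≤ ∑ d ∈ hfin.toFinset, (doaA T pos z0 d + doaA T pos z0 (T.nxt d) + doaA T pos z0 (T.nxt (T.nxt d))) := by
    refine Finset.sum_nonneg fun d hd => ?_
    have hd0 := hfin.mem_toFinset.1 hd
    have hd1 := doa_left_nxt c hd0
    have hd2 := doa_left_nxt c hd1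
    have z0' := hz d hd0
    have z1 := hz _ hd1
    have z2 := hz _ hd2
    rw [T.src_nxt, T.tgt_nxt] at z1
    rw [T.src_nxt2, T.tgt_nxt2] at z2
    have := doa_arg_tri (hp d hd0) z0' z1 z2
    unfold doaA
    rw [T.src_nxt, T.tgt_nxt, T.src_nxt2, T.tgt_nxt2]
    exact this
  rw [← h] at h0
  have : (3 : ℕ) • ∑ i ∈ Finset.range c.n, doaA T pos z0 (c.e i) = 3 * ∑ i ∈ Finset.range c.n, doaA T pos z0 (c.e i) := by simp
  rw [this] at h0
  linarith

/-- **ORIENTATION**: the polygon `P ∘ c`, `P = q · (pos - z0)`, does not turn clockwise round `0` -/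
theorem doa_main (hT : T.IsSph) (c : T.Cyc) (hfin : c.Left.Finite) {pos P q : V → ℂ} {z0 : ℂ} (hp : DelwPos T pos c.Left)
    (hz : ∀ d ∈ c.Left, vorDet (pos (T.src d)) (pos (T.tgt d)) z0 ≠ 0)
    (hP : ∀ i, P (T.src (c.e i)) = q (T.src (c.e i)) * (pos (T.src (c.e i)) - z0))
    (hq0 : ∀ d ∈ c.Left, q (T.src d) ≠ 0)
    (hq : ∀ d ∈ c.Left, ‖q (T.tgt d) - q (T.src d)‖ ≤ ‖q (T.src d)‖ / 4)
    (hc : ∀ i, ‖pos (T.tgt (c.e i)) - pos (T.src (c.e i))‖ ≤ ‖pos (T.src (c.e i)) - z0‖ / 4) :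
    0 ≤ ∑ i ∈ Finset.range c.n, (P (T.tgt (c.e i)) / P (T.src (c.e i))).arg := by
  have j2 := (pl_jordan hT c).2.1
  have e : ∀ i, (P (T.tgt (c.e i)) / P (T.src (c.e i))).arg = doaA T pos z0 (c.e i) + doaB T q (c.e i) := by
    intro i
    have hPt : P (T.tgt (c.e i)) = q (T.tgt (c.e i)) * (pos (T.tgt (c.e i)) - z0) := by
      rw [c.chain i]; exact hP (i + 1)
    have n1 := (doa_ne_of_det (hz _ (j2 i))).1
    have r1 : 0 < ((pos (T.tgt (c.e i)) - z0) / (pos (T.src (c.e i)) - z0)).re := by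
      refine doa_re_pos n1 ?_
      rw [sub_sub_sub_cancel_right]; exact hc i
    have r2 : 0 < (q (T.tgt (c.e i)) / q (T.src (c.e i))).re := doa_re_pos (hq0 _ (j2 i)) (hq _ (j2 i))
    unfold doaA doaB
    rw [← doa_arg_mul r1 r2, hPt, hP i]
    congr 1
    have := hq0 _ (j2 i)
    field_simp
  rw [Finset.sum_congr rfl fun i _ => e i, Finset.sum_add_distrib, doa_sum_q hT c hfin hq0 hq, add_zero]
  exact doa_sum_pos hT c hfin hp hz

/-- the total turning round `z0` is a full turn if `z0` lies in exactly one open face of the disc -/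
theorem doa_sum_pos_eq (hT : T.IsSph) (c : T.Cyc) (hfin : c.Left.Finite) {pos : V → ℂ} {z0 : ℂ} (hp : DelwPos T pos c.Left)
    (hz : ∀ d ∈ c.Left, vorDet (pos (T.src d)) (pos (T.tgt d)) z0 ≠ 0) {d₀ : D} (hd₀ : d₀ ∈ c.Left)
    (hz₀ : z0 ∈ delTo (pos (T.src d₀)) (pos (T.tgt d₀)) (pos (T.apex d₀)))
    (hu : ∀ d ∈ c.Left, z0 ∈ delTo (pos (T.src d)) (pos (T.tgt d)) (pos (T.apex d)) → T.SF d₀ d) :
    ∑ i ∈ Finset.range c.n, doaA T pos z0 (c.e i) = 2 * Real.pi := by
  classical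
  have h := doa_stokes hT c hfin (doaA T pos z0) (fun d hd _ => doa_A_anti (hz d hd))
  have hd1 := doa_left_nxt c hd₀
  have hd2 := doa_left_nxt c hd1
  -- the face sum of a dart of the disc
  have face : ∀ d ∈ c.Left, doaA T pos z0 d + doaA T pos z0 (T.nxt d) + doaA T pos z0 (T.nxt (T.nxt d)) =
      if z0 ∈ delTo (pos (T.src d)) (pos (T.tgt d)) (pos (T.apex d)) then 2 * Real.pi else 0 := by
    intro d hd
    have e1 := doa_left_nxt c hd
    have e2 := doa_left_nxt c e1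
    have z0' := hz d hd
    have z1 := hz _ e1
    have z2 := hz _ e2
    rw [T.src_nxt, T.tgt_nxt] at z1
    rw [T.src_nxt2, T.tgt_nxt2] at z2
    unfold doaA
    rw [T.src_nxt, T.tgt_nxt, T.src_nxt2, T.tgt_nxt2]
    split_ifs with hin
    · exact doa_arg_tri_in (hp d hd) hin
    · exact doa_arg_tri_out (hp d hd) z0' z1 z2 hin
  have hz1 : z0 ∈ delTo (pos (T.src (T.nxt d₀))) (pos (T.tgt (T.nxt d₀))) (pos (T.apex (T.nxt d₀))) := by
    rw [T.src_nxt, T.tgt_nxt, T.apex_nxt, dela_open_cyc]; exact hz₀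
  have hz2 : z0 ∈ delTo (pos (T.src (T.nxt (T.nxt d₀)))) (pos (T.tgt (T.nxt (T.nxt d₀)))) (pos (T.apex (T.nxt (T.nxt d₀)))) := by
    rw [T.src_nxt2, T.tgt_nxt2, T.apex_nxt2, dela_open_cyc, dela_open_cyc]; exact hz₀
  have hne1 : T.nxt d₀ ≠ d₀ := fun e => T.src_ne d₀ (by rw [e])
  have hne2 : T.nxt (T.nxt d₀) ≠ T.nxt d₀ := fun e => T.src_ne (T.nxt d₀) (by rw [e])
  have hne3 : T.nxt (T.nxt d₀) ≠ d₀ := by
    intro e
    have := T.nxt3 d₀
    rw [e] at this
    exact hne1 this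
  have hsub : ({d₀, T.nxt d₀, T.nxt (T.nxt d₀)} : Finset D) ⊆ hfin.toFinset := by
    intro x hx
    simp only [Finset.mem_insert, Finset.mem_singleton] at hx
    rw [hfin.mem_toFinset]
    rcases hx with rfl | rfl | rfl
    · exact hd₀
    · exact hd1
    · exact hd2
  have h0 : ∑ d ∈ hfin.toFinset, (doaA T pos z0 d + doaA T pos z0 (T.nxt d) + doaA T pos z0 (T.nxt (T.nxt d))) = 3 * (2 * Real.pi) := by
    rw [← Finset.sum_subset hsub]
    · rw [Finset.sum_insert, Finset.sum_insert, Finset.sum_singleton, face _ hd₀, face _ hd1, face _ hd2, if_pos hz₀, if_pos hz1, if_pos hz2]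
      · ring
      · rw [Finset.mem_singleton]; exact hne2.symm
      · simp only [Finset.mem_insert, Finset.mem_singleton, not_or]
        exact ⟨hne1.symm, hne3.symm⟩
    · intro x hx hx'
      have hxL := hfin.mem_toFinset.1 hx
      rw [face x hxL, if_neg]
      intro hin
      apply hx'
      simp only [Finset.mem_insert, Finset.mem_singleton]
      exact hu x hxL hin
  rw [h0] at h
  have e3 : (3 : ℕ) • ∑ i ∈ Finset.range c.n, doaA T pos z0 (c.e i) = 3 * ∑ i ∈ Finset.range c.n, doaA T pos z0 (c.e i) := by simp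
  rw [e3] at h
  linarith

/-- the total turning round `z0` vanishes if `z0` lies in no open face of the disc -/
theorem doa_sum_pos_zero (hT : T.IsSph) (c : T.Cyc) (hfin : c.Left.Finite) {pos : V → ℂ} {z0 : ℂ} (hp : DelwPos T pos c.Left)
    (hz : ∀ d ∈ c.Left, vorDet (pos (T.src d)) (pos (T.tgt d)) z0 ≠ 0)
    (hu : ∀ d ∈ c.Left, z0 ∉ delTo (pos (T.src d)) (pos (T.tgt d)) (pos (T.apex d))) :
    ∑ i ∈ Finset.range c.n, doaA T pos z0 (c.e i) = 0 := by
  have h := doa_stokes hT c hfin (doaA T pos z0) (fun d hd _ => doa_A_anti (hz d hd))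
  have h0 : ∑ d ∈ hfin.toFinset, (doaA T pos z0 d + doaA T pos z0 (T.nxt d) + doaA T pos z0 (T.nxt (T.nxt d))) = 0 := by
    refine Finset.sum_eq_zero fun d hd => ?_
    have hd0 := hfin.mem_toFinset.1 hd
    have e1 := doa_left_nxt c hd0
    have e2 := doa_left_nxt c e1
    have z0' := hz d hd0
    have z1 := hz _ e1
    have z2 := hz _ e2
    rw [T.src_nxt, T.tgt_nxt] at z1
    rw [T.src_nxt2, T.tgt_nxt2] at z2
    unfold doaA
    rw [T.src_nxt, T.tgt_nxt, T.src_nxt2, T.tgt_nxt2]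
    exact doa_arg_tri_out (hp d hd0) z0' z1 z2 (hu d hd0)
  rw [h0] at h
  simpa using h

/-- the splitting of the turning of `P` along the cycle -/
theorem doa_split (hT : T.IsSph) (c : T.Cyc) {pos P q : V → ℂ} {z0 : ℂ}
    (hz : ∀ d ∈ c.Left, vorDet (pos (T.src d)) (pos (T.tgt d)) z0 ≠ 0)
    (hP : ∀ i, P (T.src (c.e i)) = q (T.src (c.e i)) * (pos (T.src (c.e i)) - z0))
    (hq0 : ∀ d ∈ c.Left, q (T.src d) ≠ 0)
    (hq : ∀ d ∈ c.Left, ‖q (T.tgt d) - q (T.src d)‖ ≤ ‖q (T.src d)‖ / 4)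
    (hc : ∀ i, ‖pos (T.tgt (c.e i)) - pos (T.src (c.e i))‖ ≤ ‖pos (T.src (c.e i)) - z0‖ / 4) (i : ℕ) :
    (P (T.tgt (c.e i)) / P (T.src (c.e i))).arg = doaA T pos z0 (c.e i) + doaB T q (c.e i) := by
  have j2 := (pl_jordan hT c).2.1
  have hPt : P (T.tgt (c.e i)) = q (T.tgt (c.e i)) * (pos (T.tgt (c.e i)) - z0) := by
    rw [c.chain i]; exact hP (i + 1)
  have n1 := (doa_ne_of_det (hz _ (j2 i))).1
  have r1 : 0 < ((pos (T.tgt (c.e i)) - z0) / (pos (T.src (c.e i)) - z0)).re := by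
    refine doa_re_pos n1 ?_
    rw [sub_sub_sub_cancel_right]; exact hc i
  have r2 : 0 < (q (T.tgt (c.e i)) / q (T.src (c.e i))).re := doa_re_pos (hq0 _ (j2 i)) (hq _ (j2 i))
  unfold doaA doaB
  rw [← doa_arg_mul r1 r2, hPt, hP i]
  congr 1
  have := hq0 _ (j2 i)
  field_simp

/-- **ORIENTATION, exact form**: if `z0` lies in exactly one open face of the disc, the polygon `P ∘ c` makes exactly ONE POSITIVE TURN round `0` -/
theorem doa_main_eq (hT : T.IsSph) (c : T.Cyc) (hfin : c.Left.Finite) {pos P q : V → ℂ} {z0 : ℂ} (hp : DelwPos T pos c.Left)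
    (hz : ∀ d ∈ c.Left, vorDet (pos (T.src d)) (pos (T.tgt d)) z0 ≠ 0)
    (hP : ∀ i, P (T.src (c.e i)) = q (T.src (c.e i)) * (pos (T.src (c.e i)) - z0))
    (hq0 : ∀ d ∈ c.Left, q (T.src d) ≠ 0)
    (hq : ∀ d ∈ c.Left, ‖q (T.tgt d) - q (T.src d)‖ ≤ ‖q (T.src d)‖ / 4)
    (hc : ∀ i, ‖pos (T.tgt (c.e i)) - pos (T.src (c.e i))‖ ≤ ‖pos (T.src (c.e i)) - z0‖ / 4)
    {d₀ : D} (hd₀ : d₀ ∈ c.Left) (hz₀ : z0 ∈ delTo (pos (T.src d₀)) (pos (T.tgt d₀)) (pos (T.apex d₀)))
    (hu : ∀ d ∈ c.Left, z0 ∈ delTo (pos (T.src d)) (pos (T.tgt d)) (pos (T.apex d)) → T.SF d₀ d) :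
    ∑ i ∈ Finset.range c.n, (P (T.tgt (c.e i)) / P (T.src (c.e i))).arg = 2 * Real.pi := by
  rw [Finset.sum_congr rfl fun i _ => doa_split hT c hz hP hq0 hq hc i, Finset.sum_add_distrib, doa_sum_q hT c hfin hq0 hq, add_zero]
  exact doa_sum_pos_eq hT c hfin hp hz hd₀ hz₀ hu

/-- the turning of ANY nonvanishing `P` along the cycle is a multiple of `2π` -/
theorem doa_turn_int (c : T.Cyc) {P : V → ℂ} (hP0 : ∀ i, P (T.src (c.e i)) ≠ 0) :
    ∃ k : ℤ, ∑ i ∈ Finset.range c.n, (P (T.tgt (c.e i)) / P (T.src (c.e i))).arg = 2 * Real.pi * k := by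
  refine doa_sum_arg_int c.n (fun i => P (T.tgt (c.e i)) / P (T.src (c.e i))) (fun i _ => ?_) ?_
  · refine div_ne_zero ?_ (hP0 i)
    rw [c.chain i]; exact hP0 (i + 1)
  · have : ∀ i, P (T.tgt (c.e i)) / P (T.src (c.e i)) = P (T.src (c.e (i + 1))) / P (T.src (c.e i)) := fun i => by rw [c.chain i]
    rw [Finset.prod_congr rfl fun i _ => this i, doa_prod_tel c.n (fun i => P (T.src (c.e i))) hP0]
    have hper : c.e c.n = c.e 0 := by simpa using c.per 0
    rw [hper]
    exact div_self (hP0 0)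

end Green

/-! ## 5. DETERMINISTIC FORM: no genericity of the base point (limit over generic base points in the `pos` factor only; `q` is fixed) -/

open Metric Filter Topology

/-- the complement of a line is open -/
theorem doa_gen_open (a b : ℂ) : IsOpen {z : ℂ | vorDet a b z ≠ 0} := by
  have hc : Continuous fun z : ℂ => vorDet a b z := by
    unfold vorDet
    fun_prop
  exact isOpen_ne_fun hc continuous_const

/-- the complement of a line is dense -/
theorem doa_gen_dense {a b : ℂ} (hab : a ≠ b) : Dense {z : ℂ | vorDet a b z ≠ 0} := by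
  intro z
  rw [Metric.mem_closure_iff]
  intro ε hε
  by_cases hz : vorDet a b z ≠ 0
  · exact ⟨z, hz, by simpa using hε⟩
  · rw [not_not] at hz
    have hw : b - a ≠ 0 := sub_ne_zero.2 hab.symm
    have hn : 0 < ‖b - a‖ := norm_pos_iff.2 hw
    set t : ℝ := ε / (2 * ‖b - a‖) with ht
    have ht0 : 0 < t := by positivity
    refine ⟨z + (t : ℂ) * (Complex.I * (b - a)), ?_, ?_⟩
    · show vorDet a b (z + (t : ℂ) * (Complex.I * (b - a))) ≠ 0
      have e : vorDet a b (z + (t : ℂ) * (Complex.I * (b - a))) = vorDet a b z + t * Complex.normSq (b - a) := by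
        unfold vorDet
        simp [Complex.normSq_apply]
        ring
      rw [e, hz, zero_add]
      exact (mul_pos ht0 (Complex.normSq_pos.2 hw)).ne'
    · rw [dist_eq_norm]
      have : z - (z + (t : ℂ) * (Complex.I * (b - a))) = -((t : ℂ) * (Complex.I * (b - a))) := by ring
      rw [this, norm_neg, norm_mul, norm_mul, Complex.norm_I, one_mul, Complex.norm_real, Real.norm_of_nonneg ht0.le, ht]
      have : ε / (2 * ‖b - a‖) * ‖b - a‖ = ε / 2 := by field_simp
      rw [this]; linarith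

section Det

variable {V D : Type} {T : PvMap V D}

/-- generic base points are dense -/
theorem doa_gen_dense_all {A : Set D} (hfin : A.Finite) {pos : V → ℂ} (hne : ∀ d ∈ A, pos (T.src d) ≠ pos (T.tgt d)) :
    Dense {z : ℂ | ∀ d ∈ A, vorDet (pos (T.src d)) (pos (T.tgt d)) z ≠ 0} := by
  have h := dense_biInter_of_isOpen (S := A) (f := fun d => {z : ℂ | vorDet (pos (T.src d)) (pos (T.tgt d)) z ≠ 0})
    (fun d _ => doa_gen_open _ _) hfin.countable (fun d hd => doa_gen_dense (hne d hd))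
  convert h using 1
  ext z
  simp

theorem doa_pos_ne {A : Set D} {pos : V → ℂ} (hp : DelwPos T pos A) {d : D} (hd : d ∈ A) : pos (T.src d) ≠ pos (T.tgt d) := by
  intro e
  have := hp d hd
  rw [e] at this
  unfold vorDet at this
  simp at this

/-- the turning along a dart is continuous in the base point -/
theorem doa_A_cont {pos : V → ℂ} {z0 : ℂ} {d : D} (h0 : pos (T.src d) ≠ z0) (hc : ‖pos (T.tgt d) - pos (T.src d)‖ ≤ ‖pos (T.src d) - z0‖ / 4) :
    ContinuousAt (fun z => doaA T pos z d) z0 := by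
  unfold doaA
  have n1 : pos (T.src d) - z0 ≠ 0 := sub_ne_zero.2 h0
  have r1 : 0 < ((pos (T.tgt d) - z0) / (pos (T.src d) - z0)).re := by
    refine doa_re_pos n1 ?_
    rw [sub_sub_sub_cancel_right]; exact hc
  have h1 : ContinuousAt (fun z : ℂ => (pos (T.tgt d) - z) / (pos (T.src d) - z)) z0 :=
    (continuousAt_const.sub continuousAt_id).div (continuousAt_const.sub continuousAt_id) n1
  exact ContinuousAt.comp (g := Complex.arg) (f := fun z : ℂ => (pos (T.tgt d) - z) / (pos (T.src d) - z)) (Complex.continuousAt_arg (Or.inl r1)) h1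

/-- the positively drawn disc does not turn clockwise round ANY point off the cycle -/
theorem doa_sum_pos_det (hT : T.IsSph) (c : T.Cyc) (hfin : c.Left.Finite) {pos : V → ℂ} {z0 : ℂ} (hp : DelwPos T pos c.Left)
    (hc0 : ∀ i, pos (T.src (c.e i)) ≠ z0)
    (hc : ∀ i, ‖pos (T.tgt (c.e i)) - pos (T.src (c.e i))‖ ≤ ‖pos (T.src (c.e i)) - z0‖ / 4) :
    0 ≤ ∑ i ∈ Finset.range c.n, doaA T pos z0 (c.e i) := by
  have hcont : ContinuousAt (fun z => ∑ i ∈ Finset.range c.n, doaA T pos z (c.e i)) z0 :=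
    tendsto_finsetSum _ fun i _ => doa_A_cont (hc0 i) (hc i)
  have hd := doa_gen_dense_all (T := T) hfin (pos := pos) (fun d hd => doa_pos_ne hp hd)
  have hf : ∃ᶠ z in 𝓝 z0, 0 ≤ ∑ i ∈ Finset.range c.n, doaA T pos z (c.e i) :=
    (mem_closure_iff_frequently.1 (hd z0)).mono fun z hz => doa_sum_pos hT c hfin hp hz
  exact ge_of_tendsto_of_frequently hcont hf

/-- the splitting of the turning of `P` along the cycle, deterministic form -/
theorem doa_split_det (hT : T.IsSph) (c : T.Cyc) {pos P q : V → ℂ} {z0 : ℂ}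
    (hP : ∀ i, P (T.src (c.e i)) = q (T.src (c.e i)) * (pos (T.src (c.e i)) - z0))
    (hq0 : ∀ d ∈ c.Left, q (T.src d) ≠ 0)
    (hq : ∀ d ∈ c.Left, ‖q (T.tgt d) - q (T.src d)‖ ≤ ‖q (T.src d)‖ / 4)
    (hc0 : ∀ i, pos (T.src (c.e i)) ≠ z0)
    (hc : ∀ i, ‖pos (T.tgt (c.e i)) - pos (T.src (c.e i))‖ ≤ ‖pos (T.src (c.e i)) - z0‖ / 4) (i : ℕ) :
    (P (T.tgt (c.e i)) / P (T.src (c.e i))).arg = doaA T pos z0 (c.e i) + doaB T q (c.e i) := by
  have j2 := (pl_jordan hT c).2.1
  have hPt : P (T.tgt (c.e i)) = q (T.tgt (c.e i)) * (pos (T.tgt (c.e i)) - z0) := by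
    rw [c.chain i]; exact hP (i + 1)
  have n1 : pos (T.src (c.e i)) - z0 ≠ 0 := sub_ne_zero.2 (hc0 i)
  have r1 : 0 < ((pos (T.tgt (c.e i)) - z0) / (pos (T.src (c.e i)) - z0)).re := by
    refine doa_re_pos n1 ?_
    rw [sub_sub_sub_cancel_right]; exact hc i
  have r2 : 0 < (q (T.tgt (c.e i)) / q (T.src (c.e i))).re := doa_re_pos (hq0 _ (j2 i)) (hq _ (j2 i))
  unfold doaA doaB
  rw [← doa_arg_mul r1 r2, hPt, hP i]
  congr 1
  have := hq0 _ (j2 i)
  field_simp

/-- **ORIENTATION, DETERMINISTIC FORM** (no genericity of `z0`): the polygon `P ∘ c`, `P = q · (pos - z0)`, does not turn clockwise round `0` -/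
theorem doa_main_det (hT : T.IsSph) (c : T.Cyc) (hfin : c.Left.Finite) {pos P q : V → ℂ} {z0 : ℂ} (hp : DelwPos T pos c.Left)
    (hP : ∀ i, P (T.src (c.e i)) = q (T.src (c.e i)) * (pos (T.src (c.e i)) - z0))
    (hq0 : ∀ d ∈ c.Left, q (T.src d) ≠ 0)
    (hq : ∀ d ∈ c.Left, ‖q (T.tgt d) - q (T.src d)‖ ≤ ‖q (T.src d)‖ / 4)
    (hc0 : ∀ i, pos (T.src (c.e i)) ≠ z0)
    (hc : ∀ i, ‖pos (T.tgt (c.e i)) - pos (T.src (c.e i))‖ ≤ ‖pos (T.src (c.e i)) - z0‖ / 4) :
    0 ≤ ∑ i ∈ Finset.range c.n, (P (T.tgt (c.e i)) / P (T.src (c.e i))).arg := by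
  rw [Finset.sum_congr rfl fun i _ => doa_split_det hT c hP hq0 hq hc0 hc i, Finset.sum_add_distrib, doa_sum_q hT c hfin hq0 hq, add_zero]
  exact doa_sum_pos_det hT c hfin hp hc0 hc

end Det

end Claimed.Agent.R289
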