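import Claimed.Agent.R289.Del.OrdCut
import Claimed.Agent.R289.Del.OrdArg

/-!
# Row 289 (S0537), box DEL-ORD, file Del/Ord : ORDER AND ORIENTATION OF A BOUNDARY CYCLE IN A CHART      (owner helper253; prefix `do_`, defs `doLift`, `doSum`, `dosNear`)

MODEL FREE.   `T : PvMap V D`, `c : T.Cyc`, `P : V → ℂ` = the position of a vertex READ IN THE DISC CHART (`P v = g (pos v)`).      TEX[Cardy:lemma:mesh] (iv), (D3)+(D5) of audit254, ruling D1 of helper111 (ORD), ruling 1 of helper188 (NH, ARC, OR).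
* `doLift P c k`   the lifted angle `θ_k` of `P (c_k)`: `θ_0 = arg (P c_0)`, `θ_{k+1} = θ_k + arg (P c_{k+1} / P c_k)`;   `doSum P c = ∑_{i<n} arg (P c_{i+1} / P c_i)`
* `do_lift_spec`   `P c_k = ‖P c_k‖ e^{i θ_k}`;   `do_lift_per`  `θ_{k+n} = θ_k + doSum`;   `do_sum_int`  `doSum ∈ 2πℤ`
* trig kit: `do_abs_arg_le` (`|arg z| ≤ π ‖z - 1‖`), `do_near_of_norm`, `do_norm_of_near`
* `do_or` : `0 ≤ doSum (q · (pos - z0))` for a positively oriented triangulated disc, `z0` ANYWHERE off the cycle (limit of `doa_main` of helper135 over centres off the skeleton)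
* `do_or_chart` : the same in a chart `g` (`q = dslope g z0`), mesh threshold BEFORE the model;   **`do_exit`** : the exit form of `pvg_ord` (Brg), model free
* **`do_main`** : small steps + moduli near `r₀` + NO HAIRPIN (position form) + density + `0 ≤ doSum`  ⟹  `θ_{k+n} = θ_k + 2π` and `θ` is quasi-monotone.
INPUTS proved elsewhere: the 1-D lemma `dos_main` + no hairpin from a crosscut `doc_nh_nbr` (helper19, Del/OrdCut; chart geometry `dog_nh` helper120, Del/OrdGeo), `0 ≤ doSum` (helper135, Del/OrdArg).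
-/

set_option autoImplicit false

namespace Claimed.Agent.R289

open Complex Real

/-! ## 1. trig kit -/

theorem do_abs_arg_le {z : ℂ} (hz : z ≠ 0) : |arg z| ≤ π * ‖z - 1‖ := by
  have hn : (0 : ℝ) < ‖z‖ := norm_pos_iff.2 hz
  set u : ℂ := z * ((‖z‖⁻¹ : ℝ) : ℂ) with hu
  have hu1 : ‖u‖ = 1 := by
    rw [hu, norm_mul, Complex.norm_real, norm_inv, norm_norm, mul_inv_cancel₀ hn.ne']
  have hu0 : u ≠ 0 := by rw [← norm_pos_iff, hu1]; exact one_pos
  have h1 : |arg z| = InnerProductGeometry.angle u 1 := by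
    rw [Complex.angle_one_right hu0, hu, arg_mul_real (inv_pos.2 hn)]
  have h2 := Complex.angle_le_mul_norm_sub hu1 (norm_one (α := ℂ))
  have h3 : ‖u - z‖ = |1 - ‖z‖| := by
    have : u - z = z * (((‖z‖⁻¹ - 1 : ℝ)) : ℂ) := by rw [hu]; push_cast; ring
    rw [this, norm_mul, Complex.norm_real, Real.norm_eq_abs]
    have e : ‖z‖⁻¹ - 1 = (1 - ‖z‖) / ‖z‖ := by field_simp
    rw [e, abs_div, abs_of_pos hn]
    field_simp
  have h4 : |1 - ‖z‖| ≤ ‖z - 1‖ := by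
    have := abs_norm_sub_norm_le z 1
    rw [norm_one, abs_sub_comm] at this
    exact this
  have h5 : ‖u - 1‖ ≤ 2 * ‖z - 1‖ := by
    calc ‖u - 1‖ = ‖(u - z) + (z - 1)‖ := by ring_nf
      _ ≤ ‖u - z‖ + ‖z - 1‖ := norm_add_le _ _
      _ ≤ 2 * ‖z - 1‖ := by rw [h3]; linarith
  rw [h1]
  calc InnerProductGeometry.angle u 1 ≤ π / 2 * ‖u - 1‖ := h2
    _ ≤ π / 2 * (2 * ‖z - 1‖) := by gcongr
    _ = π * ‖z - 1‖ := by ring

/-- two nonzero numbers with lifted angles `α`, `β` -/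
theorem do_near_of_norm {A B : ℂ} {α β : ℝ} (hA : A ≠ 0) (hB : B ≠ 0) (eA : A = ‖A‖ * exp (α * I)) (eB : B = ‖B‖ * exp (β * I)) :
    dosNear (β - α) (π * (‖B - A‖ / ‖A‖)) := by
  have hnA : (0 : ℝ) < ‖A‖ := norm_pos_iff.2 hA
  have hnB : (0 : ℝ) < ‖B‖ := norm_pos_iff.2 hB
  have e1 : B / A = ((‖B‖ / ‖A‖ : ℝ) : ℂ) * exp (((β - α : ℝ) : ℂ) * I) := by
    have hA' : (‖A‖ : ℂ) ≠ 0 := by exact_mod_cast hnA.ne'
    conv_lhs => rw [eA, eB]
    push_cast
    rw [sub_mul, Complex.exp_sub]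
    field_simp
  have e2 : arg (B / A) = toIocMod Real.two_pi_pos (-π) (β - α) := by
    rw [e1, arg_real_mul _ (div_pos hnB hnA), arg_exp_mul_I]
  have e3 := self_sub_toIocMod Real.two_pi_pos (-π) (β - α)
  refine ⟨toIocDiv Real.two_pi_pos (-π) (β - α), ?_⟩
  have e4 : β - α - 2 * π * (toIocDiv Real.two_pi_pos (-π) (β - α) : ℤ) = arg (B / A) := by
    rw [e2]
    rw [zsmul_eq_mul] at e3
    linarith
  rw [e4]
  have h5 := do_abs_arg_le (div_ne_zero hB hA)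
  have h6 : ‖B / A - 1‖ = ‖B - A‖ / ‖A‖ := by
    rw [← norm_div]; congr 1; field_simp
  rwa [h6] at h5

theorem do_norm_of_near {A B : ℂ} {α β η : ℝ} (eA : A = ‖A‖ * exp (α * I)) (eB : B = ‖B‖ * exp (β * I)) (h : dosNear (β - α) η) :
    ‖B - A‖ ≤ |‖B‖ - ‖A‖| + ‖A‖ * η := by
  obtain ⟨m, hm⟩ := h
  have e1 : exp (β * I) = exp (α * I) * exp (I * ((β - α - 2 * π * m : ℝ) : ℂ)) := by
    rw [← Complex.exp_add, Complex.exp_eq_exp_iff_exists_int]
    refine ⟨m, ?_⟩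
    push_cast; ring
  have e2 : B - A = ((‖B‖ - ‖A‖ : ℝ) : ℂ) * exp (β * I) + (‖A‖ : ℂ) * exp (α * I) * (exp (I * ((β - α - 2 * π * m : ℝ) : ℂ)) - 1) := by
    conv_lhs => rw [eA, eB]
    rw [e1]; push_cast; ring
  rw [e2]
  refine (norm_add_le _ _).trans ?_
  have n1 : ‖exp ((β : ℂ) * I)‖ = 1 := Complex.norm_exp_ofReal_mul_I β
  have n2 : ‖exp ((α : ℂ) * I)‖ = 1 := Complex.norm_exp_ofReal_mul_I α
  rw [norm_mul, norm_mul, norm_mul, n1, n2, Complex.norm_real, Complex.norm_real, norm_norm, mul_one, mul_one, Real.norm_eq_abs]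
  have := Real.norm_exp_I_mul_ofReal_sub_one_le (x := β - α - 2 * π * m)
  rw [Real.norm_eq_abs] at this
  gcongr
  exact this.trans hm

/-! ## 2. lifted angles along a cycle -/

section lift

variable {V D : Type} {T : PvMap V D}

/-- the angular increment of the `k`-th edge of the cycle, read in the chart -/
noncomputable def doInc (P : V → ℂ) (c : T.Cyc) (k : ℕ) : ℝ := arg (P (T.src (c.e (k + 1))) / P (T.src (c.e k)))

/-- the lifted angle of the `k`-th vertex -/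
noncomputable def doLift (P : V → ℂ) (c : T.Cyc) : ℕ → ℝ
  | 0 => arg (P (T.src (c.e 0)))
  | k + 1 => doLift P c k + doInc P c k

/-- the total angular increment -/
noncomputable def doSum (P : V → ℂ) (c : T.Cyc) : ℝ := ∑ i ∈ Finset.range c.n, doInc P c i

theorem do_eqns_cite : True := by
  have := @doInc.eq_1
  have := @doLift.eq_1
  have := @doLift.eq_2
  have := @doSum.eq_1
  trivial

theorem do_lift_zero (P : V → ℂ) (c : T.Cyc) : doLift P c 0 = arg (P (T.src (c.e 0))) := rfl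

theorem do_lift_succ (P : V → ℂ) (c : T.Cyc) (k : ℕ) : doLift P c (k + 1) = doLift P c k + doInc P c k := rfl

theorem do_lift_spec {P : V → ℂ} {c : T.Cyc} (h0 : ∀ k, P (T.src (c.e k)) ≠ 0) (k : ℕ) :
    P (T.src (c.e k)) = ‖P (T.src (c.e k))‖ * exp (doLift P c k * I) := by
  induction k with
  | zero => exact (norm_mul_exp_arg_mul_I _).symm
  | succ k ih =>
    set A := P (T.src (c.e k)) with hA
    set B := P (T.src (c.e (k + 1))) with hB
    have hA0 : A ≠ 0 := h0 k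
    have e1 : B = A * (B / A) := by field_simp
    have e2 := (norm_mul_exp_arg_mul_I (B / A)).symm
    have e3 : ‖B‖ = ‖A‖ * ‖B / A‖ := by rw [← norm_mul, ← e1]
    rw [do_lift_succ]
    have e4 : doInc P c k = arg (B / A) := rfl
    rw [e4, e3]
    push_cast
    rw [add_mul, Complex.exp_add]
    calc B = A * (B / A) := e1
      _ = (‖A‖ * exp (doLift P c k * I)) * (‖B / A‖ * exp (arg (B / A) * I)) := by rw [← ih, ← e2]
      _ = _ := by ring

theorem do_inc_per (P : V → ℂ) (c : T.Cyc) (k : ℕ) : doInc P c (k + c.n) = doInc P c k := by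
  unfold doInc
  rw [c.per k, Nat.add_right_comm, c.per (k + 1)]

theorem do_lift_eq_sum (P : V → ℂ) (c : T.Cyc) (k : ℕ) : doLift P c k = doLift P c 0 + ∑ i ∈ Finset.range k, doInc P c i := by
  induction k with
  | zero => simp
  | succ k ih => rw [do_lift_succ, ih, Finset.sum_range_succ]; ring

theorem do_lift_per (P : V → ℂ) (c : T.Cyc) (k : ℕ) : doLift P c (k + c.n) = doLift P c k + doSum P c := by
  induction k with
  | zero => rw [Nat.zero_add, do_lift_eq_sum]; rfl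
  | succ k ih =>
    rw [Nat.add_right_comm, do_lift_succ, ih, do_inc_per, do_lift_succ]; ring

theorem do_sum_int {P : V → ℂ} {c : T.Cyc} (h0 : ∀ k, P (T.src (c.e k)) ≠ 0) : ∃ m : ℤ, doSum P c = 2 * π * m := by
  have e0 := do_lift_spec h0 0
  have en := do_lift_spec h0 (0 + c.n)
  rw [c.per 0, do_lift_per] at en
  have hn : (‖P (T.src (c.e 0))‖ : ℂ) ≠ 0 := by
    exact_mod_cast (norm_pos_iff.2 (h0 0)).ne'
  have e1 : exp (((doLift P c 0 + doSum P c : ℝ) : ℂ) * I) = exp ((doLift P c 0 : ℂ) * I) :=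
    mul_left_cancel₀ hn (en.symm.trans e0)
  obtain ⟨m, hm⟩ := Complex.exp_eq_exp_iff_exists_int.1 e1
  refine ⟨m, ?_⟩
  have h2 : ((doSum P c : ℝ) : ℂ) * I = ((2 * π * m : ℝ) : ℂ) * I := by
    push_cast at hm ⊢
    linear_combination hm
  exact_mod_cast mul_right_cancel₀ I_ne_zero h2

/-- bound of one increment -/
theorem do_inc_le {P : V → ℂ} {c : T.Cyc} (h0 : ∀ k, P (T.src (c.e k)) ≠ 0) (k : ℕ) :
    |doInc P c k| ≤ π * (‖P (T.src (c.e (k + 1))) - P (T.src (c.e k))‖ / ‖P (T.src (c.e k))‖) := by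
  have h5 := do_abs_arg_le (div_ne_zero (h0 (k + 1)) (h0 k))
  have h6 : ‖P (T.src (c.e (k + 1))) / P (T.src (c.e k)) - 1‖ = ‖P (T.src (c.e (k + 1))) - P (T.src (c.e k))‖ / ‖P (T.src (c.e k))‖ := by
    rw [← norm_div]; congr 1; have := h0 k; field_simp
  rw [h6] at h5
  exact h5

/-! ## 3. the main glue -/

/-- **ORD** (abstract form).   `r₀` radius of the circle followed by the cycle in the chart, `μ` radial tolerance, `σ` length of a step, `r₁ < r₂` the two radii of NO HAIRPIN. -/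
theorem do_main {P : V → ℂ} {c : T.Cyc} {r₀ μ σ r₁ r₂ : ℝ} (hμ : 0 ≤ μ) (hμr : μ < r₀) (hσ : 0 < σ)
    (hmod : ∀ k, |‖P (T.src (c.e k))‖ - r₀| ≤ μ)
    (hstep : ∀ k, ‖P (T.src (c.e (k + 1))) - P (T.src (c.e k))‖ ≤ σ)
    (hr₁ : 2 * μ + (r₀ + μ) * (π * (σ / (r₀ - μ))) ≤ r₁) (hσr : σ ≤ r₂) (hr₂ : π * (r₂ / (r₀ - μ)) ≤ 1 / 4)
    (hNH : ∀ i j, i < j → j < i + c.n → ‖P (T.src (c.e j)) - P (T.src (c.e i))‖ ≤ r₁ →
      (∀ l, i ≤ l → l ≤ j → ‖P (T.src (c.e l)) - P (T.src (c.e i))‖ ≤ r₂) ∨ (∀ l, j ≤ l → l ≤ i + c.n → ‖P (T.src (c.e l)) - P (T.src (c.e i))‖ ≤ r₂))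
    (hdense : ∀ w : ℂ, ‖w‖ = r₀ → ∃ k, ‖P (T.src (c.e k)) - w‖ ≤ r₂ * (r₀ / (r₀ - μ)))
    (hOR : 0 ≤ doSum P c) :
    (∀ k, P (T.src (c.e k)) = ‖P (T.src (c.e k))‖ * exp (doLift P c k * I)) ∧ (∀ k, doLift P c (k + c.n) = doLift P c k + 2 * π) ∧
      ∀ k k', k ≤ k' → doLift P c k ≤ doLift P c k' + (π * (r₂ / (r₀ - μ)) + π * (σ / (r₀ - μ))) := by
  have hrμ : 0 < r₀ - μ := by linarith
  have hlow : ∀ k, r₀ - μ ≤ ‖P (T.src (c.e k))‖ := fun k => by have := (abs_le.1 (hmod k)).1; linarith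
  have hup : ∀ k, ‖P (T.src (c.e k))‖ ≤ r₀ + μ := fun k => by have := (abs_le.1 (hmod k)).2; linarith
  have h0 : ∀ k, P (T.src (c.e k)) ≠ 0 := fun k => norm_pos_iff.1 (lt_of_lt_of_le hrμ (hlow k))
  have hspec := do_lift_spec h0
  obtain ⟨m, hm⟩ := do_sum_int h0
  have hper : ∀ k, doLift P c (k + c.n) = doLift P c k + 2 * π * m := fun k => by rw [do_lift_per, hm]
  -- a bound in position gives a bound in angle
  have key : ∀ k l ρ, ‖P (T.src (c.e l)) - P (T.src (c.e k))‖ ≤ ρ → dosNear (doLift P c l - doLift P c k) (π * (ρ / (r₀ - μ))) := by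
    intro k l ρ hρ
    obtain ⟨q, hq⟩ := do_near_of_norm (h0 k) (h0 l) (hspec k) (hspec l)
    refine ⟨q, hq.trans ?_⟩
    have hpos : 0 < ‖P (T.src (c.e k))‖ := lt_of_lt_of_le hrμ (hlow k)
    have : ‖P (T.src (c.e l)) - P (T.src (c.e k))‖ / ‖P (T.src (c.e k))‖ ≤ ρ / (r₀ - μ) :=
      div_le_div₀ ((norm_nonneg _).trans hρ) hρ hrμ (hlow k)
    exact mul_le_mul_of_nonneg_left this Real.pi_pos.le
  have hη : 0 < π * (σ / (r₀ - μ)) := mul_pos Real.pi_pos (div_pos hσ hrμ)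
  have hηd : π * (σ / (r₀ - μ)) ≤ π * (r₂ / (r₀ - μ)) :=
    mul_le_mul_of_nonneg_left (div_le_div_of_nonneg_right hσr hrμ.le) Real.pi_pos.le
  have hst : ∀ k, |doLift P c (k + 1) - doLift P c k| ≤ π * (σ / (r₀ - μ)) := by
    intro k
    rw [do_lift_succ, add_sub_cancel_left]
    refine (do_inc_le h0 k).trans (mul_le_mul_of_nonneg_left ?_ Real.pi_pos.le)
    exact div_le_div₀ hσ.le (hstep k) hrμ (hlow k)
  have hNH' : ∀ i j, i < j → j < i + c.n → dosNear (doLift P c j - doLift P c i) (π * (σ / (r₀ - μ))) →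
      (∀ l, i ≤ l → l ≤ j → dosNear (doLift P c l - doLift P c i) (π * (r₂ / (r₀ - μ)))) ∨
      (∀ l, j ≤ l → l ≤ i + c.n → dosNear (doLift P c l - doLift P c i) (π * (r₂ / (r₀ - μ)))) := by
    intro i j hij hj hnear
    have h1 := do_norm_of_near (hspec i) (hspec j) hnear
    have h2 : |‖P (T.src (c.e j))‖ - ‖P (T.src (c.e i))‖| ≤ 2 * μ := by
      have a := abs_le.1 (hmod i); have b := abs_le.1 (hmod j)
      rw [abs_le]; constructor <;> linarith [a.1, a.2, b.1, b.2]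
    have h3 : ‖P (T.src (c.e i))‖ * (π * (σ / (r₀ - μ))) ≤ (r₀ + μ) * (π * (σ / (r₀ - μ))) := mul_le_mul_of_nonneg_right (hup i) hη.le
    rcases hNH i j hij hj (by linarith) with h | h
    · exact Or.inl fun l h1 h2 => key i l r₂ (h l h1 h2)
    · exact Or.inr fun l h1 h2 => key i l r₂ (h l h1 h2)
  have hdense' : ∀ φ : ℝ, ∃ k, dosNear (doLift P c k - φ) (π * (r₂ / (r₀ - μ))) := by
    intro φ
    have hr0 : 0 < r₀ := by linarith
    set w : ℂ := (r₀ : ℂ) * exp (φ * I) with hw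
    have hwn : ‖w‖ = r₀ := by rw [hw, norm_mul, Complex.norm_exp_ofReal_mul_I, mul_one, Complex.norm_real, Real.norm_eq_abs, abs_of_pos hr0]
    obtain ⟨k, hk⟩ := hdense w hwn
    refine ⟨k, ?_⟩
    have hw0 : w ≠ 0 := norm_pos_iff.1 (by rw [hwn]; exact hr0)
    obtain ⟨q, hq⟩ := do_near_of_norm hw0 (h0 k) (by rw [hwn]) (hspec k)
    refine ⟨q, hq.trans ?_⟩
    rw [hwn]
    refine mul_le_mul_of_nonneg_left ?_ Real.pi_pos.le
    rw [div_le_iff₀ hr0]
    calc ‖P (T.src (c.e k)) - w‖ ≤ r₂ * (r₀ / (r₀ - μ)) := hk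
      _ = r₂ / (r₀ - μ) * r₀ := by ring
  rcases dos_main (pl_cyc_pos c) hη hηd hr₂ hper hst hNH' hdense' with ⟨rfl, hmono⟩ | ⟨rfl, -⟩
  · refine ⟨hspec, fun k => ?_, hmono⟩
    rw [hper]; push_cast; ring
  · exfalso
    rw [hm] at hOR
    push_cast at hOR
    nlinarith [Real.pi_pos]

end lift

open Set Metric Filter Topology

/-! ## 4. orientation: the centre may lie on the skeleton -/

theorem do_det_shift (a b x : ℂ) (t : ℝ) : vorDet a b (x + (t : ℂ) * (I * (b - a))) = vorDet a b x + t * ‖b - a‖ ^ 2 := by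
  rw [← Complex.normSq_eq_norm_sq, Complex.normSq_apply]
  unfold vorDet
  simp only [add_re, add_im, mul_re, mul_im, ofReal_re, ofReal_im, I_re, I_im, sub_re, sub_im]
  ring

theorem do_det_dense {a b : ℂ} (hab : a ≠ b) : Dense {z : ℂ | vorDet a b z ≠ 0} := by
  rw [Metric.dense_iff]
  intro x r hr
  by_cases hx : vorDet a b x = 0
  · have hu0 : 0 < ‖b - a‖ := norm_pos_iff.2 (sub_ne_zero.2 hab.symm)
    refine ⟨x + ((r / (2 * ‖b - a‖) : ℝ) : ℂ) * (I * (b - a)), ?_, ?_⟩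
    · rw [mem_ball, dist_eq_norm, add_sub_cancel_left, norm_mul, Complex.norm_real, norm_mul, Complex.norm_I, one_mul, Real.norm_of_nonneg (by positivity)]
      have : r / (2 * ‖b - a‖) * ‖b - a‖ = r / 2 := by field_simp
      rw [this]; linarith
    · show vorDet a b _ ≠ 0
      rw [do_det_shift, hx, zero_add]
      positivity
  · exact ⟨x, mem_ball_self hr, hx⟩

theorem do_det_open (a b : ℂ) : IsOpen {z : ℂ | vorDet a b z ≠ 0} := by
  have : Continuous fun z : ℂ => vorDet a b z := by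
    unfold vorDet
    fun_prop
  exact isOpen_ne_fun this continuous_const

theorem do_off_dense {ι : Type} {A : Set ι} (hA : A.Finite) (a b : ι → ℂ) (hab : ∀ d ∈ A, a d ≠ b d) :
    Dense {z : ℂ | ∀ d ∈ A, vorDet (a d) (b d) z ≠ 0} := by
  have := dense_biInter_of_isOpen (S := A) (f := fun d => {z : ℂ | vorDet (a d) (b d) z ≠ 0}) (fun d _ => do_det_open _ _) hA.countable
    (fun d hd => do_det_dense (hab d hd))
  convert this using 1
  ext z; simp

theorem do_slit {A B : ℂ} (hA : A ≠ 0) (h : ‖B - A‖ < ‖A‖) : B / A ∈ slitPlane := by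
  have e : B / A = 1 + (B - A) / A := by field_simp; ring
  have hn : ‖(B - A) / A‖ < 1 := by
    rw [norm_div, div_lt_one (norm_pos_iff.2 hA)]; exact h
  have h1 : -‖(B - A) / A‖ ≤ ((B - A) / A).re := by
    have := Complex.abs_re_le_norm ((B - A) / A)
    exact neg_le_of_abs_le this
  rw [Complex.mem_slitPlane_iff]
  left
  rw [e, add_re, one_re]
  linarith

section orient

variable {V D : Type} {T : PvMap V D}

/-- **OR** (limit form): the centre `z0` may lie on an edge or at a vertex of the disc -/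
theorem do_or (hT : T.IsSph) (c : T.Cyc) (hfin : c.Left.Finite) {pos q : V → ℂ} {z0 : ℂ} (hp : DelwPos T pos c.Left)
    (hq0 : ∀ d ∈ c.Left, q (T.src d) ≠ 0)
    (hq : ∀ d ∈ c.Left, ‖q (T.tgt d) - q (T.src d)‖ ≤ ‖q (T.src d)‖ / 4)
    (hne : ∀ i, pos (T.src (c.e i)) ≠ z0)
    (hc : ∀ i, ‖pos (T.tgt (c.e i)) - pos (T.src (c.e i))‖ ≤ ‖pos (T.src (c.e i)) - z0‖ / 8) :
    0 ≤ doSum (fun v => q v * (pos v - z0)) c := by
  have j2 := (pl_jordan hT c).2.1
  set F : ℂ → ℝ := fun z' => ∑ i ∈ Finset.range c.n, ((q (T.tgt (c.e i)) * (pos (T.tgt (c.e i)) - z')) / (q (T.src (c.e i)) * (pos (T.src (c.e i)) - z'))).arg with hF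
  have hFz : doSum (fun v => q v * (pos v - z0)) c = F z0 := by
    unfold doSum doInc
    refine Finset.sum_congr rfl fun i _ => ?_
    rw [c.chain i]
  rw [hFz]
  -- continuity
  have hcont : ContinuousAt F z0 := by
    refine tendsto_finsetSum _ fun i _ => ?_
    have hs0 : pos (T.src (c.e i)) - z0 ≠ 0 := sub_ne_zero.2 (hne i)
    have hA : q (T.src (c.e i)) * (pos (T.src (c.e i)) - z0) ≠ 0 := mul_ne_zero (hq0 _ (j2 i)) hs0
    have hmem : (q (T.tgt (c.e i)) * (pos (T.tgt (c.e i)) - z0)) / (q (T.src (c.e i)) * (pos (T.src (c.e i)) - z0)) ∈ slitPlane := by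
      refine do_slit hA ?_
      set qs := q (T.src (c.e i)); set qt := q (T.tgt (c.e i)); set ps := pos (T.src (c.e i)); set pt := pos (T.tgt (c.e i))
      have e : qt * (pt - z0) - qs * (ps - z0) = (qt - qs) * (ps - z0) + (qt - qs) * (pt - ps) + qs * (pt - ps) := by ring
      have a1 : ‖qt - qs‖ ≤ ‖qs‖ / 4 := hq _ (j2 i)
      have a2 : ‖pt - ps‖ ≤ ‖ps - z0‖ / 8 := hc i
      have p1 : 0 < ‖qs‖ := norm_pos_iff.2 (hq0 _ (j2 i))
      have p2 : 0 < ‖ps - z0‖ := norm_pos_iff.2 hs0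
      rw [e, norm_mul qs]
      calc ‖(qt - qs) * (ps - z0) + (qt - qs) * (pt - ps) + qs * (pt - ps)‖
          ≤ ‖qt - qs‖ * ‖ps - z0‖ + ‖qt - qs‖ * ‖pt - ps‖ + ‖qs‖ * ‖pt - ps‖ := by
            refine (norm_add_le _ _).trans ?_
            rw [norm_mul qs]
            refine add_le_add_left ((norm_add_le _ _).trans ?_) _
            rw [norm_mul, norm_mul]
        _ ≤ ‖qs‖ / 4 * ‖ps - z0‖ + ‖qs‖ / 4 * (‖ps - z0‖ / 8) + ‖qs‖ * (‖ps - z0‖ / 8) := by gcongr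
        _ < ‖qs‖ * ‖ps - z0‖ := by nlinarith [mul_pos p1 p2]
    refine (Complex.continuousAt_arg hmem).tendsto.comp ?_
    refine ContinuousAt.div ?_ ?_ hA
    · fun_prop
    · fun_prop
  -- margins
  have hev : ∀ᶠ z' in 𝓝 z0, ∀ i, ‖pos (T.tgt (c.e i)) - pos (T.src (c.e i))‖ ≤ ‖pos (T.src (c.e i)) - z'‖ / 4 := by
    have h1 : ∀ᶠ z' in 𝓝 z0, ∀ i ∈ Finset.range c.n, ‖pos (T.tgt (c.e i)) - pos (T.src (c.e i))‖ ≤ ‖pos (T.src (c.e i)) - z'‖ / 4 := by
      rw [Filter.eventually_all_finset]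
      intro i _
      have p2 : 0 < ‖pos (T.src (c.e i)) - z0‖ := norm_pos_iff.2 (sub_ne_zero.2 (hne i))
      have hlt : ‖pos (T.tgt (c.e i)) - pos (T.src (c.e i))‖ < ‖pos (T.src (c.e i)) - z0‖ / 4 := by linarith [hc i]
      have hct : Tendsto (fun z' : ℂ => ‖pos (T.src (c.e i)) - z'‖ / 4) (𝓝 z0) (𝓝 (‖pos (T.src (c.e i)) - z0‖ / 4)) := by
        have : Continuous fun z' : ℂ => ‖pos (T.src (c.e i)) - z'‖ / 4 := by fun_prop
        exact this.tendsto z0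
      exact (hct.eventually_const_lt hlt).mono fun _ h => h.le
    refine h1.mono fun z' h i => ?_
    obtain ⟨k, -, hk, e⟩ := doc_idx c 0 i
    rw [← e]
    exact h k (Finset.mem_range.2 (by omega))
  have hd := do_off_dense hfin (fun d => pos (T.src d)) (fun d => pos (T.tgt d)) (fun d hd e => by
    have := hp d hd
    rw [e] at this
    unfold vorDet at this
    simp at this)
  have hfreq := (mem_closure_iff_frequently.1 (hd z0)).and_eventually hev
  have h2 : ∃ᶠ z' in 𝓝 z0, 0 ≤ F z' := hfreq.mono fun z' h =>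
    doa_main hT c hfin (P := fun v => q v * (pos v - z')) hp h.1 (fun _ => rfl) hq0 hq h.2
  by_contra hneg
  have h3 : ∀ᶠ z' in 𝓝 z0, F z' < 0 := hcont.tendsto.eventually_lt_const (not_le.1 hneg)
  obtain ⟨z', a, b⟩ := (h2.and_eventually h3).exists
  exact absurd a (not_le.2 b)

end orient

/-! ## 5. the quotient `q = (g - g z0) / (· - z0)` in a chart -/

/-- uniform smallness of the relative increments of `q`, measured in the chart `g` -/
theorem do_q_unif {K : Set ℂ} (hK : IsCompact K) {g q : ℂ → ℂ} (hg : ContinuousOn g K) (hinj : InjOn g K) (hq : ContinuousOn q K)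
    (hq0 : ∀ z ∈ K, q z ≠ 0) {ε : ℝ} (hε : 0 < ε) :
    ∃ μ > 0, ∀ z ∈ K, ∀ w ∈ K, ‖g w - g z‖ ≤ μ → ‖q w - q z‖ ≤ ε * ‖q z‖ := by
  set C : Set (ℂ × ℂ) := (K ×ˢ K) ∩ (fun p : ℂ × ℂ => ‖q p.2 - q p.1‖ - ε * ‖q p.1‖) ⁻¹' Ici 0 with hC
  have hq1 : ContinuousOn (fun p : ℂ × ℂ => q p.1) (K ×ˢ K) := hq.comp continuousOn_fst fun p hp => hp.1
  have hq2 : ContinuousOn (fun p : ℂ × ℂ => q p.2) (K ×ˢ K) := hq.comp continuousOn_snd fun p hp => hp.2
  have hg1 : ContinuousOn (fun p : ℂ × ℂ => g p.1) (K ×ˢ K) := hg.comp continuousOn_fst fun p hp => hp.1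
  have hg2 : ContinuousOn (fun p : ℂ × ℂ => g p.2) (K ×ˢ K) := hg.comp continuousOn_snd fun p hp => hp.2
  have hcl : IsClosed C := by
    refine ContinuousOn.preimage_isClosed_of_isClosed ?_ (hK.prod hK).isClosed isClosed_Ici
    exact ((hq2.sub hq1).norm).sub (continuousOn_const.mul hq1.norm)
  have hCc : IsCompact C := (hK.prod hK).of_isClosed_subset hcl inter_subset_left
  rcases C.eq_empty_or_nonempty with hE | hne
  · refine ⟨1, one_pos, fun z hz w hw _ => ?_⟩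
    by_contra hcon
    have : (z, w) ∈ C := ⟨⟨hz, hw⟩, by
      show (0 : ℝ) ≤ ‖q w - q z‖ - ε * ‖q z‖
      linarith [not_le.1 hcon]⟩
    rw [hE] at this
    exact this
  · obtain ⟨p0, hp0, hmin⟩ := hCc.exists_isMinOn hne (((hg2.sub hg1).norm).mono inter_subset_left)
    have hpos : 0 < ‖g p0.2 - g p0.1‖ := by
      rw [norm_pos_iff, sub_ne_zero]
      intro e
      have e' : p0.2 = p0.1 := hinj hp0.1.2 hp0.1.1 e
      have h1 : (0 : ℝ) ≤ ‖q p0.2 - q p0.1‖ - ε * ‖q p0.1‖ := hp0.2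
      rw [e', sub_self, norm_zero] at h1
      have := mul_pos hε (norm_pos_iff.2 (hq0 _ hp0.1.1))
      linarith
    refine ⟨‖g p0.2 - g p0.1‖ / 2, by positivity, fun z hz w hw hzw => ?_⟩
    by_contra hcon
    have hm : (z, w) ∈ C := ⟨⟨hz, hw⟩, by
      show (0 : ℝ) ≤ ‖q w - q z‖ - ε * ‖q z‖
      linarith [not_le.1 hcon]⟩
    have : ‖g p0.2 - g p0.1‖ ≤ ‖g w - g z‖ := hmin hm
    linarith

/-- the divided difference of an injective holomorphic chart does not vanish (the value at `z0` by the inverse Lipschitz bound) -/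
theorem do_dslope_ne {N : Set ℂ} {g : ℂ → ℂ} {L : ℝ} (hN : IsOpen N) (hdiff : DifferentiableOn ℂ g N) (hinj : InjOn g N) {z0 : ℂ} (hz0 : z0 ∈ N) (hL : 0 < L)
    (hlip : ∀ᶠ w in 𝓝 z0, ‖w - z0‖ ≤ L * ‖g w - g z0‖) {z : ℂ} (hz : z ∈ N) : dslope g z0 z ≠ 0 := by
  by_cases hzz : z = z0
  · subst hzz
    have hc : ContinuousAt (dslope g z) z :=
      (((differentiableOn_dslope (hN.mem_nhds hz)).2 hdiff).continuousOn).continuousAt (hN.mem_nhds hz)
    have h1 : ∀ᶠ w in 𝓝[≠] z, L⁻¹ ≤ ‖dslope g z w‖ := by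
      have h2 : ∀ᶠ w in 𝓝[≠] z, ‖w - z‖ ≤ L * ‖g w - g z‖ := hlip.filter_mono nhdsWithin_le_nhds
      filter_upwards [h2, self_mem_nhdsWithin] with w hw hwz
      have hwz' : w ≠ z := hwz
      rw [dslope_of_ne _ hwz', slope_def_field, norm_div]
      have p : 0 < ‖w - z‖ := norm_pos_iff.2 (sub_ne_zero.2 hwz')
      rw [le_div_iff₀ p, inv_mul_le_iff₀ hL]
      exact hw
    have h3 : L⁻¹ ≤ ‖dslope g z z‖ := ge_of_tendsto ((hc.tendsto.mono_left nhdsWithin_le_nhds).norm) h1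
    intro e
    rw [e, norm_zero] at h3
    exact absurd (inv_pos.2 hL) (not_lt.2 h3)
  · rw [dslope_of_ne _ hzz, slope_def_field]
    exact div_ne_zero (sub_ne_zero.2 fun e => hzz (hinj hz hz0 e)) (sub_ne_zero.2 hzz)

/-- **OR in a chart**: for fine mesh (in the chart) the image of the boundary cycle of a positively oriented triangulated disc does not turn negatively around `0`. -/
theorem do_or_chart {N : Set ℂ} {g : ℂ → ℂ} {R1 L : ℝ} (hN : IsOpen N) (hdiff : DifferentiableOn ℂ g N) (hinj : InjOn g N) (hR1 : 0 < R1) (hL : 0 < L)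
    (hcomp : IsCompact {z | z ∈ N ∧ ‖g z‖ ≤ R1})
    (hlip : ∀ z ∈ {z | z ∈ N ∧ ‖g z‖ ≤ R1}, ∀ w ∈ {z | z ∈ N ∧ ‖g z‖ ≤ R1}, ‖w - z‖ ≤ L * ‖g w - g z‖)
    {z0 : ℂ} (hz0 : z0 ∈ N) (hgz0 : g z0 = 0) :
    ∃ μ0 > 0, ∀ μ : ℝ, μ ≤ μ0 → ∀ (V D : Type) (T : PvMap V D), T.IsSph → ∀ (c : T.Cyc) (pos : V → ℂ), c.Left.Finite → DelwPos T pos c.Left →
      (∀ d ∈ c.Left, pos (T.src d) ∈ {z | z ∈ N ∧ ‖g z‖ ≤ R1} ∧ pos (T.tgt d) ∈ {z | z ∈ N ∧ ‖g z‖ ≤ R1} ∧ ‖g (pos (T.tgt d)) - g (pos (T.src d))‖ ≤ μ) →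
      (∀ i, 1 / 2 ≤ ‖g (pos (T.src (c.e i)))‖) → 0 ≤ doSum (fun v => g (pos v)) c := by
  set K : Set ℂ := {z | z ∈ N ∧ ‖g z‖ ≤ R1} with hK
  have hKN : K ⊆ N := fun z hz => hz.1
  have hgc : ContinuousOn g N := hdiff.continuousOn
  have hgat : ContinuousAt g z0 := hgc.continuousAt (hN.mem_nhds hz0)
  have hnear : ∀ᶠ w in 𝓝 z0, w ∈ K := by
    have h1 : ∀ᶠ w in 𝓝 z0, ‖g w‖ < R1 := by
      have : Tendsto (fun w => ‖g w‖) (𝓝 z0) (𝓝 ‖g z0‖) := hgat.tendsto.norm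
      rw [hgz0, norm_zero] at this
      exact this.eventually_lt_const hR1
    filter_upwards [h1, hN.mem_nhds hz0] with w h2 h3
    exact ⟨h3, h2.le⟩
  have hz0K : z0 ∈ K := ⟨hz0, by rw [hgz0, norm_zero]; exact hR1.le⟩
  have hq0 : ∀ z ∈ K, dslope g z0 z ≠ 0 := fun z hz =>
    do_dslope_ne hN hdiff hinj hz0 hL (hnear.mono fun w hw => hlip z0 hz0K w hw) hz.1
  have hqc : ContinuousOn (dslope g z0) K := (((differentiableOn_dslope (hN.mem_nhds hz0)).2 hdiff).continuousOn).mono hKN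
  obtain ⟨μ1, hμ1, hun⟩ := do_q_unif hcomp (hgc.mono hKN) (hinj.mono hKN) hqc hq0 (ε := 1 / 4) (by norm_num)
  -- the cycle stays away from z0
  obtain ⟨δ0, hδ0, hδ⟩ : ∃ δ0 > 0, ∀ w, ‖w - z0‖ < δ0 → ‖g w‖ < 1 / 2 := by
    have h1 : ∀ᶠ w in 𝓝 z0, ‖g w‖ < 1 / 2 := by
      have : Tendsto (fun w => ‖g w‖) (𝓝 z0) (𝓝 ‖g z0‖) := hgat.tendsto.norm
      rw [hgz0, norm_zero] at this
      exact this.eventually_lt_const (by norm_num)
    obtain ⟨δ0, hδ0, hb⟩ := Metric.eventually_nhds_iff.1 h1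
    exact ⟨δ0, hδ0, fun w hw => hb (by rwa [dist_eq_norm])⟩
  refine ⟨min μ1 (δ0 / (8 * L)), lt_min hμ1 (by positivity), fun μ hμ V D T hT c pos hfin hp hedge hfar => ?_⟩
  have j2 := (pl_jordan hT c).2.1
  have hfe : (fun v => g (pos v)) = fun v => (fun v => dslope g z0 (pos v)) v * (pos v - z0) := by
    funext v
    have := sub_smul_dslope g z0 (pos v)
    rw [hgz0, sub_zero, smul_eq_mul] at this
    rw [← this]; ring
  rw [hfe]
  have hdist : ∀ i, δ0 ≤ ‖pos (T.src (c.e i)) - z0‖ := by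
    intro i
    by_contra hcon
    have := hδ _ (not_le.1 hcon)
    linarith [hfar i]
  refine do_or hT c hfin hp (fun d hd => hq0 _ (hedge d hd).1) (fun d hd => ?_) (fun i e => ?_) (fun i => ?_)
  · have := hun _ (hedge d hd).1 _ (hedge d hd).2.1 ((hedge d hd).2.2.trans (hμ.trans (min_le_left _ _)))
    linarith
  · have := hdist i
    rw [e, sub_self, norm_zero] at this
    linarith
  · have h1 := hedge _ (j2 i)
    have h2 := hlip _ h1.1 _ h1.2.1
    have h3 : L * ‖g (pos (T.tgt (c.e i))) - g (pos (T.src (c.e i)))‖ ≤ L * (δ0 / (8 * L)) :=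
      mul_le_mul_of_nonneg_left (h1.2.2.trans (hμ.trans (min_le_right _ _))) hL.le
    have h4 : L * (δ0 / (8 * L)) = δ0 / 8 := by field_simp
    have := hdist i
    linarith

/-! ## 6. EXIT: one positive turn, quasi-monotone lifts, four marks -/

/-- **EXIT OF ORD** (model free; `x_k = pos (src (c.e k))`).      Chart: `g` holomorphic injective on the set `N`, `K(R1)` compact, inverse Lipschitz.      For fine mesh `μ` in the chart: a positively oriented finite triangulated disc with short edges, whose boundary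
cycle follows the circle of radius `r` (`hloc`, `hnear`) without hairpin (`hNH`), has exact lifted angles which make one positive turn, are quasi-monotone with error `δ`, and four marks met in the positive order at the angles `θ j` up to `δ`. -/
theorem do_exit {N : Set ℂ} {g : ℂ → ℂ} {R1 L : ℝ} (hN : IsOpen N) (hdiff : DifferentiableOn ℂ g N) (hinj : InjOn g N) (hR1 : 0 < R1) (hL : 0 < L)
    (hcomp : IsCompact {z | z ∈ N ∧ ‖g z‖ ≤ R1})
    (hlip : ∀ z ∈ {z | z ∈ N ∧ ‖g z‖ ≤ R1}, ∀ w ∈ {z | z ∈ N ∧ ‖g z‖ ≤ R1}, ‖w - z‖ ≤ L * ‖g w - g z‖)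
    {z0 : ℂ} (hz0 : z0 ∈ N) (hgz0 : g z0 = 0)
    {θ : ℕ → ℝ} (hθ : ∀ j, j < 4 → θ j < θ (j + 1)) (hθp : θ 4 = θ 0 + 2 * π) {r δ : ℝ} (hr : 1 / 2 ≤ r) (hr1 : r ≤ 1) (hδ : 0 < δ) :
    ∃ μ0 > 0, ∀ μ : ℝ, 0 < μ → μ ≤ μ0 → ∀ (V D : Type) (T : PvMap V D), T.IsSph → ∀ (c : T.Cyc) (pos : V → ℂ), c.Left.Finite → DelwPos T pos c.Left →
      (∀ d ∈ c.Left, pos (T.src d) ∈ {z | z ∈ N ∧ ‖g z‖ ≤ R1} ∧ pos (T.tgt d) ∈ {z | z ∈ N ∧ ‖g z‖ ≤ R1} ∧ ‖g (pos (T.tgt d)) - g (pos (T.src d))‖ ≤ 2 * μ) →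
      (∀ i, r ≤ ‖g (pos (T.src (c.e i)))‖ ∧ ‖g (pos (T.src (c.e i)))‖ ≤ r + 3 * μ) →
      (∀ t : ℝ, ∃ k, ‖g (pos (T.src (c.e k))) - (r : ℂ) * exp ((t : ℂ) * I)‖ ≤ 6 * μ) →
      (∀ i j, i < j → j < i + c.n → ‖g (pos (T.src (c.e j))) - g (pos (T.src (c.e i)))‖ ≤ 20 * μ →
        (∀ l, i ≤ l → l ≤ j → ‖g (pos (T.src (c.e l))) - g (pos (T.src (c.e i)))‖ ≤ 40 * μ) ∨
        (∀ l, j ≤ l → l ≤ i + c.n → ‖g (pos (T.src (c.e l))) - g (pos (T.src (c.e i)))‖ ≤ 40 * μ)) →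
      ∃ (m : ℕ → ℕ) (th : ℕ → ℝ), (∀ j, j < 4 → m j < m (j + 1)) ∧ m 4 = m 0 + c.n ∧
        (∀ k, g (pos (T.src (c.e k))) = (‖g (pos (T.src (c.e k)))‖ : ℂ) * exp ((th k : ℂ) * I)) ∧
        (∀ k, th (k + c.n) = th k + 2 * π) ∧ (∀ k k', k ≤ k' → th k ≤ th k' + δ) ∧ ∀ j, j ≤ 4 → |th (m j) - θ j| ≤ δ := by
  obtain ⟨μa, hμa, hOR⟩ := do_or_chart hN hdiff hinj hR1 hL hcomp hlip hz0 hgz0
  set γ : ℝ := min (min (θ 1 - θ 0) (θ 2 - θ 1)) (min (θ 3 - θ 2) (θ 4 - θ 3)) with hγ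
  have hγ0 : 0 < γ := by
    have h0 := hθ 0 (by norm_num); have h1 := hθ 1 (by norm_num); have h2 := hθ 2 (by norm_num); have h3 := hθ 3 (by norm_num)
    norm_num at h0 h1 h2 h3
    exact lt_min (lt_min (by linarith) (by linarith)) (lt_min (by linarith) (by linarith))
  have hγj : ∀ j, j < 4 → θ j + γ ≤ θ (j + 1) := by
    intro j hj
    have a0 : γ ≤ θ 1 - θ 0 := (min_le_left _ _).trans (min_le_left _ _)
    have a1 : γ ≤ θ 2 - θ 1 := (min_le_left _ _).trans (min_le_right _ _)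
    have a2 : γ ≤ θ 3 - θ 2 := (min_le_right _ _).trans (min_le_left _ _)
    have a3 : γ ≤ θ 4 - θ 3 := (min_le_right _ _).trans (min_le_right _ _)
    interval_cases j
    · norm_num; linarith
    · norm_num; linarith
    · norm_num; linarith
    · norm_num; linarith
  refine ⟨min (min (μa / 2) (1 / 2000)) (min (δ / 300) (γ / 14)), by positivity, fun μ hμ hμ0 V D T hT c pos hfin hp hedge hloc hnear hNH => ?_⟩
  have b1 : μ ≤ μa / 2 := hμ0.trans ((min_le_left _ _).trans (min_le_left _ _))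
  have b2 : μ ≤ 1 / 2000 := hμ0.trans ((min_le_left _ _).trans (min_le_right _ _))
  have b3 : μ ≤ δ / 300 := hμ0.trans ((min_le_right _ _).trans (min_le_left _ _))
  have b4 : μ ≤ γ / 14 := hμ0.trans ((min_le_right _ _).trans (min_le_right _ _))
  have hr1' : r + 3 * μ ≤ 1003 / 1000 := by linarith
  have hden : 49 / 100 ≤ r - 3 * μ := by linarith
  have hden0 : 0 < r - 3 * μ := by linarith
  have hpi : ∀ x : ℝ, 0 ≤ x → π * (x / (r - 3 * μ)) ≤ 13 / 2 * x := by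
    intro x hx
    have h1 : x / (r - 3 * μ) ≤ 100 / 49 * x := by
      rw [div_le_iff₀ hden0]
      nlinarith
    have h2 : π ≤ 3.15 := Real.pi_lt_d2.le
    have h3 : 0 ≤ x / (r - 3 * μ) := div_nonneg hx hden0.le
    calc π * (x / (r - 3 * μ)) ≤ 3.15 * (x / (r - 3 * μ)) := mul_le_mul_of_nonneg_right h2 h3
      _ ≤ 3.15 * (100 / 49 * x) := by gcongr
      _ ≤ 13 / 2 * x := by nlinarith
  set P : V → ℂ := fun v => g (pos v) with hP
  have j2 := (pl_jordan hT c).2.1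
  have hstepP : ∀ k, ‖P (T.src (c.e (k + 1))) - P (T.src (c.e k))‖ ≤ 2 * μ := by
    intro k
    have := (hedge _ (j2 k)).2.2
    rwa [c.chain k] at this
  have hmod : ∀ k, |‖P (T.src (c.e k))‖ - r| ≤ 3 * μ := by
    intro k
    rw [abs_le]
    constructor <;> linarith [(hloc k).1, (hloc k).2]
  have hor : 0 ≤ doSum P c := hOR (2 * μ) (by linarith) V D T hT c pos hfin hp hedge (fun i => by linarith [(hloc i).1])
  have hη13 := hpi (2 * μ) (by positivity)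
  have hd260 := hpi (40 * μ) (by positivity)
  obtain ⟨hspec, hper, hmono⟩ := do_main (P := P) (c := c) (r₀ := r) (μ := 3 * μ) (σ := 2 * μ) (r₁ := 20 * μ) (r₂ := 40 * μ) (by positivity) (by linarith) (by positivity)
    hmod hstepP
    (by
      have : (r + 3 * μ) * (π * (2 * μ / (r - 3 * μ))) ≤ 1003 / 1000 * (13 / 2 * (2 * μ)) :=
        mul_le_mul hr1' hη13 (mul_nonneg Real.pi_pos.le (div_nonneg (by positivity) hden0.le)) (by norm_num)
      linarith)
    (by linarith) (by linarith) hNH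
    (by
      intro w hw
      obtain ⟨k, hk⟩ := hnear (arg w)
      refine ⟨k, ?_⟩
      have ew : w = ((r : ℝ) : ℂ) * exp ((arg w : ℂ) * I) := by
        conv_lhs => rw [← norm_mul_exp_arg_mul_I w, hw]
      rw [ew]
      refine hk.trans ?_
      have : 1 ≤ r / (r - 3 * μ) := by rw [one_le_div hden0]; linarith
      nlinarith)
    hor
  have h0 : ∀ k, P (T.src (c.e k)) ≠ 0 := fun k => by
    rw [← norm_pos_iff]; linarith [(hloc k).1]
  have hst : ∀ k, |doLift P c (k + 1) - doLift P c k| ≤ 13 * μ := by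
    intro k
    rw [do_lift_succ, add_sub_cancel_left]
    refine (do_inc_le h0 k).trans ?_
    have h1 : ‖P (T.src (c.e (k + 1))) - P (T.src (c.e k))‖ / ‖P (T.src (c.e k))‖ ≤ 2 * μ / (r - 3 * μ) :=
      div_le_div₀ (by positivity) (hstepP k) hden0 (by linarith [(hloc k).1])
    calc π * (‖P (T.src (c.e (k + 1))) - P (T.src (c.e k))‖ / ‖P (T.src (c.e k))‖) ≤ π * (2 * μ / (r - 3 * μ)) := mul_le_mul_of_nonneg_left h1 Real.pi_pos.le
      _ ≤ 13 * μ := by linarith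
  have hmono' : ∀ k k', k ≤ k' → doLift P c k ≤ doLift P c k' + 273 * μ := fun k k' hkk => by
    have := hmono k k' hkk
    linarith
  obtain ⟨m, q, m1, m2, m3, -⟩ := dos_marks (pl_cyc_pos c) (η := 13 * μ) (δ := 273 * μ) (by positivity) (by positivity) hper hst hmono' (θ := θ)
    (fun j hj => by linarith [hγj j hj]) hθp
  refine ⟨m, fun k => doLift P c k - 2 * π * q, m1, m2, fun k => ?_, fun k => ?_, fun k k' hkk => ?_, fun j hj => ?_⟩
  · have e : exp (((doLift P c k - 2 * π * q : ℝ) : ℂ) * I) = exp ((doLift P c k : ℂ) * I) := by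
      rw [Complex.exp_eq_exp_iff_exists_int]
      exact ⟨-q, by push_cast; ring⟩
    rw [e]
    exact hspec k
  · show doLift P c (k + c.n) - 2 * π * q = doLift P c k - 2 * π * q + 2 * π
    rw [hper]; ring
  · show doLift P c k - 2 * π * q ≤ doLift P c k' - 2 * π * q + δ
    linarith [hmono' k k' hkk]
  · obtain ⟨lo, hi⟩ := m3 j hj
    show |doLift P c (m j) - 2 * π * q - θ j| ≤ δ
    rw [abs_le]
    constructor <;> linarith

end Claimed.Agent.R289
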