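import Claimed.Agent.R289.Pl.Path
import Claimed.Agent.R289.Del.Plane

/-!
# Row 289 (S0537), box DEL-ORD (owner helper253), file Del/OrdCut : A CROSSCUT OF A DISC SEPARATES THE TWO ARCS OF ITS BOUNDARY + THE 1-D LEMMA OF ORD      (owner helper19; prefixes `doc_`, `dos_`)      0 sorry

PL ONLY: `T : PvMap V D`, `hT : T.IsSph`, `c : T.Cyc`, disc of record `c.Left`, `x_k = T.src (c.e k)`.      Source: `pl_cc_excl_aux` (`Pl/Path`, from Hex).      Neither `Simple` nor finiteness of `Left` is needed.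
* sec.1  `doc_edgeIn` (an edge with an end in `Int A` is an edge of `A`), `doc_join_of_adj`, calculus of `T.Join` (`mono right trans symm`)
* sec.2  `doc_idx` (representative of an index in a window), `c.oarc i j` (open arc), `doc_verts_cases`, `doc_oarc_disj`
* sec.3  **`doc_cut`** (index form), **`doc_same_arc`** (two cycle vertices joined off the crosscut lie in the same open arc), **`doc_nh`** (no hairpin, abstract)
* sec.5  PURE REALS: `dosNear x d`, `dos_not_near`, `dos_ivt`, `dos_ivt_down` (discrete intermediate values), record `DosIn n th m η d` (`neg`, `per_mul`, `not_two`, `not_zero`, `mono`),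
         **`dos_main`**: a lift `th` with `th (k+n) = th k + 2π m`, steps `≤ η`, NO HAIRPIN and dense values has `m = ±1` and is monotone up to `d + η`
* sec.6  `dos_first`, **`dos_marks`**: a lift which turns once and is monotone up to `δ` carries four marks `m 0 < … < m 4 = m 0 + n`; the index arc `j` stays within `max δ η` of `[θ j, θ (j+1)] + 2π z`
* sec.7  `dosLift w` (lift of `arg (w k)`): `dos_lift_polar`, `dos_lift_per` (integer number of turns), `dos_lift_sum`, `dos_lift_step`, `dos_lift_diff`;   `dos_near_exp`, `dos_exp_near` (`dosNear` versus chords), `dos_polar_dist`, `dos_abs_arg_le`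
* sec.8  Delaunay plane `(delPl h).toMap`: `doc_del_adj_iff`, `doc_del_conn` (sites whose cell meets a preconnected set), `doc_adj_apex`, **`doc_del_core`** (NO HAIRPIN from two preconnected sets `Σ`, `Γ`: the Delaunay + PL half of `dog_nh`)
* sec.4  `doc_same_arc_adj`, **`doc_nh_nbr`**: forms with adjacent steps through `S ⊆ Int Left` = the inputs produced by `Del/OrdGeo` (crosscut `c_i b_i π b_j c_j`; far cells `G` connected; far cycle vertices `F` have a neighbour in `G`)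
-/

set_option autoImplicit false
set_option linter.unusedVariables false

namespace Claimed.Agent.R289

open Relation

variable {V D : Type} {T : PvMap V D}

/-! ## 1. from adjacent steps to edges of the disc -/

/-- an edge with an end strictly inside `A` is an edge of a face of `A` -/
theorem doc_edgeIn {A : Set D} {u v : V} (h : T.Adj u v) (hi : u ∈ T.Int A ∨ v ∈ T.Int A) : T.EdgeIn A u v := by
  obtain ⟨d, h1, h2⟩ := h
  rcases hi with hu | hv
  · exact ⟨d, Or.inl (hu d h1), h1, h2⟩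
  · exact ⟨d, Or.inr (hv _ (by rw [T.src_opp', h2])), h1, h2⟩

theorem doc_edgeIn_symm {A : Set D} {u v : V} (h : T.EdgeIn A u v) : T.EdgeIn A v u := by
  obtain ⟨d, hd, h1, h2⟩ := h
  refine ⟨T.opp d, ?_, by rw [T.src_opp', h2], by rw [T.tgt_opp, h1]⟩
  rw [T.opp_opp]
  exact hd.symm

/-- a chain of adjacent steps, each with an end in `S ⊆ Int A`, is a join in `A` -/
theorem doc_join_of_adj {A : Set D} {S X : Set V} (hS : S ⊆ T.Int A) {a b : V} (ha : a ∈ X)
    (h : ReflTransGen (fun u v => T.Adj u v ∧ (u ∈ S ∨ v ∈ S) ∧ v ∈ X) a b) : T.Join A X a b :=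
  ⟨ha, ReflTransGen.mono (fun _ _ h' => ⟨doc_edgeIn h'.1 (h'.2.1.imp (fun h => hS h) fun h => hS h), h'.2.2⟩) _ _ h⟩

theorem doc_join_mono {A : Set D} {X X' : Set V} (hX : X ⊆ X') {a b : V} (h : T.Join A X a b) : T.Join A X' a b :=
  ⟨hX h.1, ReflTransGen.mono (fun _ _ h' => ⟨h'.1, hX h'.2⟩) _ _ h.2⟩

theorem doc_join_right {A : Set D} {X : Set V} {a b : V} (h : T.Join A X a b) : b ∈ X := by
  obtain ⟨ha, hab⟩ := h
  cases hab with
  | refl => exact ha
  | tail _ hbc => exact hbc.2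

theorem doc_join_trans {A : Set D} {X : Set V} {a b c : V} (h : T.Join A X a b) (h' : T.Join A X b c) : T.Join A X a c := ⟨h.1, h.2.trans h'.2⟩

theorem doc_join_symm {A : Set D} {X : Set V} {a b : V} (h : T.Join A X a b) : T.Join A X b a := by
  refine ⟨doc_join_right h, ?_⟩
  obtain ⟨ha, hab⟩ := h
  induction hab with
  | refl => exact ReflTransGen.refl
  | @tail u w huv hstep ih =>
    have hu : u ∈ X := doc_join_right ⟨ha, huv⟩
    exact ReflTransGen.head ⟨doc_edgeIn_symm hstep.1, hu⟩ ih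

/-! ## 2. indices -/

/-- every index has a representative in a given window of one period -/
theorem doc_idx (c : T.Cyc) (i l : ℕ) : ∃ k, i ≤ k ∧ k < i + c.n ∧ c.e k = c.e l := by
  have hn := pl_cyc_pos c
  refine ⟨i + (l + (c.n - i % c.n)) % c.n, Nat.le_add_right _ _, Nat.add_lt_add_left (Nat.mod_lt _ hn) _, ?_⟩
  apply pl_cyc_eq_of_mod
  have h1 : i % c.n < c.n := Nat.mod_lt _ hn
  have h2 : (i + (c.n - i % c.n)) % c.n = 0 := by
    have e : i + (c.n - i % c.n) = c.n * (i / c.n + 1) := by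
      have := Nat.div_add_mod i c.n
      have h3 : c.n * (i / c.n + 1) = c.n * (i / c.n) + c.n := by ring
      omega
    rw [e]; exact Nat.mul_mod_right _ _
  rw [Nat.add_mod_mod]
  have e2 : i + (l + (c.n - i % c.n)) = l + (i + (c.n - i % c.n)) := by omega
  rw [e2, Nat.add_mod, h2, Nat.add_zero, Nat.mod_mod]

/-- the open arc `]i, j[` of the cycle, as a set of vertices -/
def PvMap.Cyc.oarc (c : T.Cyc) (i j : ℕ) : Set V := {v | ∃ k, i < k ∧ k < j ∧ T.src (c.e k) = v}

theorem doc_eqns_cite : True := by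
  have := @PvMap.Cyc.oarc.eq_1
  trivial

theorem doc_oarc_sub_arc (c : T.Cyc) (i j : ℕ) : c.oarc i j ⊆ c.arc i j := fun _ ⟨k, h1, h2, h3⟩ => ⟨k, h1.le, h2.le, h3⟩

/-- a vertex of the cycle is `x_i`, `x_j` or lies in one of the two open arcs -/
theorem doc_verts_cases (c : T.Cyc) {i j : ℕ} (hij : i < j) (hji : j < i + c.n) {v : V} (hv : v ∈ c.verts) :
    v = T.src (c.e i) ∨ v = T.src (c.e j) ∨ v ∈ c.oarc i j ∨ v ∈ c.oarc j (i + c.n) := by
  obtain ⟨l, rfl⟩ := hv
  obtain ⟨k, h1, h2, h3⟩ := doc_idx c i l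
  rw [← h3]
  rcases Nat.lt_trichotomy k i with h | rfl | h
  · omega
  · exact Or.inl rfl
  · rcases Nat.lt_trichotomy k j with h' | rfl | h'
    · exact Or.inr (Or.inr (Or.inl ⟨k, h, h', rfl⟩))
    · exact Or.inr (Or.inl rfl)
    · exact Or.inr (Or.inr (Or.inr ⟨k, h', h2, rfl⟩))

/-- the two open arcs are disjoint -/
theorem doc_oarc_disj (c : T.Cyc) {i j : ℕ} (hij : i < j) (hji : j < i + c.n) : Disjoint (c.oarc i j) (c.oarc j (i + c.n)) := by
  rw [Set.disjoint_left]
  rintro v ⟨k, h1, h2, rfl⟩ ⟨k', h1', h2', h3⟩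
  have := pl_cyc_idx c h3.symm (by omega) (by omega)
  omega

/-! ## 3. the crosscut lemma -/

/-- **CROSSCUT**, index form: an `X`-join `x_i → x_j` and a `Y`-join `x_l → x_l'` with `i ≤ l ≤ j ≤ l' ≤ i + n` force `X ∩ Y ≠ ∅` -/
theorem doc_cut (hT : T.IsSph) (c : T.Cyc) {i j l l' : ℕ} (h1 : i ≤ l) (h2 : l ≤ j) (h3 : j ≤ l') (h4 : l' ≤ i + c.n) {X Y : Set V}
    (hX : T.Join c.Left X (T.src (c.e i)) (T.src (c.e j))) (hY : T.Join c.Left Y (T.src (c.e l)) (T.src (c.e l'))) : (X ∩ Y).Nonempty :=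
  pl_cc_excl_aux hT c h1 h2 h3 h4 ⟨i, le_rfl, h1, rfl⟩ ⟨j, le_rfl, h3, rfl⟩ ⟨l, le_rfl, h2, rfl⟩ ⟨l', le_rfl, h4, rfl⟩ hX hY

/-- **CROSSCUT**, arc form: two vertices of the cycle, off the crosscut, joined in the closed disc off the crosscut, lie in the SAME open arc -/
theorem doc_same_arc (hT : T.IsSph) (c : T.Cyc) {i j : ℕ} (hij : i < j) (hji : j < i + c.n) {X Y : Set V} (hXY : Disjoint X Y)
    (hX : T.Join c.Left X (T.src (c.e i)) (T.src (c.e j))) {u v : V} (hu : u ∈ c.verts) (hv : v ∈ c.verts) (hY : T.Join c.Left Y u v) :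
    (u ∈ c.oarc i j ∧ v ∈ c.oarc i j) ∨ (u ∈ c.oarc j (i + c.n) ∧ v ∈ c.oarc j (i + c.n)) := by
  have hiX : T.src (c.e i) ∈ X := hX.1
  have hjX : T.src (c.e j) ∈ X := doc_join_right hX
  have huY : u ∈ Y := hY.1
  have hvY : v ∈ Y := doc_join_right hY
  have off : ∀ w ∈ Y, w ∈ c.verts → w ∈ c.oarc i j ∨ w ∈ c.oarc j (i + c.n) := by
    intro w hwY hw
    rcases doc_verts_cases c hij hji hw with rfl | rfl | h | h
    · exact absurd hwY (Set.disjoint_left.1 hXY hiX)
    · exact absurd hwY (Set.disjoint_left.1 hXY hjX)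
    · exact Or.inl h
    · exact Or.inr h
  have hne : ¬ (X ∩ Y).Nonempty := by
    rw [Set.not_nonempty_iff_eq_empty, ← Set.disjoint_iff_inter_eq_empty]; exact hXY
  rcases off u huY hu with h | h <;> rcases off v hvY hv with h' | h'
  · exact Or.inl ⟨h, h'⟩
  · exfalso
    obtain ⟨k, k1, k2, rfl⟩ := h
    obtain ⟨k', k1', k2', rfl⟩ := h'
    exact hne (doc_cut hT c k1.le k2.le k1'.le k2'.le hX hY)
  · exfalso
    obtain ⟨k, k1, k2, rfl⟩ := h
    obtain ⟨k', k1', k2', rfl⟩ := h'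
    exact hne (doc_cut hT c k1'.le k2'.le k1.le k2.le hX (doc_join_symm hY))
  · exact Or.inr ⟨h, h'⟩

/-- **NO HAIRPIN**, abstract form: if all the vertices of the cycle lying in `F` are pairwise joined in the closed disc off the crosscut, one of the two closed arcs misses `F` -/
theorem doc_nh (hT : T.IsSph) (c : T.Cyc) {i j : ℕ} {X Y F : Set V} (hXY : Disjoint X Y)
    (hX : T.Join c.Left X (T.src (c.e i)) (T.src (c.e j)))
    (hF : ∀ u ∈ F, ∀ v ∈ F, u ∈ c.verts → v ∈ c.verts → T.Join c.Left Y u v) :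
    (∀ l, i ≤ l → l ≤ j → T.src (c.e l) ∉ F) ∨ (∀ l, j ≤ l → l ≤ i + c.n → T.src (c.e l) ∉ F) := by
  by_contra hcon
  push Not at hcon
  obtain ⟨⟨l, l1, l2, hl⟩, ⟨l', l1', l2', hl'⟩⟩ := hcon
  have hne : ¬ (X ∩ Y).Nonempty := by
    rw [Set.not_nonempty_iff_eq_empty, ← Set.disjoint_iff_inter_eq_empty]; exact hXY
  exact hne (doc_cut hT c l1 l2 l1' l2' hX (hF _ hl _ hl' ⟨l, rfl⟩ ⟨l', rfl⟩))

/-! ## 4. forms with adjacent steps (inputs of the geometric block `Del/OrdGeo`) -/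

/-- **CROSSCUT through `S ⊆ Int Left`** (adjacent steps, each with an end in `S`): two vertices of the cycle other than `x_i`, `x_j`, joined in the closed disc off `S ∪ {x_i, x_j}`, lie in the same open arc -/
theorem doc_same_arc_adj (hT : T.IsSph) (c : T.Cyc) {i j : ℕ} (hij : i < j) (hji : j < i + c.n) {S Y : Set V} (hS : S ⊆ T.Int c.Left)
    (hcut : ReflTransGen (fun u v => T.Adj u v ∧ (u ∈ S ∨ v ∈ S) ∧ (v ∈ S ∨ v = T.src (c.e j))) (T.src (c.e i)) (T.src (c.e j)))
    (hSY : Disjoint S Y) (hi : T.src (c.e i) ∉ Y) (hj : T.src (c.e j) ∉ Y) {u v : V} (hu : u ∈ c.verts) (hv : v ∈ c.verts)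
    (hY : T.Join c.Left Y u v) :
    (u ∈ c.oarc i j ∧ v ∈ c.oarc i j) ∨ (u ∈ c.oarc j (i + c.n) ∧ v ∈ c.oarc j (i + c.n)) := by
  set X : Set V := S ∪ {T.src (c.e i), T.src (c.e j)} with hXdef
  have hX : T.Join c.Left X (T.src (c.e i)) (T.src (c.e j)) := by
    refine doc_join_of_adj hS (Or.inr (Or.inl rfl)) (ReflTransGen.mono ?_ _ _ hcut)
    rintro a b ⟨h1, h2, h3⟩
    exact ⟨h1, h2, h3.imp id fun h => Or.inr h⟩
  have hXY : Disjoint X Y := by
    rw [Set.disjoint_left]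
    rintro w (hw | rfl | rfl) hwY
    · exact Set.disjoint_left.1 hSY hw hwY
    · exact hi hwY
    · exact hj hwY
  exact doc_same_arc hT c hij hji hXY hX hu hv hY

/-- **NO HAIRPIN**, neighbour form.      `S`, `G ⊆ Int Left` disjoint; a crosscut `x_i → x_j` through `S`; `G` connected (adjacent steps inside `G`); every vertex of the cycle lying in `F` has a neighbour in `G`;
`x_i, x_j ∉ F`.      Then one of the two closed arcs of the cycle between `x_i` and `x_j` misses `F`. -/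
theorem doc_nh_nbr (hT : T.IsSph) (c : T.Cyc) {i j : ℕ} {S G F : Set V} (hS : S ⊆ T.Int c.Left) (hG : G ⊆ T.Int c.Left) (hSG : Disjoint S G)
    (hcut : ReflTransGen (fun u v => T.Adj u v ∧ (u ∈ S ∨ v ∈ S) ∧ (v ∈ S ∨ v = T.src (c.e j))) (T.src (c.e i)) (T.src (c.e j)))
    (hi : T.src (c.e i) ∉ F) (hj : T.src (c.e j) ∉ F) (hnb : ∀ u ∈ F, u ∈ c.verts → ∃ b ∈ G, T.Adj u b)
    (hconn : ∀ b ∈ G, ∀ b' ∈ G, ReflTransGen (fun u v => T.Adj u v ∧ v ∈ G) b b') :
    (∀ l, i ≤ l → l ≤ j → T.src (c.e l) ∉ F) ∨ (∀ l, j ≤ l → l ≤ i + c.n → T.src (c.e l) ∉ F) := by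
  obtain ⟨hd, -, -⟩ := pl_jordan_vert_disj hT c
  set X : Set V := S ∪ {T.src (c.e i), T.src (c.e j)} with hXdef
  set Y : Set V := G ∪ (F ∩ c.verts) with hYdef
  have hX : T.Join c.Left X (T.src (c.e i)) (T.src (c.e j)) := by
    refine doc_join_of_adj hS (Or.inr (Or.inl rfl)) (ReflTransGen.mono ?_ _ _ hcut)
    rintro a b ⟨h1, h2, h3⟩
    exact ⟨h1, h2, h3.imp id fun h => Or.inr h⟩
  have hXY : Disjoint X Y := by
    rw [Set.disjoint_left]
    rintro w (hw | rfl | rfl) (hwG | ⟨hwF, hwc⟩)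
    · exact Set.disjoint_left.1 hSG hw hwG
    · exact Set.disjoint_left.1 hd hwc (hS hw)
    · exact Set.disjoint_left.1 hd ⟨i, rfl⟩ (hG hwG)
    · exact hi hwF
    · exact Set.disjoint_left.1 hd ⟨j, rfl⟩ (hG hwG)
    · exact hj hwF
  refine doc_nh hT c hXY hX ?_
  intro u hu v hv huc hvc
  obtain ⟨b, hb, hub⟩ := hnb u hu huc
  obtain ⟨b', hb', hvb'⟩ := hnb v hv hvc
  have j1 : T.Join c.Left Y u b := ⟨Or.inr ⟨hu, huc⟩, ReflTransGen.single ⟨doc_edgeIn hub (Or.inr (hG hb)), Or.inl hb⟩⟩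
  have j2 : T.Join c.Left Y b b' := ⟨Or.inl hb, ReflTransGen.mono (fun x y h => ⟨doc_edgeIn h.1 (Or.inr (hG h.2)), Or.inl h.2⟩) _ _ (hconn b hb b' hb')⟩
  have j3 : T.Join c.Left Y b' v := ⟨Or.inl hb', ReflTransGen.single ⟨doc_edgeIn (T.adj_symm hvb') (Or.inl (hG hb')), Or.inr ⟨hv, hvc⟩⟩⟩
  exact doc_join_trans j1 (doc_join_trans j2 j3)

/-! ## 5. the 1-D lemma of ORD (pure reals; text of the exit `dos_main` by helper253) -/

section seq

open Real

/-- `x` is within `d` of a multiple of `2π` -/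
def dosNear (x d : ℝ) : Prop := ∃ m : ℤ, |x - 2 * π * m| ≤ d

theorem dos_eqns_cite : True := by
  have := @dosNear.eq_1
  trivial

theorem dos_near_neg {x d : ℝ} (h : dosNear x d) : dosNear (-x) d := by
  obtain ⟨m, hm⟩ := h
  refine ⟨-m, ?_⟩
  rw [← abs_neg]
  push_cast
  convert hm using 2
  ring

theorem dos_not_near {x d : ℝ} (z : ℤ) (h1 : 2 * π * z + d < x) (h2 : x < 2 * π * (z + 1) - d) : ¬ dosNear x d := by
  rintro ⟨m, hm⟩
  rw [abs_le] at hm
  have hπ := pi_pos
  have e1 : (z : ℝ) < m := by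
    by_contra hh
    rw [not_lt] at hh
    nlinarith
  have e2 : (m : ℝ) < z + 1 := by
    by_contra hh
    rw [not_lt] at hh
    nlinarith
  have e1' : z < m := by exact_mod_cast e1
  have e2' : m < z + 1 := by exact_mod_cast e2
  omega

/-- discrete intermediate value theorem: the first index above a level -/
theorem dos_ivt {th : ℕ → ℝ} {η : ℝ} (hstep : ∀ k, |th (k + 1) - th k| ≤ η) {a b : ℕ} (hab : a ≤ b) {lam : ℝ} (ha : th a < lam) (hb : lam ≤ th b) :
    ∃ l, a < l ∧ l ≤ b ∧ lam ≤ th l ∧ th l < lam + η := by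
  classical
  have hex : ∃ l, a ≤ l ∧ lam ≤ th l := ⟨b, hab, hb⟩
  obtain ⟨h1, h2⟩ := Nat.find_spec hex
  set l := Nat.find hex with hl
  have hne : l ≠ a := by
    intro e
    rw [e] at h2
    linarith
  have hlt : a < l := lt_of_le_of_ne h1 (Ne.symm hne)
  have hmin : ¬ (a ≤ l - 1 ∧ lam ≤ th (l - 1)) := Nat.find_min hex (by omega)
  have h3 : th (l - 1) < lam := by
    by_contra hh
    exact hmin ⟨by omega, not_lt.1 hh⟩
  have h4 := hstep (l - 1)
  rw [show l - 1 + 1 = l by omega, abs_le] at h4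
  exact ⟨l, hlt, Nat.find_min' hex ⟨hab, hb⟩, h2, by linarith⟩

/-- the first index below a level -/
theorem dos_ivt_down {th : ℕ → ℝ} {η : ℝ} (hstep : ∀ k, |th (k + 1) - th k| ≤ η) {a b : ℕ} (hab : a ≤ b) {lam : ℝ} (ha : lam < th a) (hb : th b ≤ lam) :
    ∃ l, a < l ∧ l ≤ b ∧ th l ≤ lam ∧ lam - η < th l := by
  have hs : ∀ k, |(fun k => -th k) (k + 1) - (fun k => -th k) k| ≤ η := by
    intro k
    have := hstep k
    rw [← abs_neg] at this
    convert this using 2
    ring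
  obtain ⟨l, h1, h2, h3, h4⟩ := dos_ivt (th := fun k => -th k) hs hab (lam := -lam) (by simpa using ha) (by simpa using hb)
  exact ⟨l, h1, h2, by simpa using h3, by linarith⟩

/-- the hypotheses of the 1-D lemma (without density) -/
structure DosIn (n : ℕ) (th : ℕ → ℝ) (m : ℤ) (η d : ℝ) : Prop where
  hη : 0 < η
  hηd : η ≤ d
  hd : d ≤ 1 / 4
  per : ∀ k, th (k + n) = th k + 2 * π * m
  step : ∀ k, |th (k + 1) - th k| ≤ η
  nh : ∀ i j, i < j → j < i + n → dosNear (th j - th i) η →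
    (∀ l, i ≤ l → l ≤ j → dosNear (th l - th i) d) ∨ (∀ l, j ≤ l → l ≤ i + n → dosNear (th l - th i) d)

theorem DosIn.neg {n : ℕ} {th : ℕ → ℝ} {m : ℤ} {η d : ℝ} (h : DosIn n th m η d) : DosIn n (fun k => -th k) (-m) η d where
  hη := h.hη
  hηd := h.hηd
  hd := h.hd
  per k := by
    simp only [h.per k]
    push_cast
    ring
  step k := by
    have := h.step k
    rw [← abs_neg] at this
    convert this using 2
    ring
  nh i j hij hji hn := by
    have e : ∀ l, -th l - -th i = -(th l - th i) := fun l => by ring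
    have hn' : dosNear (th j - th i) η := by
      have := dos_near_neg hn
      simp only [e, neg_neg] at this
      exact this
    rcases h.nh i j hij hji hn' with h1 | h1
    · left
      intro l l1 l2
      simp only [e]
      exact dos_near_neg (h1 l l1 l2)
    · right
      intro l l1 l2
      simp only [e]
      exact dos_near_neg (h1 l l1 l2)

theorem DosIn.per_mul {n : ℕ} {th : ℕ → ℝ} {m : ℤ} {η d : ℝ} (h : DosIn n th m η d) (k t : ℕ) : th (k + t * n) = th k + 2 * π * m * t := by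
  induction t with
  | zero => simp
  | succ t ih =>
    rw [show k + (t + 1) * n = (k + t * n) + n by ring, h.per, ih]
    push_cast
    ring

/-- **two turns are impossible** -/
theorem DosIn.not_two {n : ℕ} {th : ℕ → ℝ} {m : ℤ} {η d : ℝ} (h : DosIn n th m η d) (hm : 2 ≤ m) : False := by
  have hπ := pi_gt_three
  have hη := h.hη
  have hηd := h.hηd
  have hd := h.hd
  have hm' : (2 : ℝ) ≤ m := by exact_mod_cast hm
  have hn : th n = th 0 + 2 * π * m := by have := h.per 0; rwa [zero_add] at this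
  have hn4 : th 0 + 4 * π ≤ th n := by rw [hn]; nlinarith
  obtain ⟨j, j0, jn, j1, j2⟩ := dos_ivt h.step (Nat.zero_le n) (lam := th 0 + 2 * π) (by linarith) (by linarith)
  have jlt : j < 0 + n := by
    rcases jn.lt_or_eq with h' | rfl
    · omega
    · exfalso; linarith
  have hnear : dosNear (th j - th 0) η := ⟨1, by rw [abs_le]; push_cast; constructor <;> linarith⟩
  rcases h.nh 0 j j0 jlt hnear with h1 | h1
  · obtain ⟨l, l0, lj, l1, l2⟩ := dos_ivt h.step j0.le (lam := th 0 + π) (by linarith) (by linarith)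
    exact dos_not_near 0 (by push_cast; linarith) (by push_cast; linarith) (h1 l l0.le lj)
  · obtain ⟨l, l0, lj, l1, l2⟩ := dos_ivt h.step jn (lam := th 0 + 3 * π) (by linarith) (by linarith)
    exact dos_not_near 1 (by push_cast; linarith) (by push_cast; linarith) (h1 l l0.le (by omega))

/-- **no turn is impossible**, half: some value is half a turn above `th 0` -/
theorem DosIn.not_zero_up {n : ℕ} {th : ℕ → ℝ} {η d : ℝ} (h : DosIn n th 0 η d) (hn0 : 0 < n) {k : ℕ} (hk : th 0 + π - d ≤ th k) : False := by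
  have hπ := pi_gt_three
  have hη := h.hη
  have hηd := h.hηd
  have hd := h.hd
  -- reduce `k` modulo `n`
  have hmod : th (k % n) = th k := by
    have := h.per_mul (k % n) (k / n)
    rw [show k % n + k / n * n = k by rw [mul_comm]; exact Nat.mod_add_div k n] at this
    rw [this]; simp
  set k₀ := k % n with hk₀
  have hk₀n : k₀ < n := Nat.mod_lt _ hn0
  rw [← hmod] at hk
  have hn : th n = th 0 := by have := h.per 0; rw [zero_add] at this; rw [this]; simp
  obtain ⟨i, i0, ik, i1, i2⟩ := dos_ivt h.step (Nat.zero_le k₀) (lam := th 0 + 1) (by linarith) (by linarith)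
  obtain ⟨j, jk, jn, j1, j2⟩ := dos_ivt_down h.step hk₀n.le (lam := th i) (by linarith) (by linarith)
  have hnear : dosNear (th j - th i) η := ⟨0, by rw [abs_le]; push_cast; constructor <;> linarith⟩
  rcases h.nh i j (by omega) (by omega) hnear with h1 | h1
  · obtain ⟨l, l0, lj, l1, l2⟩ := dos_ivt h.step ik (lam := th i + 1) (by linarith) (by linarith)
    exact dos_not_near 0 (by push_cast; linarith) (by push_cast; linarith) (h1 l l0.le (by omega))
  · exact dos_not_near (-1) (by push_cast; linarith) (by push_cast; linarith) (h1 n jn (by omega))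

/-- **no turn is impossible** -/
theorem DosIn.not_zero {n : ℕ} {th : ℕ → ℝ} {η d : ℝ} (h : DosIn n th 0 η d) (hn0 : 0 < n) (hdense : ∀ φ : ℝ, ∃ k, dosNear (th k - φ) d) : False := by
  have hπ := pi_gt_three
  obtain ⟨k, z, hz⟩ := hdense (th 0 + π)
  rw [abs_le] at hz
  rcases le_or_gt 0 z with hz0 | hz0
  · have : (0 : ℝ) ≤ z := by exact_mod_cast hz0
    exact h.not_zero_up hn0 (k := k) (by nlinarith)
  · have : (z : ℝ) ≤ -1 := by exact_mod_cast (by omega : z ≤ -1)
    have h' : DosIn n (fun k => -th k) 0 η d := by simpa using h.neg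
    exact h'.not_zero_up hn0 (k := k) (by nlinarith)

/-- **one turn: no backtrack** -/
theorem DosIn.mono {n : ℕ} {th : ℕ → ℝ} {η d : ℝ} (h : DosIn n th 1 η d) (hn0 : 0 < n) {k k' : ℕ} (hkk : k ≤ k') : th k ≤ th k' + (d + η) := by
  have hπ := pi_gt_three
  have hη := h.hη
  have hηd := h.hηd
  have hd := h.hd
  by_contra hcon
  rw [not_le] at hcon
  -- move `k` into the last period before `k'`
  obtain ⟨t, ht⟩ : ∃ t, t = (k' - k) / n := ⟨_, rfl⟩
  obtain ⟨k₁, hk₁⟩ : ∃ k₁, k₁ = k + t * n := ⟨_, rfl⟩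
  have hk₁le : k₁ ≤ k' := by
    have := Nat.div_mul_le_self (k' - k) n
    rw [← ht] at this
    omega
  have hk₁lt : k' < k₁ + n := by
    have := Nat.lt_div_mul_add (a := k' - k) hn0
    rw [← ht] at this
    omega
  have hth : th k ≤ th k₁ := by
    rw [hk₁, h.per_mul]
    have : (0 : ℝ) ≤ t := Nat.cast_nonneg t
    push_cast
    nlinarith
  have hper : th (k₁ + n) = th k₁ + 2 * π := by rw [h.per]; push_cast; ring
  obtain ⟨l, l0, l1, l2, l3⟩ := dos_ivt_down h.step hk₁le (lam := th k₁ - d - η / 2) (by linarith) (by linarith)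
  obtain ⟨j, j0, j1, j2, j3⟩ := dos_ivt h.step (show l ≤ k₁ + n by omega) (lam := th k₁) (by linarith) (by linarith)
  have jlt : j < k₁ + n := by
    rcases j1.lt_or_eq with h' | rfl
    · exact h'
    · exfalso; linarith
  have hnear : dosNear (th j - th k₁) η := ⟨0, by rw [abs_le]; push_cast; constructor <;> linarith⟩
  rcases h.nh k₁ j (by omega) jlt hnear with h1 | h1
  · exact dos_not_near (-1) (by push_cast; linarith) (by push_cast; linarith) (h1 l l0.le j0.le)
  · obtain ⟨l', a0, a1, a2, a3⟩ := dos_ivt h.step j1 (lam := th k₁ + π) (by linarith) (by linarith)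
    exact dos_not_near 0 (by push_cast; linarith) (by push_cast; linarith) (h1 l' a0.le a1)

/-- **the 1-D lemma of ORD**: a periodic lift with small steps, no hairpin and dense values turns exactly once, and is monotone up to `d + η` -/
theorem dos_main {n : ℕ} (hn : 0 < n) {th : ℕ → ℝ} {m : ℤ} {η d : ℝ} (hη : 0 < η) (hηd : η ≤ d) (hd : d ≤ 1 / 4)
    (hper : ∀ k, th (k + n) = th k + 2 * π * m)
    (hstep : ∀ k, |th (k + 1) - th k| ≤ η)
    (hNH : ∀ i j, i < j → j < i + n → dosNear (th j - th i) η →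
      (∀ l, i ≤ l → l ≤ j → dosNear (th l - th i) d) ∨ (∀ l, j ≤ l → l ≤ i + n → dosNear (th l - th i) d))
    (hdense : ∀ φ : ℝ, ∃ k, dosNear (th k - φ) d) :
    (m = 1 ∧ ∀ k k', k ≤ k' → th k ≤ th k' + (d + η)) ∨ (m = -1 ∧ ∀ k k', k ≤ k' → th k' ≤ th k + (d + η)) := by
  have h : DosIn n th m η d := ⟨hη, hηd, hd, hper, hstep, hNH⟩
  rcases lt_trichotomy m 0 with hm | rfl | hm
  · rcases (show m ≤ -2 ∨ m = -1 by omega) with h2 | rfl
    · exact (h.neg.not_two (by omega)).elim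
    · right
      refine ⟨rfl, fun k k' hkk => ?_⟩
      have h' : DosIn n (fun k => -th k) 1 η d := by simpa using h.neg
      have := h'.mono hn hkk
      linarith
  · exact (h.not_zero hn hdense).elim
  · rcases (show 2 ≤ m ∨ m = 1 by omega) with h2 | rfl
    · exact (h.not_two h2).elim
    · exact Or.inl ⟨rfl, fun k k' hkk => h.mono hn hkk⟩

end seq

/-! ## 6. marks on a quasi-monotone lift (pure reals) -/

section marks

open Real

/-- the first index above a level, with minimality -/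
theorem dos_first {th : ℕ → ℝ} {η : ℝ} (hstep : ∀ k, |th (k + 1) - th k| ≤ η) {lam : ℝ} (h0 : th 0 < lam) (hex : ∃ b, lam ≤ th b) :
    ∃ l, 0 < l ∧ lam ≤ th l ∧ th l < lam + η ∧ ∀ l', l' < l → th l' < lam := by
  classical
  have h2 := Nat.find_spec hex
  obtain ⟨l, hl⟩ : ∃ l, l = Nat.find hex := ⟨_, rfl⟩
  rw [← hl] at h2
  have hne : l ≠ 0 := by
    intro e
    rw [e] at h2
    linarith
  have hmin : ∀ l', l' < l → th l' < lam := fun l' hl' => by
    by_contra hh
    exact Nat.find_min hex (hl ▸ hl') (not_lt.1 hh)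
  have h4 := hstep (l - 1)
  rw [show l - 1 + 1 = l by omega, abs_le] at h4
  exact ⟨l, by omega, h2, by linarith [hmin (l - 1) (by omega)], hmin⟩

/-- **MARKS** (text of the exit by helper253): a lift which turns once and is monotone up to `δ` carries four marks met in the positive order; on the index arc `j` the lift stays in `[θ j - δ, θ (j+1) + η] + 2π q` -/
theorem dos_marks {n : ℕ} (hn : 0 < n) {th : ℕ → ℝ} {η δ : ℝ} (hη : 0 ≤ η) (hδ : 0 ≤ δ)
    (hper : ∀ k, th (k + n) = th k + 2 * π)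
    (hstep : ∀ k, |th (k + 1) - th k| ≤ η)
    (hmono : ∀ k k', k ≤ k' → th k ≤ th k' + δ)
    {θ : ℕ → ℝ} (hlt : ∀ j, j < 4 → θ j + η < θ (j + 1)) (hθper : θ 4 = θ 0 + 2 * π) :
    ∃ (m : ℕ → ℕ) (q : ℤ), (∀ j, j < 4 → m j < m (j + 1)) ∧ m 4 = m 0 + n ∧
      (∀ j, j ≤ 4 → θ j + 2 * π * q ≤ th (m j) ∧ th (m j) ≤ θ j + 2 * π * q + η) ∧
      (∀ j, j < 4 → ∀ k, m j ≤ k → k ≤ m (j + 1) → θ j + 2 * π * q - δ ≤ th k ∧ th k ≤ θ (j + 1) + 2 * π * q + η) := by
  have hπ := pi_pos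
  obtain ⟨z, hz⟩ := exists_int_gt ((th 0 + δ - θ 0) / (2 * π))
  rw [div_lt_iff₀ (by positivity)] at hz
  have hΘ0 : th 0 + δ < θ 0 + 2 * π * z := by linarith
  have hmul : ∀ t : ℕ, th (0 + t * n) = th 0 + 2 * π * t := by
    intro t
    induction t with
    | zero => simp
    | succ t ih =>
      rw [show 0 + (t + 1) * n = (0 + t * n) + n by ring, hper, ih]
      push_cast
      ring
  have hunb : ∀ lam : ℝ, ∃ b, lam ≤ th b := by
    intro lam
    obtain ⟨t, ht⟩ := exists_nat_gt ((lam - th 0) / (2 * π))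
    rw [div_lt_iff₀ (by positivity)] at ht
    exact ⟨0 + t * n, by rw [hmul]; linarith⟩
  have hθmono : ∀ j, j ≤ 4 → θ 0 ≤ θ j := by
    intro j hj
    have h0 := hlt 0 (by norm_num)
    have h1 := hlt 1 (by norm_num)
    have h2 := hlt 2 (by norm_num)
    have h3 := hlt 3 (by norm_num)
    norm_num at h0 h1 h2 h3
    interval_cases j <;> linarith
  have hex : ∀ j, ∃ l, j ≤ 4 → (0 < l ∧ θ j + 2 * π * z ≤ th l ∧ th l < θ j + 2 * π * z + η ∧ ∀ l', l' < l → th l' < θ j + 2 * π * z) := by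
    intro j
    by_cases hj : j ≤ 4
    · obtain ⟨l, hl⟩ := dos_first hstep (lam := θ j + 2 * π * z) (by linarith [hθmono j hj]) (hunb _)
      exact ⟨l, fun _ => hl⟩
    · exact ⟨0, fun h => absurd h hj⟩
  choose m hm using hex
  have hlt' : ∀ j, j < 4 → m j < m (j + 1) := by
    intro j hj
    obtain ⟨-, a1, a2, a3⟩ := hm j (by omega)
    obtain ⟨-, b1, b2, b3⟩ := hm (j + 1) (by omega)
    have hg := hlt j hj
    by_contra hcon
    rw [not_lt] at hcon
    rcases hcon.lt_or_eq with h | h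
    · linarith [a3 _ h]
    · rw [h] at b1; linarith
  have h4 : m 4 = m 0 + n := by
    obtain ⟨-, a1, a2, a3⟩ := hm 0 (by omega)
    obtain ⟨-, b1, b2, b3⟩ := hm 4 (by omega)
    apply le_antisymm
    · by_contra hcon
      rw [not_le] at hcon
      have := b3 _ hcon
      rw [hper, hθper] at this
      linarith
    · have hn4 : n ≤ m 4 := by
        by_contra hcon
        rw [not_le] at hcon
        have h1 := hmono (m 4) n hcon.le
        have h2 := hper 0
        rw [zero_add] at h2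
        rw [hθper] at b1
        linarith
      obtain ⟨q, hq⟩ := Nat.exists_eq_add_of_le hn4
      have h1 : th (m 4) = th q + 2 * π := by rw [hq, add_comm, hper]
      have h2 : m 0 ≤ q := by
        by_contra hcon
        rw [not_le] at hcon
        have := a3 _ hcon
        rw [hθper] at b1
        linarith
      omega
  refine ⟨m, z, hlt', h4, fun j hj => ⟨(hm j hj).2.1, (hm j hj).2.2.1.le⟩, ?_⟩
  intro j hj k hk1 hk2
  obtain ⟨-, a1, a2, a3⟩ := hm j (by omega)
  obtain ⟨-, b1, b2, b3⟩ := hm (j + 1) (by omega)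
  refine ⟨by linarith [hmono _ _ hk1], ?_⟩
  rcases hk2.lt_or_eq with h | h
  · linarith [b3 _ h]
  · rw [h]; exact b2.le

/-- **MARKS**, form with a parameter `t ∈ [θ j, θ (j+1)]` -/
theorem dos_marks_t {n : ℕ} (hn : 0 < n) {th : ℕ → ℝ} {η δ : ℝ} (hη : 0 ≤ η) (hδ : 0 ≤ δ)
    (hper : ∀ k, th (k + n) = th k + 2 * π) (hstep : ∀ k, |th (k + 1) - th k| ≤ η) (hmono : ∀ k k', k ≤ k' → th k ≤ th k' + δ)
    {θ : ℕ → ℝ} (hlt : ∀ j, j < 4 → θ j + η < θ (j + 1)) (hθper : θ 4 = θ 0 + 2 * π) :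
    ∃ (m : ℕ → ℕ) (q : ℤ), (∀ j, j < 4 → m j < m (j + 1)) ∧ m 4 = m 0 + n ∧
      (∀ j, j ≤ 4 → |th (m j) - (θ j + 2 * π * q)| ≤ η) ∧
      ∀ j, j < 4 → ∀ k, m j ≤ k → k ≤ m (j + 1) → ∃ t, θ j ≤ t ∧ t ≤ θ (j + 1) ∧ |th k - (t + 2 * π * q)| ≤ max δ η := by
  obtain ⟨m, z, h1, h2, h3, h4⟩ := dos_marks hn hη hδ hper hstep hmono hlt hθper
  refine ⟨m, z, h1, h2, fun j hj => ?_, ?_⟩
  · obtain ⟨a, b⟩ := h3 j hj
    rw [abs_le]; constructor <;> linarith
  intro j hj k hk1 hk2
  obtain ⟨lo, hi⟩ := h4 j hj k hk1 hk2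
  have hg := hlt j hj
  rcases lt_or_ge (th k - 2 * π * z) (θ j) with c1 | c1
  · refine ⟨θ j, le_rfl, by linarith, ?_⟩
    rw [abs_le]
    constructor
    · linarith [le_max_left δ η]
    · linarith [le_max_left δ η]
  · rcases lt_or_ge (θ (j + 1)) (th k - 2 * π * z) with c2 | c2
    · refine ⟨θ (j + 1), by linarith, le_rfl, ?_⟩
      rw [abs_le]
      constructor
      · linarith [le_max_right δ η]
      · linarith [le_max_right δ η]
    · refine ⟨th k - 2 * π * z, c1, c2, ?_⟩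
      rw [show th k - (th k - 2 * π * z + 2 * π * z) = 0 by ring, abs_zero]
      exact le_max_of_le_left hδ

end marks

/-! ## 7. lifts of the argument along a sequence of nonzero complex numbers -/

section lift

open Real Complex

/-- `‖exp (i x) - 1‖ ≤ |x|` -/
theorem dos_exp_sub_one_le (x : ℝ) : ‖cexp ((x : ℂ) * I) - 1‖ ≤ |x| := by
  rw [mul_comm, Complex.norm_exp_I_mul_ofReal_sub_one, Real.norm_eq_abs, abs_mul, abs_two]
  have := Real.abs_sin_le_abs (x := x / 2)
  rw [abs_div, abs_two] at this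
  linarith

/-- Jordan's inequality on the circle -/
theorem dos_le_exp_sub_one {x : ℝ} (hx : |x| ≤ π) : |x| ≤ π / 2 * ‖cexp ((x : ℂ) * I) - 1‖ := by
  rw [mul_comm (x : ℂ), Complex.norm_exp_I_mul_ofReal_sub_one, Real.norm_eq_abs, abs_mul, abs_two]
  have hπ := pi_pos
  have h2 : |x / 2| ≤ π / 2 := by rw [abs_div, abs_two]; linarith
  have := Real.mul_abs_le_abs_sin h2
  rw [abs_div, abs_two] at this
  have e : 2 / π * (|x| / 2) = |x| / π := by field_simp
  rw [e, div_le_iff₀ hπ] at this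
  nlinarith

theorem dos_exp_period (x : ℝ) (z : ℤ) : cexp (((x - 2 * π * z : ℝ) : ℂ) * I) = cexp ((x : ℂ) * I) := by
  rw [Complex.exp_eq_exp_iff_exists_int]
  exact ⟨-z, by push_cast; ring⟩

/-- (N1) -/
theorem dos_near_exp {x e : ℝ} (h : dosNear x e) : ‖cexp ((x : ℂ) * I) - 1‖ ≤ e := by
  obtain ⟨z, hz⟩ := h
  rw [← dos_exp_period x z]
  exact (dos_exp_sub_one_le _).trans hz

/-- (N2) -/
theorem dos_exp_near {x s : ℝ} (h : ‖cexp ((x : ℂ) * I) - 1‖ ≤ s) : dosNear x (π / 2 * s) := by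
  have hπ := pi_pos
  set α : ℝ := (cexp ((x : ℂ) * I)).arg with hα
  have h1 : cexp ((α : ℂ) * I) = cexp ((x : ℂ) * I) := by
    have := Complex.norm_mul_exp_arg_mul_I (cexp ((x : ℂ) * I))
    rwa [Complex.norm_exp_ofReal_mul_I, ofReal_one, one_mul] at this
  obtain ⟨z, hz⟩ := Complex.exp_eq_exp_iff_exists_int.1 h1
  have hz' : α = x + z * (2 * π) := by
    have e : ((α : ℂ)) * I = ((x + z * (2 * π) : ℝ) : ℂ) * I := by rw [hz]; push_cast; ring
    exact_mod_cast mul_right_cancel₀ I_ne_zero e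
  refine ⟨-z, ?_⟩
  have e2 : x - 2 * π * ((-z : ℤ) : ℝ) = α := by rw [hz']; push_cast; ring
  rw [e2]
  refine (dos_le_exp_sub_one (Complex.abs_arg_le_pi _)).trans ?_
  rw [h1]
  exact mul_le_mul_of_nonneg_left h (by positivity)

/-- (E) -/
theorem dos_polar_dist (r s t : ℝ) (z : ℤ) : ‖(r : ℂ) * cexp ((s : ℂ) * I) - cexp ((t : ℂ) * I)‖ ≤ |r - 1| + |s - (t + 2 * π * z)| := by
  have e : (r : ℂ) * cexp ((s : ℂ) * I) - cexp ((t : ℂ) * I) =
      ((r - 1 : ℝ) : ℂ) * cexp ((s : ℂ) * I) + cexp ((t : ℂ) * I) * (cexp (((s - t : ℝ) : ℂ) * I) - 1) := by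
    have : cexp ((t : ℂ) * I) * cexp (((s - t : ℝ) : ℂ) * I) = cexp ((s : ℂ) * I) := by
      rw [← Complex.exp_add]; congr 1; push_cast; ring
    rw [mul_sub, this]; push_cast; ring
  rw [e]
  refine (norm_add_le _ _).trans ?_
  rw [norm_mul, norm_mul, Complex.norm_exp_ofReal_mul_I, Complex.norm_exp_ofReal_mul_I, mul_one, one_mul, Complex.norm_real, Real.norm_eq_abs]
  have h1 := dos_exp_sub_one_le (s - t - 2 * π * z)
  rw [dos_exp_period] at h1
  have e3 : s - (t + 2 * π * z) = s - t - 2 * π * z := by ring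
  rw [e3]
  linarith

/-- `|arg z| ≤ π ‖z - 1‖` -/
theorem dos_abs_arg_le {w : ℂ} (hw : w ≠ 0) : |w.arg| ≤ π * ‖w - 1‖ := by
  have hπ := pi_pos
  have h1 := dos_le_exp_sub_one (Complex.abs_arg_le_pi w)
  have hn : 0 < ‖w‖ := norm_pos_iff.2 hw
  have h2 : ‖cexp ((w.arg : ℂ) * I) - 1‖ ≤ 2 * ‖w - 1‖ := by
    have e : cexp ((w.arg : ℂ) * I) - 1 = (cexp ((w.arg : ℂ) * I) - w) + (w - 1) := by ring
    have e2 : cexp ((w.arg : ℂ) * I) - w = ((1 - ‖w‖ : ℝ) : ℂ) * cexp ((w.arg : ℂ) * I) := by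
      have h0 := Complex.norm_mul_exp_arg_mul_I w
      push_cast
      rw [sub_mul, one_mul, h0]
    rw [e]
    refine (norm_add_le _ _).trans ?_
    rw [e2, norm_mul, Complex.norm_exp_ofReal_mul_I, mul_one, Complex.norm_real, Real.norm_eq_abs]
    have h3 : |1 - ‖w‖| ≤ ‖w - 1‖ := by
      have := abs_norm_sub_norm_le w 1
      rw [norm_one, abs_sub_comm] at this
      exact this
    linarith
  nlinarith

/-- the lift of the argument along a sequence of nonzero complex numbers -/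
noncomputable def dosLift (w : ℕ → ℂ) : ℕ → ℝ
  | 0 => (w 0).arg
  | k + 1 => dosLift w k + (w (k + 1) / w k).arg

theorem dos_lift_eqns_cite : True := by
  have := @dosLift.eq_1; have := @dosLift.eq_2
  trivial

theorem dos_lift_succ (w : ℕ → ℂ) (k : ℕ) : dosLift w (k + 1) = dosLift w k + (w (k + 1) / w k).arg := rfl

/-- (L1) polar form -/
theorem dos_lift_polar {w : ℕ → ℂ} (hw : ∀ k, w k ≠ 0) (k : ℕ) : (‖w k‖ : ℂ) * cexp ((dosLift w k : ℂ) * I) = w k := by
  induction k with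
  | zero => exact Complex.norm_mul_exp_arg_mul_I _
  | succ k ih =>
    rw [dos_lift_succ]
    have h1 := Complex.norm_mul_exp_arg_mul_I (w (k + 1) / w k)
    have hk : (‖w k‖ : ℂ) ≠ 0 := by exact_mod_cast (norm_pos_iff.2 (hw k)).ne'
    have e : cexp (((dosLift w k + (w (k + 1) / w k).arg : ℝ) : ℂ) * I) = cexp ((dosLift w k : ℂ) * I) * cexp (((w (k + 1) / w k).arg : ℂ) * I) := by
      rw [← Complex.exp_add]; congr 1; push_cast; ring
    rw [e]
    have e1 : cexp ((dosLift w k : ℂ) * I) = w k / ‖w k‖ := by rw [eq_div_iff hk, mul_comm]; exact ih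
    have hq : (‖w (k + 1) / w k‖ : ℂ) ≠ 0 := by exact_mod_cast (norm_pos_iff.2 (div_ne_zero (hw _) (hw k))).ne'
    have e2 : cexp (((w (k + 1) / w k).arg : ℂ) * I) = (w (k + 1) / w k) / ‖w (k + 1) / w k‖ := by rw [eq_div_iff hq, mul_comm]; exact h1
    rw [e1, e2, norm_div]
    have hk1 : (‖w (k + 1)‖ : ℂ) ≠ 0 := by exact_mod_cast (norm_pos_iff.2 (hw (k + 1))).ne'
    push_cast
    field_simp [hw k]

/-- (L2) the lift of a periodic sequence turns an integer number of times -/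
theorem dos_lift_per {w : ℕ → ℂ} (hw : ∀ k, w k ≠ 0) {n : ℕ} (hper : ∀ k, w (k + n) = w k) :
    ∃ m : ℤ, ∀ k, dosLift w (k + n) = dosLift w k + 2 * π * m := by
  have h0 := dos_lift_polar hw 0
  have hn := dos_lift_polar hw n
  have e0 : w n = w 0 := by have := hper 0; rwa [zero_add] at this
  rw [e0] at hn
  have hk : (‖w 0‖ : ℂ) ≠ 0 := by exact_mod_cast (norm_pos_iff.2 (hw 0)).ne'
  have h1 : cexp ((dosLift w n : ℂ) * I) = cexp ((dosLift w 0 : ℂ) * I) := mul_left_cancel₀ hk (hn.trans h0.symm)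
  obtain ⟨m, hm⟩ := Complex.exp_eq_exp_iff_exists_int.1 h1
  have hm' : dosLift w n = dosLift w 0 + 2 * π * m := by
    have e : ((dosLift w n : ℂ)) * I = ((dosLift w 0 + 2 * π * m : ℝ) : ℂ) * I := by rw [hm]; push_cast; ring
    exact_mod_cast mul_right_cancel₀ I_ne_zero e
  refine ⟨m, fun k => ?_⟩
  induction k with
  | zero => rw [zero_add]; exact hm'
  | succ k ih =>
    rw [show k + 1 + n = (k + n) + 1 by ring, dos_lift_succ, dos_lift_succ, ih, show k + n + 1 = (k + 1) + n by ring, hper, hper]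
    ring

/-- the number of turns is the sum of the small arguments -/
theorem dos_lift_sum (w : ℕ → ℂ) (n : ℕ) : dosLift w n = dosLift w 0 + ∑ i ∈ Finset.range n, (w (i + 1) / w i).arg := by
  induction n with
  | zero => simp
  | succ n ih => rw [dos_lift_succ, ih, Finset.sum_range_succ]; ring

/-- (L3) the steps of the lift -/
theorem dos_lift_step {w : ℕ → ℂ} (hw : ∀ k, w k ≠ 0) (k : ℕ) : |dosLift w (k + 1) - dosLift w k| ≤ π * (‖w (k + 1) - w k‖ / ‖w k‖) := by
  rw [dos_lift_succ, add_sub_cancel_left]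
  refine (dos_abs_arg_le (div_ne_zero (hw _) (hw k))).trans (le_of_eq ?_)
  congr 1
  rw [← norm_div]
  congr 1
  field_simp [hw k]

/-- the difference of two lifts and the two directions -/
theorem dos_lift_diff {w : ℕ → ℂ} (hw : ∀ k, w k ≠ 0) (i j : ℕ) :
    ‖cexp (((dosLift w j - dosLift w i : ℝ) : ℂ) * I) - 1‖ = ‖w j / ‖w j‖ - w i / ‖w i‖‖ := by
  have hi : (‖w i‖ : ℂ) ≠ 0 := by exact_mod_cast (norm_pos_iff.2 (hw i)).ne'
  have hj : (‖w j‖ : ℂ) ≠ 0 := by exact_mod_cast (norm_pos_iff.2 (hw j)).ne'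
  have ei : cexp ((dosLift w i : ℂ) * I) = w i / ‖w i‖ := by rw [eq_div_iff hi, mul_comm]; exact dos_lift_polar hw i
  have ej : cexp ((dosLift w j : ℂ) * I) = w j / ‖w j‖ := by rw [eq_div_iff hj, mul_comm]; exact dos_lift_polar hw j
  rw [← ei, ← ej]
  have e : cexp ((dosLift w j : ℂ) * I) - cexp ((dosLift w i : ℂ) * I) = cexp ((dosLift w i : ℂ) * I) * (cexp (((dosLift w j - dosLift w i : ℝ) : ℂ) * I) - 1) := by
    rw [mul_sub, ← Complex.exp_add, mul_one]; congr 2; push_cast; ring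
  rw [e, norm_mul, Complex.norm_exp_ofReal_mul_I, one_mul]

end lift

/-! ## 8. NO HAIRPIN in the Delaunay plane: from two preconnected sets to the arcs -/

section core

open Relation Set

variable {Y : Set ℂ}

theorem doc_del_adj_iff (h : DelGood Y) (u v : ↥Y) : (delPl h).toMap.Adj u v ↔ DelAdj Y u v := by
  constructor
  · rintro ⟨d, rfl, rfl⟩
    exact d.2
  · intro huv
    exact ⟨⟨(u, v), huv⟩, rfl, rfl⟩

/-- the sites whose cell meets a preconnected set are connected in the Delaunay plane, through such sites -/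
theorem doc_del_conn (h : DelGood Y) {K : Set ℂ} (hK : IsPreconnected K) (a b : ↥Y) (ha : (a : ℂ) ∈ vorMeet Y K) (hb : (b : ℂ) ∈ vorMeet Y K) :
    ReflTransGen (fun u v : ↥Y => (delPl h).toMap.Adj u v ∧ (v : ℂ) ∈ vorMeet Y K) a b := by
  have key : ∀ x : ℂ, ReflTransGen (VorAdjIn Y K) a x →
      ∃ hx : x ∈ Y, ReflTransGen (fun u v : ↥Y => (delPl h).toMap.Adj u v ∧ (v : ℂ) ∈ vorMeet Y K) a ⟨x, hx⟩ := by
    intro x hx
    induction hx with
    | refl => exact ⟨a.2, ReflTransGen.refl⟩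
    | @tail x y _ hxy ih =>
      obtain ⟨hx', hch⟩ := ih
      exact ⟨hxy.2.1, hch.tail ⟨(doc_del_adj_iff h _ _).2 hxy.adj, hxy.mem_right⟩⟩
  obtain ⟨_, hch⟩ := key b (del_win_conn h.lf hK ha hb)
  exact hch

theorem doc_adj_apex {V D : Type} (T : PvMap V D) (d : D) : T.Adj (T.src d) (T.apex d) :=
  T.adj_symm ⟨T.nxt (T.nxt d), rfl, T.tgt_nxt2 d⟩

/-- **NO HAIRPIN, Delaunay form**.      `Σ`, `Γ` preconnected; the sites whose cell meets `Σ` or `Γ` are interior vertices of the disc; no cell meets both; the apices of `c.e i`, `c.e j` meet `Σ`;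
the apex of every dart `c.e l` with `x_l ∈ F` meets `Γ`; `x_i, x_j ∉ F`.      Then one of the two closed arcs of the cycle between `x_i` and `x_j` misses `F`. -/
theorem doc_del_core (h : DelGood Y) (c : (delPl h).toMap.Cyc) {Sg Gm : Set ℂ} (hSg : IsPreconnected Sg) (hGm : IsPreconnected Gm)
    (hSi : ∀ v : ↥Y, (v : ℂ) ∈ vorMeet Y Sg → v ∈ (delPl h).toMap.Int c.Left)
    (hGi : ∀ v : ↥Y, (v : ℂ) ∈ vorMeet Y Gm → v ∈ (delPl h).toMap.Int c.Left)
    (hdis : Disjoint (vorMeet Y Sg) (vorMeet Y Gm)) {i j : ℕ}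
    (hbi : ((delPl h).toMap.apex (c.e i) : ℂ) ∈ vorMeet Y Sg) (hbj : ((delPl h).toMap.apex (c.e j) : ℂ) ∈ vorMeet Y Sg)
    {F : Set ↥Y} (hi : (delPl h).toMap.src (c.e i) ∉ F) (hj : (delPl h).toMap.src (c.e j) ∉ F)
    (hF : ∀ l, (delPl h).toMap.src (c.e l) ∈ F → ((delPl h).toMap.apex (c.e l) : ℂ) ∈ vorMeet Y Gm) :
    (∀ l, i ≤ l → l ≤ j → (delPl h).toMap.src (c.e l) ∉ F) ∨ (∀ l, j ≤ l → l ≤ i + c.n → (delPl h).toMap.src (c.e l) ∉ F) := by
  refine doc_nh_nbr (delp_isSph h) c (S := {v : ↥Y | (v : ℂ) ∈ vorMeet Y Sg}) (G := {v : ↥Y | (v : ℂ) ∈ vorMeet Y Gm}) (F := F) hSi hGi ?_ ?_ hi hj ?_ ?_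
  · rw [Set.disjoint_left]
    intro v hv hv'
    exact Set.disjoint_left.1 hdis hv hv'
  · refine (ReflTransGen.single ⟨doc_adj_apex _ _, Or.inr hbi, Or.inl hbi⟩).trans
      ((ReflTransGen.mono (fun u v huv => ⟨huv.1, Or.inr huv.2, Or.inl huv.2⟩) _ _ (doc_del_conn h hSg _ _ hbi hbj)).trans
        (ReflTransGen.single ⟨PvMap.adj_symm _ (doc_adj_apex _ _), Or.inl hbj, Or.inr rfl⟩))
  · rintro u hu ⟨l, rfl⟩
    exact ⟨(delPl h).toMap.apex (c.e l), hF l hu, doc_adj_apex _ _⟩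
  · intro b hb b' hb'
    exact doc_del_conn h hGm b b' hb hb'

end core

end Claimed.Agent.R289
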