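-- KEEP
import Claimed.Agent.R289.Brg.Base
import Claimed.Agent.R289.Del.OrdCut

/-!
# Row 289 (S0537), box DEL-ORD (owner helper253), file Del/OrdGeo : NO HAIRPIN IN THE CHART, DENSITY, ANGLES      (helper120; prefix `dog_`)

Vocabulary of `Brg/Defs` (188): chart record `PvgCh N g R1`, `pvgK N g r = K(r)`, mesh in the chart `PvgMesh N g R1 μ Y`, outer circuit `PvgRim h (pvgK N g r) c`;   `x_k = src (c.e k)`.      PL input: `doc_nh_nbr` (19, `Del/OrdCut`).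
* sec. 1 (any real inner product space)  **THALES** `dog_thales`;  `dog_far_mono` (the distance to `q`, `‖q‖ ≥ r`, decreases along the segments from the antipode `-(r/‖q‖) q` to the points of `closedBall 0 r`);
         `dog_star` : `closedBall 0 r \ ball q t` is star shaped about the antipode;  `dog_far_preconnected`, `dog_near_preconnected`.
* sec. 2 `dogP N g S = {z ∈ N | g z ∈ S}`;  `dog_nbr` : the apex `b_l ∈ B` of the dart `c.e l` has a point `p` of its cell in `K(r)` with `‖g x_l - g p‖ ≤ 3 μ`;  `dog_meet_diam`.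
* sec. 3 **`dog_nh`** (NO HAIRPIN, chart distance): `‖g x_j - g x_i‖ ≤ s` ⟹ on one of the two closed arcs `[i, j]`, `[j, i + n]` all vertices satisfy `‖g x_l - g x_i‖ < s + 9 μ`.
* sec. 4 ANGLES: `dog_normSq` (law of cosines), `dog_near_of_dist` (`‖a e^{iα} - b e^{iβ}‖ ≤ t`, `a, b ≥ r` ⟹ `α - β` is `(π/2)(t/r)`-near `2πℤ`), `dog_dist_of_near` (converse).
* sec. 5 the inputs of `Del/OrdSeq` (148) for ANY lift `th` of the arguments (`g x_k = ‖g x_k‖ e^{i th k}`): **`dog_nh_ang`** (NH), **`dog_dense_ang`** (DENSE, from `pvg_near`), `dog_step_ang` (steps, mod `2π`).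
-/

set_option autoImplicit false
set_option linter.unusedVariables false

namespace Claimed.Agent.R289

open Set Metric Relation

/-! ## 1. the plane of the chart -/

section wplane

variable {E : Type*} [NormedAddCommGroup E] [InnerProductSpace ℝ E]

/-- **THALES**, with the centre `q` on or outside the circle -/
theorem dog_thales {r : ℝ} {q w : E} (hr : 0 ≤ r) (hq : r ≤ ‖q‖) (hq0 : 0 < ‖q‖) (hw : ‖w‖ ≤ r) : inner ℝ (w - q) (w - (-(r / ‖q‖) • q)) ≤ 0 := by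
  have h1 : inner ℝ (w - q) (w - (-(r / ‖q‖) • q)) = ‖w‖ ^ 2 - r * ‖q‖ + (r / ‖q‖ - 1) * inner ℝ w q := by
    have e : w - (-(r / ‖q‖) • q) = w + (r / ‖q‖) • q := by rw [neg_smul, sub_neg_eq_add]
    rw [e, inner_sub_left, inner_add_right, inner_add_right, inner_smul_right, inner_smul_right, real_inner_self_eq_norm_sq, real_inner_self_eq_norm_sq, real_inner_comm w q]
    field_simp
    ring
  rw [h1]
  have h2 : -(‖w‖ * ‖q‖) ≤ inner ℝ w q := by
    have := abs_le.1 (abs_real_inner_le_norm w q)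
    exact this.1
  have h3 : r / ‖q‖ - 1 ≤ 0 := by
    rw [sub_nonpos, div_le_one hq0]; exact hq
  have h4 : (r / ‖q‖ - 1) * inner ℝ w q ≤ (r / ‖q‖ - 1) * (-(‖w‖ * ‖q‖)) := mul_le_mul_of_nonpos_left h2 h3
  have h5 : (r / ‖q‖ - 1) * (-(‖w‖ * ‖q‖)) = ‖w‖ * (‖q‖ - r) := by
    field_simp
    ring
  have h6 : ‖w‖ * (‖q‖ - r) ≤ r * (‖q‖ - r) := mul_le_mul_of_nonneg_right hw (by linarith)
  have h7 : ‖w‖ ^ 2 ≤ r ^ 2 := pow_le_pow_left₀ (norm_nonneg _) hw 2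
  nlinarith

/-- the distance to `q` decreases along the segment from the antipode to `w` -/
theorem dog_far_mono {r : ℝ} {q w : E} (hr : 0 ≤ r) (hq : r ≤ ‖q‖) (hq0 : 0 < ‖q‖) (hw : ‖w‖ ≤ r) {a b : ℝ} (ha : 0 ≤ a) (hb : 0 ≤ b) (hab : a + b = 1) :
    ‖w - q‖ ≤ ‖a • (-(r / ‖q‖) • q) + b • w - q‖ := by
  set p : E := -(r / ‖q‖) • q with hp
  have hT := dog_thales hr hq hq0 hw
  rw [← hp] at hT
  have e : a • p + b • w - q = (w - q) - a • (w - p) := by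
    have hb' : b = 1 - a := by linarith
    rw [hb', sub_smul, one_smul, smul_sub]
    abel
  rw [e]
  have h1 : ‖(w - q) - a • (w - p)‖ ^ 2 = ‖w - q‖ ^ 2 - 2 * a * inner ℝ (w - q) (w - p) + a ^ 2 * ‖w - p‖ ^ 2 := by
    rw [norm_sub_sq_real, inner_smul_right, norm_smul, mul_pow, Real.norm_eq_abs, sq_abs]
    ring
  have h2 : ‖w - q‖ ^ 2 ≤ ‖(w - q) - a • (w - p)‖ ^ 2 := by
    rw [h1]
    have : 0 ≤ a ^ 2 * ‖w - p‖ ^ 2 := by positivity
    have : 0 ≤ -(2 * a * inner ℝ (w - q) (w - p)) := by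
      have := mul_nonneg (mul_nonneg (by norm_num : (0 : ℝ) ≤ 2) ha) (neg_nonneg.2 hT)
      linarith
    linarith
  exact abs_le_of_sq_le_sq' h2 (norm_nonneg _) |>.2 |> fun h => by simpa using h

/-- **the closed disc minus a ball centred on or outside its boundary is star shaped about the antipode** -/
theorem dog_star {r : ℝ} {q : E} (hr : 0 ≤ r) (hq : r ≤ ‖q‖) (hq0 : 0 < ‖q‖) (t : ℝ) : StarConvex ℝ (-(r / ‖q‖) • q) (closedBall (0 : E) r \ ball q t) := by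
  intro w hw a b ha hb hab
  have hw1 : ‖w‖ ≤ r := by simpa using hw.1
  have hw2 : t ≤ ‖w - q‖ := by
    have := hw.2
    rw [mem_ball, dist_eq_norm, not_lt] at this
    exact this
  have hp : ‖-(r / ‖q‖) • q‖ ≤ r := by
    rw [norm_smul, norm_neg, Real.norm_of_nonneg (div_nonneg hr hq0.le), div_mul_cancel₀ _ hq0.ne']
  refine ⟨?_, ?_⟩
  · exact (convex_closedBall (0 : E) r) (by simpa using hp) hw.1 ha hb hab
  · rw [mem_ball, dist_eq_norm, not_lt]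
    exact hw2.trans (dog_far_mono hr hq hq0 hw1 ha hb hab)

theorem dog_far_preconnected {r : ℝ} {q : E} (hr : 0 ≤ r) (hq : r ≤ ‖q‖) (hq0 : 0 < ‖q‖) (t : ℝ) : IsPreconnected (closedBall (0 : E) r \ ball q t) := by
  rcases (closedBall (0 : E) r \ ball q t).eq_empty_or_nonempty with h | h
  · rw [h]; exact isPreconnected_empty
  · exact ((dog_star hr hq hq0 t).isPathConnected ((dog_star hr hq hq0 t).mem h)).isConnected.isPreconnected

theorem dog_near_preconnected (r : ℝ) (q : E) (t : ℝ) : IsPreconnected (closedBall (0 : E) r ∩ closedBall q t) :=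
  ((convex_closedBall _ _).inter (convex_closedBall _ _)).isPreconnected

end wplane

/-! ## 2. cells, sites, chart -/

/-- the preimage of `S` in the chart -/
def dogP (N : Set ℂ) (g : ℂ → ℂ) (S : Set ℂ) : Set ℂ := {z | z ∈ N ∧ g z ∈ S}

theorem dog_eqns_cite : True := by
  have := @dogP.eq_1
  trivial

section chart

variable {N : Set ℂ} {g : ℂ → ℂ} {R1 r μ : ℝ} {Y : Set ℂ} {h : DelGood Y}

theorem dog_P_sub_K {S : Set ℂ} (hS : S ⊆ closedBall (0 : ℂ) r) : dogP N g S ⊆ pvgK N g r := fun z hz => ⟨hz.1, by simpa using hS hz.2⟩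

theorem dog_meet_mono {A A' : Set ℂ} (hA : A ⊆ A') : vorMeet Y A ⊆ vorMeet Y A' := fun v hv => ⟨hv.1, hv.2.mono (inter_subset_inter_right _ hA)⟩

/-- two points of `K(R1)` in one cell are `2 μ`-close in the chart -/
theorem dog_meet_diam (hm : PvgMesh N g R1 μ Y) {v p p' : ℂ} (hv : v ∈ Y) (hp : p ∈ vorCell Y v) (hp' : p' ∈ vorCell Y v) (hK : p ∈ pvgK N g R1) (hK' : p' ∈ pvgK N g R1) :
    ‖g p - g p'‖ ≤ 2 * μ := by
  have h1 := (hm v hv p hp hK).2
  have h2 := (hm v hv p' hp' hK').2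
  calc ‖g p - g p'‖ = ‖(g v - g p') - (g v - g p)‖ := by congr 1; ring
    _ ≤ ‖g v - g p'‖ + ‖g v - g p‖ := norm_sub_le _ _
    _ ≤ 2 * μ := by linarith

/-- the apex `b_l` of the dart number `l` of the circuit: adjacent to `x_l`, and a point of its cell lies in `K(r)`, `3 μ`-close to `x_l` in the chart -/
theorem dog_nbr (ch : PvgCh N g R1) (hm : PvgMesh N g R1 μ Y) (hμ : 0 < μ) (hr : r + 2 * μ < R1) {c : (delPl h).toMap.Cyc} (hc : PvgRim h (pvgK N g r) c) (l : ℕ) :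
    ∃ p ∈ vorCell Y ((delPl h).toMap.apex (c.e l) : ℂ), p ∈ pvgK N g r ∧ ‖g ((delPl h).toMap.src (c.e l) : ℂ) - g p‖ ≤ 3 * μ := by
  set x := (delPl h).toMap.src (c.e l) with hx
  set b := (delPl h).toMap.apex (c.e l) with hb
  have hbB : (b : ℂ) ∈ vorMeet Y (pvgK N g r) := (hc.rim l).2
  obtain ⟨p, hpb, hpK⟩ := hbB.2
  obtain ⟨-, -, -, z, hzb, hzx⟩ := (pvg_w_adj_iff h b x).1 (pl_adj_apex_src (c.e l))
  have hsub := pvg_cell_sub ch hm hμ hr hbB
  have hzK : z ∈ pvgK N g R1 := pvg_K_mono hr.le (hsub hzb)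
  have hpK1 : p ∈ pvgK N g R1 := pvg_K_mono (by linarith) hpK
  have h1 := (hm x x.2 z hzx hzK).2
  have h2 := dog_meet_diam hm b.2 hzb hpb hzK hpK1
  refine ⟨p, hpb, hpK, ?_⟩
  calc ‖g (x : ℂ) - g p‖ = ‖(g (x : ℂ) - g z) + (g z - g p)‖ := by congr 1; ring
    _ ≤ ‖g (x : ℂ) - g z‖ + ‖g z - g p‖ := norm_add_le _ _
    _ ≤ 3 * μ := by linarith

/-- the vertices of the circuit lie outside `K(r)` -/
theorem dog_rim_out {c : (delPl h).toMap.Cyc} (hc : PvgRim h (pvgK N g r) c) (l : ℕ) : ((delPl h).toMap.src (c.e l) : ℂ) ∉ pvgK N g r := fun hK =>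
  (hc.rim l).1 ⟨((delPl h).toMap.src (c.e l)).2, _, vor_self_mem Y _, hK⟩

/-- the sites whose cell meets the preimage of a connected subset of the big disc are connected by adjacent steps among themselves -/
theorem dog_conn (ch : PvgCh N g R1) {S : Set ℂ} (hS : IsPreconnected S) (hSR : S ⊆ closedBall 0 R1) {b b' : ↥Y} (hb : (b : ℂ) ∈ vorMeet Y (dogP N g S)) (hb' : (b' : ℂ) ∈ vorMeet Y (dogP N g S)) :
    ReflTransGen (fun u v : ↥Y => (delPl h).toMap.Adj u v ∧ (v : ℂ) ∈ vorMeet Y (dogP N g S)) b b' := by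
  have hP : IsPreconnected (dogP N g S) := pvg_ch_conn ch hS hSR
  obtain ⟨_, hch⟩ := pvg_w_lift_chain h b.2 (del_win_conn h.lf hP hb hb')
  exact hch

/-! ## 3. NO HAIRPIN -/

/-- **NO HAIRPIN** in the chart: two vertices of the outer circuit at chart distance `≤ s`: one of the two closed arcs between them stays within `s + 9 μ` of them -/
theorem dog_nh (ch : PvgCh N g R1) (hm : PvgMesh N g R1 μ Y) (hμ : 0 < μ) (hr0 : 0 ≤ r) (hr : r + 2 * μ < R1) {c : (delPl h).toMap.Cyc} (hc : PvgRim h (pvgK N g r) c)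
    {i j : ℕ} {s : ℝ} (hij : ‖g ((delPl h).toMap.src (c.e j) : ℂ) - g ((delPl h).toMap.src (c.e i) : ℂ)‖ ≤ s) (hiN : ((delPl h).toMap.src (c.e i) : ℂ) ∈ N) :
    (∀ l, i ≤ l → l ≤ j → ‖g ((delPl h).toMap.src (c.e l) : ℂ) - g ((delPl h).toMap.src (c.e i) : ℂ)‖ < s + 9 * μ) ∨
    (∀ l, j ≤ l → l ≤ i + c.n → ‖g ((delPl h).toMap.src (c.e l) : ℂ) - g ((delPl h).toMap.src (c.e i) : ℂ)‖ < s + 9 * μ) := by
  set q : ℂ := g ((delPl h).toMap.src (c.e i) : ℂ) with hq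
  have hs : 0 ≤ s := (norm_nonneg _).trans hij
  have hqr : r < ‖q‖ := by
    by_contra hcon
    exact dog_rim_out hc i ⟨hiN, not_lt.1 hcon⟩
  have hq0 : 0 < ‖q‖ := lt_of_le_of_lt hr0 hqr
  have hrR : r ≤ R1 := by linarith
  -- the two regions of the chart
  set W1 : Set ℂ := closedBall (0 : ℂ) r ∩ closedBall q (s + 3 * μ) with hW1
  set W2 : Set ℂ := closedBall (0 : ℂ) r \ ball q (s + 6 * μ) with hW2
  have hW1r : W1 ⊆ closedBall (0 : ℂ) r := inter_subset_left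
  have hW2r : W2 ⊆ closedBall (0 : ℂ) r := sdiff_subset
  have hrr : closedBall (0 : ℂ) r ⊆ closedBall (0 : ℂ) R1 := closedBall_subset_closedBall hrR
  set S : Set ↥Y := {v | (v : ℂ) ∈ vorMeet Y (dogP N g W1)} with hS
  set G : Set ↥Y := {v | (v : ℂ) ∈ vorMeet Y (dogP N g W2)} with hG
  set F : Set ↥Y := {v | s + 9 * μ ≤ ‖g (v : ℂ) - q‖} with hF
  have hSint : S ⊆ (delPl h).toMap.Int c.Left := fun v hv => hc.int v (dog_meet_mono (dog_P_sub_K hW1r) hv)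
  have hGint : G ⊆ (delPl h).toMap.Int c.Left := fun v hv => hc.int v (dog_meet_mono (dog_P_sub_K hW2r) hv)
  have hSG : Disjoint S G := by
    rw [Set.disjoint_left]
    rintro v ⟨-, p1, hp1, hp1W⟩ ⟨-, p2, hp2, hp2W⟩
    have hd := dog_meet_diam hm v.2 hp2 hp1 (pvg_K_mono hrR (dog_P_sub_K hW2r hp2W)) (pvg_K_mono hrR (dog_P_sub_K hW1r hp1W))
    have h1 : ‖g p1 - q‖ ≤ s + 3 * μ := by
      have := hp1W.2.2
      rwa [mem_closedBall, dist_eq_norm] at this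
    have h2 : s + 6 * μ ≤ ‖g p2 - q‖ := by
      have := hp2W.2.2
      rwa [mem_ball, dist_eq_norm, not_lt] at this
    have h3 : ‖g p2 - q‖ ≤ ‖g p2 - g p1‖ + ‖g p1 - q‖ := by
      calc ‖g p2 - q‖ = ‖(g p2 - g p1) + (g p1 - q)‖ := by congr 1; ring
        _ ≤ _ := norm_add_le _ _
    linarith
  -- the apexes
  have hap : ∀ l, ‖g ((delPl h).toMap.src (c.e l) : ℂ) - q‖ ≤ s → (delPl h).toMap.apex (c.e l) ∈ S := by
    intro l hl
    obtain ⟨p, hpb, hpK, hp3⟩ := dog_nbr ch hm hμ hr hc l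
    refine ⟨((delPl h).toMap.apex (c.e l)).2, p, hpb, hpK.1, ?_, ?_⟩
    · simpa using hpK.2
    · rw [mem_closedBall, dist_eq_norm]
      calc ‖g p - q‖ = ‖(g ((delPl h).toMap.src (c.e l) : ℂ) - q) - (g ((delPl h).toMap.src (c.e l) : ℂ) - g p)‖ := by congr 1; ring
        _ ≤ ‖g ((delPl h).toMap.src (c.e l) : ℂ) - q‖ + ‖g ((delPl h).toMap.src (c.e l) : ℂ) - g p‖ := norm_sub_le _ _
        _ ≤ s + 3 * μ := by linarith
  have hbi : (delPl h).toMap.apex (c.e i) ∈ S := hap i (by rw [hq, sub_self, norm_zero]; exact hs)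
  have hbj : (delPl h).toMap.apex (c.e j) ∈ S := hap j hij
  have hcut : ReflTransGen (fun u v => (delPl h).toMap.Adj u v ∧ (u ∈ S ∨ v ∈ S) ∧ (v ∈ S ∨ v = (delPl h).toMap.src (c.e j))) ((delPl h).toMap.src (c.e i)) ((delPl h).toMap.src (c.e j)) := by
    have h1 : ReflTransGen (fun u v => (delPl h).toMap.Adj u v ∧ (u ∈ S ∨ v ∈ S) ∧ (v ∈ S ∨ v = (delPl h).toMap.src (c.e j))) ((delPl h).toMap.apex (c.e i)) ((delPl h).toMap.apex (c.e j)) :=
      ReflTransGen.mono (fun u v huv => ⟨huv.1, Or.inr huv.2, Or.inl huv.2⟩) _ _ (dog_conn ch (dog_near_preconnected r q (s + 3 * μ)) (hW1r.trans hrr) hbi hbj)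
    refine ReflTransGen.head ⟨(delPl h).toMap.adj_symm (pl_adj_apex_src (c.e i)), Or.inr hbi, Or.inl hbi⟩ (h1.tail ⟨pl_adj_apex_src (c.e j), Or.inl hbj, Or.inr rfl⟩)
  have hiF : (delPl h).toMap.src (c.e i) ∉ F := by
    intro hcon
    have : s + 9 * μ ≤ ‖q - q‖ := hcon
    rw [sub_self, norm_zero] at this
    linarith
  have hjF : (delPl h).toMap.src (c.e j) ∉ F := by
    intro hcon
    have : s + 9 * μ ≤ ‖g ((delPl h).toMap.src (c.e j) : ℂ) - q‖ := hcon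
    linarith
  have hnb : ∀ u ∈ F, u ∈ c.verts → ∃ b ∈ G, (delPl h).toMap.Adj u b := by
    rintro _ hu ⟨l, rfl⟩
    obtain ⟨p, hpb, hpK, hp3⟩ := dog_nbr ch hm hμ hr hc l
    refine ⟨(delPl h).toMap.apex (c.e l), ⟨((delPl h).toMap.apex (c.e l)).2, p, hpb, hpK.1, ?_, ?_⟩, (delPl h).toMap.adj_symm (pl_adj_apex_src (c.e l))⟩
    · simpa using hpK.2
    · rw [mem_ball, dist_eq_norm, not_lt]
      have hu' : s + 9 * μ ≤ ‖g ((delPl h).toMap.src (c.e l) : ℂ) - q‖ := hu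
      have h3 : ‖g ((delPl h).toMap.src (c.e l) : ℂ) - q‖ ≤ ‖g ((delPl h).toMap.src (c.e l) : ℂ) - g p‖ + ‖g p - q‖ := by
        calc ‖g ((delPl h).toMap.src (c.e l) : ℂ) - q‖ = ‖(g ((delPl h).toMap.src (c.e l) : ℂ) - g p) + (g p - q)‖ := by congr 1; ring
          _ ≤ _ := norm_add_le _ _
      linarith
  have hconn : ∀ b ∈ G, ∀ b' ∈ G, ReflTransGen (fun u v => (delPl h).toMap.Adj u v ∧ v ∈ G) b b' := fun b hb b' hb' =>
    dog_conn ch (dog_far_preconnected hr0 hqr.le hq0 (s + 6 * μ)) (hW2r.trans hrr) hb hb'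
  rcases doc_nh_nbr (delp_isSph h) c hSint hGint hSG hcut hiF hjF hnb hconn with H | H
  · exact Or.inl fun l h1 h2 => not_le.1 (H l h1 h2)
  · exact Or.inr fun l h1 h2 => not_le.1 (H l h1 h2)

end chart

/-! ## 4. angles -/

theorem dog_E_re (t : ℝ) : (pvgE t).re = Real.cos t := by unfold pvgE; exact Complex.exp_ofReal_mul_I_re t

theorem dog_E_im (t : ℝ) : (pvgE t).im = Real.sin t := by unfold pvgE; exact Complex.exp_ofReal_mul_I_im t

/-- the law of cosines -/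
theorem dog_normSq (a b α β : ℝ) : ‖(a : ℂ) * pvgE α - (b : ℂ) * pvgE β‖ ^ 2 = (a - b) ^ 2 + 2 * (a * b) * (1 - Real.cos (α - β)) := by
  rw [Complex.sq_norm, Complex.normSq_apply]
  simp only [Complex.sub_re, Complex.sub_im, Complex.mul_re, Complex.mul_im, Complex.ofReal_re, Complex.ofReal_im, zero_mul, sub_zero, add_zero, dog_E_re, dog_E_im, Real.cos_sub]
  have h1 := Real.sin_sq_add_cos_sq α
  have h2 := Real.sin_sq_add_cos_sq β
  linear_combination a ^ 2 * h1 + b ^ 2 * h2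

/-- reduction of a real number modulo `2π` -/
theorem dog_reduce (x : ℝ) : ∃ m : ℤ, |x - 2 * Real.pi * m| ≤ Real.pi := by
  have hpi := Real.pi_pos
  refine ⟨round (x / (2 * Real.pi)), ?_⟩
  have h1 := abs_sub_round (x / (2 * Real.pi))
  have e : x - 2 * Real.pi * (round (x / (2 * Real.pi)) : ℝ) = 2 * Real.pi * (x / (2 * Real.pi) - (round (x / (2 * Real.pi)) : ℝ)) := by
    field_simp
  rw [e, abs_mul, abs_of_pos (by positivity : (0 : ℝ) < 2 * Real.pi)]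
  nlinarith

theorem dog_cos_shift (x : ℝ) (m : ℤ) : Real.cos (x - 2 * Real.pi * m) = Real.cos x := by
  have := Real.cos_sub_int_mul_two_pi x m
  rwa [mul_comm (m : ℝ) (2 * Real.pi)] at this

/-- JORDAN: `1 - cos y ≥ 2 y² / π²` for `|y| ≤ π` -/
theorem dog_jordan {y : ℝ} (hy : |y| ≤ Real.pi) : 2 * (y / Real.pi) ^ 2 ≤ 1 - Real.cos y := by
  have hpi := Real.pi_pos
  have h1 : 2 / Real.pi * (|y| / 2) ≤ Real.sin (|y| / 2) := Real.mul_le_sin (by positivity) (by linarith)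
  have h2 : Real.sin (|y| / 2) ^ 2 = 1 / 2 - Real.cos (2 * (|y| / 2)) / 2 := Real.sin_sq_eq_half_sub _
  have h3 : Real.cos (2 * (|y| / 2)) = Real.cos y := by
    rw [mul_div_cancel₀ _ (two_ne_zero), Real.cos_abs]
  rw [h3] at h2
  have h4 : 2 / Real.pi * (|y| / 2) = |y| / Real.pi := by field_simp
  rw [h4] at h1
  have h5 : (|y| / Real.pi) ^ 2 ≤ Real.sin (|y| / 2) ^ 2 := pow_le_pow_left₀ (by positivity) h1 2
  have h6 : (|y| / Real.pi) ^ 2 = (y / Real.pi) ^ 2 := by rw [div_pow, div_pow, sq_abs]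
  rw [h6] at h5
  linarith

/-- **chart distance ⟹ angle**: two points outside the open disc of radius `r` at distance `≤ t` have arguments `(π/2)(t/r)`-close modulo `2π` -/
theorem dog_near_of_dist {r a b α β t : ℝ} (hr : 0 < r) (ha : r ≤ a) (hb : r ≤ b) (h : ‖(a : ℂ) * pvgE α - (b : ℂ) * pvgE β‖ ≤ t) :
    ∃ m : ℤ, |α - β - 2 * Real.pi * m| ≤ Real.pi / 2 * (t / r) := by
  have hpi := Real.pi_pos
  have ht : 0 ≤ t := (norm_nonneg _).trans h
  obtain ⟨m, hm⟩ := dog_reduce (α - β)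
  refine ⟨m, ?_⟩
  set y := α - β - 2 * Real.pi * m with hy
  have h1 : ‖(a : ℂ) * pvgE α - (b : ℂ) * pvgE β‖ ^ 2 ≤ t ^ 2 := pow_le_pow_left₀ (norm_nonneg _) h 2
  rw [dog_normSq, ← dog_cos_shift (α - β) m, ← hy] at h1
  have h2 := dog_jordan hm
  have h3 : r * r ≤ a * b := mul_le_mul ha hb hr.le (hr.le.trans ha)
  have h4 : 0 ≤ 1 - Real.cos y := by linarith [Real.cos_le_one y]
  have h5 : 2 * (r * r) * (2 * (y / Real.pi) ^ 2) ≤ t ^ 2 := by
    have e1 : 2 * (r * r) * (2 * (y / Real.pi) ^ 2) ≤ 2 * (r * r) * (1 - Real.cos y) := mul_le_mul_of_nonneg_left h2 (by positivity)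
    have e2 : 2 * (r * r) * (1 - Real.cos y) ≤ 2 * (a * b) * (1 - Real.cos y) := mul_le_mul_of_nonneg_right (by linarith) h4
    have e3 : 0 ≤ (a - b) ^ 2 := sq_nonneg _
    linarith
  have h6 : (2 * r * (|y| / Real.pi)) ^ 2 ≤ t ^ 2 := by
    have : (2 * r * (|y| / Real.pi)) ^ 2 = 2 * (r * r) * (2 * (y / Real.pi) ^ 2) := by
      rw [mul_pow, mul_pow, div_pow, div_pow, sq_abs]; ring
    rw [this]; exact h5
  have h7 : 2 * r * (|y| / Real.pi) ≤ t := by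
    have := abs_le_of_sq_le_sq' h6 ht
    exact this.2
  have h8 : |y| = Real.pi / 2 * (2 * r * (|y| / Real.pi) / r) := by field_simp
  rw [h8]
  exact mul_le_mul_of_nonneg_left (div_le_div_of_nonneg_right h7 hr.le) (by positivity)

/-- **angle ⟹ chart distance** -/
theorem dog_dist_of_near {M a b α β η : ℝ} (ha0 : 0 ≤ a) (hb0 : 0 ≤ b) (ha : a ≤ M) (hb : b ≤ M) (h : ∃ m : ℤ, |α - β - 2 * Real.pi * m| ≤ η) :
    ‖(a : ℂ) * pvgE α - (b : ℂ) * pvgE β‖ ≤ |a - b| + M * η := by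
  obtain ⟨m, hm⟩ := h
  set y := α - β - 2 * Real.pi * m with hy
  have hη : 0 ≤ η := (abs_nonneg _).trans hm
  have hM : 0 ≤ M := ha0.trans ha
  have h1 : ‖(a : ℂ) * pvgE α - (b : ℂ) * pvgE β‖ ^ 2 = (a - b) ^ 2 + 2 * (a * b) * (1 - Real.cos y) := by
    rw [dog_normSq, hy, dog_cos_shift]
  have h2 : 1 - Real.cos y ≤ y ^ 2 / 2 := by linarith [Real.one_sub_sq_div_two_le_cos (x := y)]
  have h3 : y ^ 2 ≤ η ^ 2 := by rw [← sq_abs y]; exact pow_le_pow_left₀ (abs_nonneg _) hm 2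
  have h4 : a * b ≤ M * M := mul_le_mul ha hb hb0 hM
  have h5 : 2 * (a * b) * (1 - Real.cos y) ≤ (M * η) ^ 2 := by
    have e1 : 2 * (a * b) * (1 - Real.cos y) ≤ 2 * (a * b) * (y ^ 2 / 2) := mul_le_mul_of_nonneg_left h2 (by positivity)
    have e2 : 2 * (a * b) * (y ^ 2 / 2) = a * b * y ^ 2 := by ring
    have e3 : a * b * y ^ 2 ≤ M * M * η ^ 2 := mul_le_mul h4 h3 (sq_nonneg _) (by positivity)
    nlinarith
  have h6 : ‖(a : ℂ) * pvgE α - (b : ℂ) * pvgE β‖ ^ 2 ≤ (|a - b| + M * η) ^ 2 := by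
    rw [h1, add_sq, sq_abs]
    have : 0 ≤ 2 * |a - b| * (M * η) := by positivity
    linarith
  exact (abs_le_of_sq_le_sq' h6 (by positivity)).2

/-! ## 5. the inputs of the one dimensional lemma (`Del/OrdSeq`), for any lift of the arguments -/

section lift

variable {N : Set ℂ} {g : ℂ → ℂ} {R1 r μ : ℝ} {Y : Set ℂ} {h : DelGood Y}

/-- **NH** for the lifted arguments -/
theorem dog_nh_ang (ch : PvgCh N g R1) (hm : PvgMesh N g R1 μ Y) (hμ : 0 < μ) (hr0 : 0 < r) (hr : r + 6 * μ < R1) {c : (delPl h).toMap.Cyc} (hc : PvgRim h (pvgK N g r) c)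
    {th : ℕ → ℝ} (hth : ∀ k, g ((delPl h).toMap.src (c.e k) : ℂ) = (‖g ((delPl h).toMap.src (c.e k) : ℂ)‖ : ℂ) * pvgE (th k))
    {i j : ℕ} {η : ℝ} (hij : ∃ m : ℤ, |th j - th i - 2 * Real.pi * m| ≤ η) :
    (∀ l, i ≤ l → l ≤ j → ∃ m : ℤ, |th l - th i - 2 * Real.pi * m| ≤ Real.pi / 2 * (((r + 3 * μ) * η + 12 * μ) / r)) ∨
    (∀ l, j ≤ l → l ≤ i + c.n → ∃ m : ℤ, |th l - th i - 2 * Real.pi * m| ≤ Real.pi / 2 * (((r + 3 * μ) * η + 12 * μ) / r)) := by
  have hloc := fun k => (pvg_rim_loc ch hm hμ hr0.le hr hc k).1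
  have hd : ‖g ((delPl h).toMap.src (c.e j) : ℂ) - g ((delPl h).toMap.src (c.e i) : ℂ)‖ ≤ 3 * μ + (r + 3 * μ) * η := by
    rw [hth j, hth i]
    refine (dog_dist_of_near (norm_nonneg _) (norm_nonneg _) (hloc j).2.2 (hloc i).2.2 hij).trans ?_
    have : |‖g ((delPl h).toMap.src (c.e j) : ℂ)‖ - ‖g ((delPl h).toMap.src (c.e i) : ℂ)‖| ≤ 3 * μ := by
      rw [abs_le]
      constructor <;> linarith [(hloc j).2.1, (hloc j).2.2, (hloc i).2.1, (hloc i).2.2]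
    linarith
  have key : ∀ l, ‖g ((delPl h).toMap.src (c.e l) : ℂ) - g ((delPl h).toMap.src (c.e i) : ℂ)‖ < 3 * μ + (r + 3 * μ) * η + 9 * μ →
      ∃ m : ℤ, |th l - th i - 2 * Real.pi * m| ≤ Real.pi / 2 * (((r + 3 * μ) * η + 12 * μ) / r) := by
    intro l hl
    rw [hth l, hth i] at hl
    exact dog_near_of_dist hr0 (hloc l).2.1 (hloc i).2.1 (by linarith)
  rcases dog_nh ch hm hμ hr0.le (by linarith) hc hd (hloc i).1 with H | H
  · exact Or.inl fun l h1 h2 => key l (H l h1 h2)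
  · exact Or.inr fun l h1 h2 => key l (H l h1 h2)

/-- **DENSE** for the lifted arguments -/
theorem dog_dense_ang (ch : PvgCh N g R1) (hm : PvgMesh N g R1 μ Y) (hμ : 0 < μ) (hr0 : 0 < r) (hr : r + 6 * μ < R1) {c : (delPl h).toMap.Cyc} (hc : PvgRim h (pvgK N g r) c)
    {th : ℕ → ℝ} (hth : ∀ k, g ((delPl h).toMap.src (c.e k) : ℂ) = (‖g ((delPl h).toMap.src (c.e k) : ℂ)‖ : ℂ) * pvgE (th k)) (φ : ℝ) :
    ∃ k, ∃ m : ℤ, |th k - φ - 2 * Real.pi * m| ≤ Real.pi / 2 * (6 * μ / r) := by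
  obtain ⟨k, hk⟩ := pvg_near ch hm hμ hr0.le hr hc φ
  rw [hth k] at hk
  exact ⟨k, dog_near_of_dist hr0 (pvg_rim_loc ch hm hμ hr0.le hr hc k).1.2.1 le_rfl hk⟩

/-- the steps of the lifted arguments, modulo `2π` -/
theorem dog_step_ang (ch : PvgCh N g R1) (hm : PvgMesh N g R1 μ Y) (hμ : 0 < μ) (hr0 : 0 < r) (hr : r + 6 * μ < R1) {c : (delPl h).toMap.Cyc} (hc : PvgRim h (pvgK N g r) c)
    {th : ℕ → ℝ} (hth : ∀ k, g ((delPl h).toMap.src (c.e k) : ℂ) = (‖g ((delPl h).toMap.src (c.e k) : ℂ)‖ : ℂ) * pvgE (th k)) (k : ℕ) :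
    ∃ m : ℤ, |th (k + 1) - th k - 2 * Real.pi * m| ≤ Real.pi / 2 * (2 * μ / r) := by
  have h1 := (pvg_rim_loc ch hm hμ hr0.le hr hc k).2
  rw [c.chain k, hth (k + 1), hth k] at h1
  exact dog_near_of_dist hr0 (pvg_rim_loc ch hm hμ hr0.le hr hc (k + 1)).1.2.1 (pvg_rim_loc ch hm hμ hr0.le hr hc k).1.2.1 h1

end lift

end Claimed.Agent.R289
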