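-- KEEP
import Claimed.Agent.R289.Del.Seam
import Claimed.Agent.R289.Brg.Win
import Claimed.Agent.R289.Fan.Sphere
import Claimed.Agent.R289.Cr.Main

/-!
# Row 289 (S0537), box DEL / BRIDGE, file Del/BulkDisc : THE SECOND BULK FAMILY  `PvBulk (Fin 3)` = DISCRETE DISC + 3 FANS + CLOSING FACE      (owner helper271; prefix `dlb`, `Dlb`)

(N1) of `Exit/Nice`, item (3) of the chain of record of helper31.      ABSTRACT in the choice of the disc: `sel : ∀ Y, Option (DlbSel Y)`.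
Producers: `Fan/Sphere` (helper92: `PvFan`, `F.map`, `F.isSph`, `F.simple`, record form `F.nm F.em ..`), `Brg/Win` (helper297: `PvgSurf`, `pvgFam`, `PvgCompl`, `pvg_w_compl_ok`), `Del/Seam` (`delMap`, `dls_isSph`, `dls_simple`).
Consumers: `PvTransport` (`Defs/Bulk`), `PvCR` (`Cr/Main`, helper7: wants a family AND a closing dart `q : ∀ Y, 𝔅.D Y`, TOTAL in `Y`), INST (helper111), P82 (helper91).

* `PvFan.compl F hS : PvgCompl F.T F.c (Fin 3)`      the completed sphere of helper92 signs the record of helper297, with its data visible (`V' = F.V'`, `T' = F.map`)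
* `DlbSel Y`            a choice for the site set `Y`: `good : DelGood Y`, a cycle `c` of `delMap good` with finite left side, marks `0 < i1 < i2 < c.n`;   `x.fan : PvFan ..`, `x.surf : PvgSurf (Fin 3)`
* `dlbJunk`             the value off the domain of `sel`: the double triangle on the three extra vertices (it HAS darts: `q` must be total)
* **`dlbBulk sel : PvBulk (Fin 3)`**, **`dlbQ sel : ∀ Y, (dlbBulk sel).D Y`** (closing dart `s 0 = s₀ → s₂`)
* `dlb_pt_some`         `sel Y = some x → dlbPt sel Y = x.pt`: EVERY statement on the family at `Y` is a statement on the pointed surface `dlbPt sel Y`; rewrite with this equation (no casts)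
* **`dlb_ok`** (`Ok Y K` if the sites of `K` are interior vertices of the disc), **`dlb_adm`** (all `Y`), **`dlb_gd`** (`Gd` of `Cr/Main`), `dlb_cl`
* TRANSPORT             `dlb_crS_eq`, `dlb_crSc_eq`, `dlb_bad_iff`: the quantities of `Cr/Main`, `Defs/Bulk` at `Y` computed on the constant family of the fan sphere `x.fam`
* DICTIONARY on `x.fam`: `dlb_col` (colouring = `F.col (dlsCol η) ξ`), `dlb_lab_iv`, `dlb_lab_sv`, `dlb_pos_iv`, `dlb_emb_iff` (embedded darts = `inn d`), `dlb_wV_inn`, `dlb_wQ_inn`, `dlb_wV_out` ..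
* `dlbSelOf P`          the choice function of a property `P : ∀ Y, DlbSel Y → Prop` (DISC-GEO: COLLAR, DEEP, ARC ..), `dlb_selOf_spec`, `dlb_selOf_some`;   `DlbSel.ofMarks` (arbitrary marks `m0 < m1 < m2 < m0 + n`)
* **`dlb_crS`**, `dlb_crSc`   `S(Y)`, `S̄(Y)` of the family = sums over the darts of the chosen disc of `f(bary) * side * F`, `F = x.fan.map.obs (s 0) (inn e)`
* **`dlb_cr`**          `PvCR` specialised: what INST consumes.
-/

set_option autoImplicit false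

namespace Claimed.Agent.R289

open Set Relation MeasureTheory Claims.C0465

/-! ## 1. the completed sphere signs the record -/

/-- the completed sphere of helper92 as a completion in the sense of helper297 -/
noncomputable def PvFan.compl {V D : Type} (F : PvFan V D) (hS : F.T.Simple) : PvgCompl F.T F.c (Fin 3) where
  V' := F.V'
  D' := F.D'
  T' := F.map
  nm := F.nm
  em := F.em
  finV := F.finV
  finD := F.finD
  sph := F.isSph
  simple := F.simple hS
  inj := F.nm_injective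
  src_em := F.nm_src_em
  nxt_em := F.em_nxt
  int := F.int_em
  emb := F.emb_em

/-! ## 2. choices, pointed surfaces, the family -/

/-- a choice of the discrete disc for the site set `Y` -/
structure DlbSel (Y : Set ℂ) where
  good : DelGood Y
  c : (delMap good).Cyc
  fin : c.Left.Finite
  i1 : ℕ
  i2 : ℕ
  h1 : 0 < i1
  h2 : i1 < i2
  h3 : i2 < c.n

/-- a surface with a marked dart -/
structure DlbPt where
  s : PvgSurf (Fin 3)
  q : s.D

namespace DlbSel

variable {Y : Set ℂ} (x : DlbSel Y)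

/-- the input of the fan construction -/
noncomputable abbrev fan : PvFan Y (DelDart x.good) := ⟨delMap x.good, dls_isSph x.good, x.c, x.fin, x.i1, x.i2, x.h1, x.h2, x.h3⟩

/-- the completion record -/
noncomputable def compl : PvgCompl (delPl x.good).toMap x.c (Fin 3) := x.fan.compl (dls_simple x.good)

/-- the completed sphere with named vertices -/
noncomputable def surf : PvgSurf (Fin 3) := x.compl.surf

/-- the completed sphere with its closing dart `s₀ → s₂` -/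
noncomputable def pt : DlbPt := ⟨x.surf, (PvFanD.s 0 : x.fan.D')⟩

end DlbSel

/-- the double triangle on three vertices -/
def dlbTwo : PvMap (Fin 3) (Fin 3 × Bool) where
  src d := d.1
  nxt d := if d.2 then (d.1 + 1, true) else (d.1 - 1, false)
  opp d := if d.2 then (d.1 + 1, false) else (d.1 - 1, true)
  nxt3 := by decide
  opp_opp := by decide
  src_opp := by decide
  src_ne := by decide

/-- the junk value: it has darts -/
def dlbJunk : DlbPt := ⟨⟨Fin 3, Fin 3 × Bool, dlbTwo, Sum.inr⟩, ((0 : Fin 3), true)⟩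

/-- the pointed surface of the site set `Y` -/
noncomputable def dlbPt (sel : ∀ Y : Set ℂ, Option (DlbSel Y)) (Y : Set ℂ) : DlbPt :=
  match sel Y with
  | some x => x.pt
  | none => dlbJunk

/-- **the discrete disc + 3 fans + closing face as a bulk family** -/
noncomputable def dlbBulk (sel : ∀ Y : Set ℂ, Option (DlbSel Y)) : PvBulk (Fin 3) := pvgFam fun Y => (dlbPt sel Y).s

/-- **its closing dart** -/
noncomputable def dlbQ (sel : ∀ Y : Set ℂ, Option (DlbSel Y)) : ∀ Y, (dlbBulk sel).D Y := fun Y => (dlbPt sel Y).q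

/-- the constant family of a pointed surface -/
def DlbPt.fam (P : DlbPt) : PvBulk (Fin 3) := pvgFam fun _ => P.s

/-- its dart -/
def DlbPt.qq (P : DlbPt) : ∀ Y, P.fam.D Y := fun _ => P.q

theorem dlb_eqns_cite : True := by
  have := @PvFan.compl.eq_1; have := @DlbSel.fan.eq_1; have := @DlbSel.compl.eq_1; have := @DlbSel.surf.eq_1; have := @DlbSel.pt.eq_1
  have := @dlbTwo.eq_1; have := @dlbJunk.eq_1; have := @dlbPt.eq_1; have := @dlbBulk.eq_1; have := @dlbQ.eq_1; have := @DlbPt.fam.eq_1; have := @DlbPt.qq.eq_1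
  trivial

/-! ## 3. the family at `Y` = the pointed surface `dlbPt sel Y` -/

section fam

variable {sel : ∀ Y : Set ℂ, Option (DlbSel Y)} {Y : Set ℂ}

theorem dlb_pt_some {x : DlbSel Y} (h : sel Y = some x) : dlbPt sel Y = x.pt := by
  unfold dlbPt
  rw [h]

theorem dlb_pt_none (h : sel Y = none) : dlbPt sel Y = dlbJunk := by
  unfold dlbPt
  rw [h]

theorem dlb_ok_iff (sel : ∀ Y : Set ℂ, Option (DlbSel Y)) (Y K : Set ℂ) : (dlbBulk sel).Ok Y K ↔ (dlbPt sel Y).s.Ok Y K := pvg_w_fam_ok _ _ _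

theorem DlbPt.ok_iff (P : DlbPt) (Y K : Set ℂ) : P.fam.Ok Y K ↔ P.s.Ok Y K := pvg_w_fam_ok _ _ _

theorem DlbSel.surf_ok (x : DlbSel Y) {K : Set ℂ} (hK : ∀ v : Y, (v : ℂ) ∈ K → v ∈ (delMap x.good).Int x.c.Left) : x.surf.Ok Y K :=
  pvg_w_compl_ok x.compl hK

/-- **the family agrees with Delaunay on `K`** as soon as the sites of `K` are interior vertices of the chosen disc -/
theorem dlb_ok {x : DlbSel Y} (h : sel Y = some x) {K : Set ℂ} (hK : ∀ v : Y, (v : ℂ) ∈ K → v ∈ (delMap x.good).Int x.c.Left) : (dlbBulk sel).Ok Y K := by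
  rw [dlb_ok_iff, dlb_pt_some h]
  exact x.surf_ok hK

theorem DlbSel.finite_V (x : DlbSel Y) : Finite x.pt.s.V := x.fan.finV

theorem DlbSel.finite_D (x : DlbSel Y) : Finite x.pt.s.D := x.fan.finD

theorem dlb_pt_finite (sel : ∀ Y : Set ℂ, Option (DlbSel Y)) (Y : Set ℂ) : Finite (dlbPt sel Y).s.V ∧ Finite (dlbPt sel Y).s.D := by
  rcases h : sel Y with _ | x
  · rw [dlb_pt_none h]
    exact ⟨inferInstanceAs (Finite (Fin 3)), inferInstanceAs (Finite (Fin 3 × Bool))⟩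
  · rw [dlb_pt_some h]
    exact ⟨x.finite_V, x.finite_D⟩

/-- **the family is admissible at EVERY site set** -/
theorem dlb_adm (sel : ∀ Y : Set ℂ, Option (DlbSel Y)) (Y : Set ℂ) : (dlbBulk sel).Adm Y := dlb_pt_finite sel Y

theorem dlb_gd_iff (sel : ∀ Y : Set ℂ, Option (DlbSel Y)) (z : ℂ) (R : ℝ) (Y : Set ℂ) :
    (dlbBulk sel).Gd (dlbQ sel) z R Y ↔ (dlbPt sel Y).fam.Gd (dlbPt sel Y).qq z R Y :=
  ⟨fun h => ⟨h.finV, h.finD, ((dlbPt sel Y).ok_iff _ _).2 ((dlb_ok_iff sel _ _).1 h.ok), h.cl⟩,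
    fun h => ⟨h.finV, h.finD, (dlb_ok_iff sel _ _).2 (((dlbPt sel Y).ok_iff _ _).1 h.ok), h.cl⟩⟩

/-- the three vertices of the closing face are extra -/
theorem DlbSel.cl (x : DlbSel Y) (Y' : Set ℂ) (d : x.pt.fam.D Y') (hd : (x.pt.fam.T Y').SF (x.pt.qq Y') d) : ∃ e : Fin 3, x.pt.fam.lab Y' ((x.pt.fam.T Y').src d) = Sum.inr e := by
  rcases hd with rfl | rfl | rfl
  · exact ⟨_, rfl⟩
  · exact ⟨_, rfl⟩
  · exact ⟨_, rfl⟩

theorem DlbSel.gd (x : DlbSel Y) {z : ℂ} {R : ℝ} (hK : ∀ v : Y, (v : ℂ) ∈ Metric.closedBall z (6 * R) → v ∈ (delMap x.good).Int x.c.Left) : x.pt.fam.Gd x.pt.qq z R Y :=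
  ⟨x.finite_V, x.finite_D, (x.pt.ok_iff _ _).2 (x.surf_ok hK), x.cl Y⟩

/-- **good geometries of `Cr/Main`** -/
theorem dlb_gd {x : DlbSel Y} (h : sel Y = some x) {z : ℂ} {R : ℝ} (hK : ∀ v : Y, (v : ℂ) ∈ Metric.closedBall z (6 * R) → v ∈ (delMap x.good).Int x.c.Left) :
    (dlbBulk sel).Gd (dlbQ sel) z R Y := by
  rw [dlb_gd_iff, dlb_pt_some h]
  exact x.gd hK

open Classical in
/-- `S(Y)` of `Cr/Main` is computed on the pointed surface -/
theorem dlb_crS_eq (sel : ∀ Y : Set ℂ, Option (DlbSel Y)) (z : ℂ) (R : ℝ) (f : ℂ → ℂ) (Y : Set ℂ) :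
    (dlbBulk sel).crS (dlbQ sel) z R f Y = (dlbPt sel Y).fam.crS (dlbPt sel Y).qq z R f Y := by
  unfold PvBulk.crS
  exact if_congr (dlb_gd_iff sel z R Y) rfl rfl

open Classical in
theorem dlb_crSc_eq (sel : ∀ Y : Set ℂ, Option (DlbSel Y)) (z : ℂ) (R : ℝ) (f : ℂ → ℂ) (Y : Set ℂ) :
    (dlbBulk sel).crSc (dlbQ sel) z R f Y = (dlbPt sel Y).fam.crSc (dlbPt sel Y).qq z R f Y := by
  unfold PvBulk.crSc
  exact if_congr (dlb_gd_iff sel z R Y) rfl rfl

/-- the bad event of bulk transport is computed on the pointed surface -/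
theorem dlb_bad_iff (sel : ∀ Y : Set ℂ, Option (DlbSel Y)) (a z : ℂ) (R : ℝ) (f : ℂ → ℂ) (τ : ℝ) (p : PVSample × (Fin 3 → Bool)) :
    p ∈ (dlbBulk sel).Bad a z R f τ ↔ p ∈ (dlbPt sel (cfSites (pvConf p.1))).fam.Bad a z R f τ :=
  ⟨fun ⟨h1, h2, h3⟩ => ⟨h1, ((dlbPt sel _).ok_iff _ _).2 ((dlb_ok_iff sel _ _).1 h2), h3⟩,
    fun ⟨h1, h2, h3⟩ => ⟨h1, (dlb_ok_iff sel _ _).2 (((dlbPt sel _).ok_iff _ _).1 h2), h3⟩⟩

end fam

/-! ## 4. dictionary on the constant family of the fan sphere -/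

section dict

variable {Y : Set ℂ} (x : DlbSel Y) (Y' : Set ℂ)

theorem dlb_T : x.pt.fam.T Y' = x.fan.map := rfl

theorem dlb_q : x.pt.qq Y' = (PvFanD.s 0 : x.fan.D') := rfl

theorem dlb_lab_iv (w : {v // v ∈ (delMap x.good).VOf x.c.Left}) : x.pt.fam.lab Y' (Sum.inl w : x.fan.V') = Sum.inl ((w.1 : Y) : ℂ) := rfl

theorem dlb_lab_sv (j : Fin 3) : x.pt.fam.lab Y' (Sum.inr j : x.fan.V') = Sum.inr j := rfl

theorem dlb_pos_iv (w : {v // v ∈ (delMap x.good).VOf x.c.Left}) : x.pt.fam.pos Y' (Sum.inl w : x.fan.V') = ((w.1 : Y) : ℂ) := rfl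

theorem dlb_pos_sv (j : Fin 3) : x.pt.fam.pos Y' (Sum.inr j : x.fan.V') = 0 := rfl

/-- the embedded darts are the darts of the disc -/
theorem dlb_emb_inn (e : {d // d ∈ x.c.Left}) : x.pt.fam.Emb Y' (PvFanD.inn e : x.fan.D') := ⟨_, _, _, rfl, rfl, rfl⟩

theorem dlb_emb_iff (d : x.fan.D') : x.pt.fam.Emb Y' d ↔ ∃ e : {d // d ∈ x.c.Left}, d = PvFanD.inn e := by
  constructor
  · rintro ⟨a, b, c, h1, h2, h3⟩
    cases d with
    | inn e => exact ⟨e, rfl⟩
    | a k => cases h3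
    | b k => cases h2
    | c k => cases h1
    | p k => cases h2
    | q k => cases h1
    | r k => cases h1
    | s k => cases h1
  · rintro ⟨e, rfl⟩
    exact dlb_emb_inn x Y' e

theorem dlb_bary_inn (e : {d // d ∈ x.c.Left}) : (x.pt.fam.T Y').bary (x.pt.fam.pos Y') (PvFanD.inn e : x.fan.D') = (delMap x.good).bary (dlsPos Y) e.1 := rfl

theorem dlb_side_inn (e : {d // d ∈ x.c.Left}) : (x.pt.fam.T Y').side (x.pt.fam.pos Y') (PvFanD.inn e : x.fan.D') = (delMap x.good).side (dlsPos Y) e.1 := rfl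

theorem dlb_qpart_inn (e : {d // d ∈ x.c.Left}) : (x.pt.fam.T Y').qpart (x.pt.fam.pos Y') (PvFanD.inn e : x.fan.D') = (delMap x.good).qpart (dlsPos Y) e.1 := rfl

theorem dlb_upart_inn (e : {d // d ∈ x.c.Left}) : (x.pt.fam.T Y').upart (x.pt.fam.pos Y') (PvFanD.inn e : x.fan.D') = (delMap x.good).upart (dlsPos Y) e.1 := rfl

theorem dlb_wV_inn (f : ℂ → ℂ) (e : {d // d ∈ x.c.Left}) :
    x.pt.fam.wV Y' f (PvFanD.inn e : x.fan.D') = f ((delMap x.good).bary (dlsPos Y) e.1) * (delMap x.good).side (dlsPos Y) e.1 := by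
  unfold PvBulk.wV
  rw [if_pos (dlb_emb_inn x Y' e)]
  rfl

theorem dlb_wQ_inn (f : ℂ → ℂ) (e : {d // d ∈ x.c.Left}) :
    x.pt.fam.wQ Y' f (PvFanD.inn e : x.fan.D') = f ((delMap x.good).bary (dlsPos Y) e.1) * (delMap x.good).qpart (dlsPos Y) e.1 := by
  unfold PvBulk.wQ
  rw [if_pos (dlb_emb_inn x Y' e)]
  rfl

theorem dlb_wU_inn (f : ℂ → ℂ) (e : {d // d ∈ x.c.Left}) :
    x.pt.fam.wU Y' f (PvFanD.inn e : x.fan.D') = f ((delMap x.good).bary (dlsPos Y) e.1) * (delMap x.good).upart (dlsPos Y) e.1 := by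
  unfold PvBulk.wU
  rw [if_pos (dlb_emb_inn x Y' e)]
  rfl

theorem dlb_wV_out (f : ℂ → ℂ) {d : x.fan.D'} (hd : ∀ e : {d // d ∈ x.c.Left}, d ≠ PvFanD.inn e) : x.pt.fam.wV Y' f d = 0 := by
  unfold PvBulk.wV
  exact if_neg fun h => by
    obtain ⟨e, he⟩ := (dlb_emb_iff x Y' d).1 h
    exact hd e he

theorem dlb_wQ_out (f : ℂ → ℂ) {d : x.fan.D'} (hd : ∀ e : {d // d ∈ x.c.Left}, d ≠ PvFanD.inn e) : x.pt.fam.wQ Y' f d = 0 := by
  unfold PvBulk.wQ
  exact if_neg fun h => by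
    obtain ⟨e, he⟩ := (dlb_emb_iff x Y' d).1 h
    exact hd e he

theorem dlb_wU_out (f : ℂ → ℂ) {d : x.fan.D'} (hd : ∀ e : {d // d ∈ x.c.Left}, d ≠ PvFanD.inn e) : x.pt.fam.wU Y' f d = 0 := by
  unfold PvBulk.wU
  exact if_neg fun h => by
    obtain ⟨e, he⟩ := (dlb_emb_iff x Y' d).1 h
    exact hd e he

/-- a sum over the darts of the sphere of a function which vanishes off the disc -/
theorem dlb_finsum {g : x.fan.D' → ℂ} (hg : ∀ d : x.fan.D', (∀ e : {d // d ∈ x.c.Left}, d ≠ PvFanD.inn e) → g d = 0) :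
    ∑ᶠ d, g d = ∑ᶠ e : {d // d ∈ x.c.Left}, g (PvFanD.inn e) := by
  have e1 : ∑ᶠ e : {d // d ∈ x.c.Left}, g (PvFanD.inn e) = ∑ᶠ d ∈ range (PvFanD.inn : {d // d ∈ x.c.Left} → x.fan.D'), g d :=
    (finsum_mem_range x.fan.inn_injective).symm
  rw [e1, ← finsum_mem_univ]
  refine finsum_mem_inter_support_eq' _ _ _ fun d hd => ⟨fun _ => ?_, fun _ => mem_univ _⟩
  by_contra hn
  exact hd (hg d fun e he => hn ⟨e, he.symm⟩)

/-- **`S(Y)` on the fan sphere**: a sum over the darts of the disc -/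
theorem DlbSel.crS_eq {z : ℂ} {R : ℝ} (hK : ∀ v : Y, (v : ℂ) ∈ Metric.closedBall z (6 * R) → v ∈ (delMap x.good).Int x.c.Left) (f : ℂ → ℂ) :
    x.pt.fam.crS x.pt.qq z R f Y =
      ∑ᶠ e : {d // d ∈ x.c.Left}, f ((delMap x.good).bary (dlsPos Y) e.1) * (delMap x.good).side (dlsPos Y) e.1 * x.fan.map.obs (PvFanD.s 0) (PvFanD.inn e) := by
  unfold PvBulk.crS
  rw [if_pos (x.gd hK)]
  refine (dlb_finsum x (g := fun d => x.pt.fam.wV Y f d * (x.pt.fam.T Y).obs (x.pt.qq Y) d) fun d hd => ?_).trans ?_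
  · show x.pt.fam.wV Y f d * _ = 0
    rw [dlb_wV_out x Y f hd, zero_mul]
  · refine finsum_congr fun e => ?_
    show x.pt.fam.wV Y f (PvFanD.inn e : x.fan.D') * _ = _
    rw [dlb_wV_inn]
    rfl

theorem DlbSel.crSc_eq {z : ℂ} {R : ℝ} (hK : ∀ v : Y, (v : ℂ) ∈ Metric.closedBall z (6 * R) → v ∈ (delMap x.good).Int x.c.Left) (f : ℂ → ℂ) :
    x.pt.fam.crSc x.pt.qq z R f Y =
      ∑ᶠ e : {d // d ∈ x.c.Left}, f ((delMap x.good).bary (dlsPos Y) e.1) * (delMap x.good).side (dlsPos Y) e.1 *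
        (starRingEnd ℂ) (x.fan.map.obs (PvFanD.s 0) (PvFanD.inn e)) := by
  unfold PvBulk.crSc
  rw [if_pos (x.gd hK)]
  refine (dlb_finsum x (g := fun d => x.pt.fam.wV Y f d * (starRingEnd ℂ) ((x.pt.fam.T Y).obs (x.pt.qq Y) d)) fun d hd => ?_).trans ?_
  · show x.pt.fam.wV Y f d * _ = 0
    rw [dlb_wV_out x Y f hd, zero_mul]
  · refine finsum_congr fun e => ?_
    show x.pt.fam.wV Y f (PvFanD.inn e : x.fan.D') * _ = _
    rw [dlb_wV_inn]
    rfl

end dict

/-- the colouring of the fan sphere: the colours of the configuration on the disc, the coins on the three outer vertices -/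
theorem dlb_col {η : Conf PvPt} (x : DlbSel (cfSites η)) (ξ : Fin 3 → Bool) (v : x.fan.V') : x.pt.fam.col η ξ v = x.fan.col (dlsCol η) ξ v := by
  rcases v with w | j
  · rfl
  · rfl

/-! ## 5. the consumer forms at the family -/

section cons

variable {sel : ∀ Y : Set ℂ, Option (DlbSel Y)} {Y : Set ℂ}

/-- **`S(Y)` of the family** = `∑_t f(z_t) ∑_j d_tj F_{m_j(t)}` over the faces of the chosen disc, `F` = the observable of the completed sphere with closing dart `s₀ → s₂` -/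
theorem dlb_crS {x : DlbSel Y} (h : sel Y = some x) {z : ℂ} {R : ℝ} (hK : ∀ v : Y, (v : ℂ) ∈ Metric.closedBall z (6 * R) → v ∈ (delMap x.good).Int x.c.Left) (f : ℂ → ℂ) :
    (dlbBulk sel).crS (dlbQ sel) z R f Y =
      ∑ᶠ e : {d // d ∈ x.c.Left}, f ((delMap x.good).bary (dlsPos Y) e.1) * (delMap x.good).side (dlsPos Y) e.1 * x.fan.map.obs (PvFanD.s 0) (PvFanD.inn e) := by
  rw [dlb_crS_eq, dlb_pt_some h]
  exact x.crS_eq hK f

theorem dlb_crSc {x : DlbSel Y} (h : sel Y = some x) {z : ℂ} {R : ℝ} (hK : ∀ v : Y, (v : ℂ) ∈ Metric.closedBall z (6 * R) → v ∈ (delMap x.good).Int x.c.Left) (f : ℂ → ℂ) :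
    (dlbBulk sel).crSc (dlbQ sel) z R f Y =
      ∑ᶠ e : {d // d ∈ x.c.Left}, f ((delMap x.good).bary (dlsPos Y) e.1) * (delMap x.good).side (dlsPos Y) e.1 *
        (starRingEnd ℂ) (x.fan.map.obs (PvFanD.s 0) (PvFanD.inn e)) := by
  rw [dlb_crSc_eq, dlb_pt_some h]
  exact x.crSc_eq hK f

end cons

/-! ## 6. the choice function of a property -/

open Classical in
/-- the choice function of a property of discs (DISC-GEO: FIN, IN, DEEP, ARC, NEAR ..) -/
noncomputable def dlbSelOf (P : ∀ Y : Set ℂ, DlbSel Y → Prop) (Y : Set ℂ) : Option (DlbSel Y) := if h : ∃ x, P Y x then some h.choose else none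

theorem dlb_eqns_cite2 : True := by
  have := @dlbSelOf.eq_1
  trivial

theorem dlb_selOf_spec {P : ∀ Y : Set ℂ, DlbSel Y → Prop} {Y : Set ℂ} (h : ∃ x, P Y x) : ∃ x, dlbSelOf P Y = some x ∧ P Y x :=
  ⟨h.choose, dif_pos h, h.choose_spec⟩

theorem dlb_selOf_some {P : ∀ Y : Set ℂ, DlbSel Y → Prop} {Y : Set ℂ} {x : DlbSel Y} (h : dlbSelOf P Y = some x) : P Y x := by
  unfold dlbSelOf at h
  split_ifs at h with hx
  have e : hx.choose = x := Option.some.inj h
  rw [← e]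
  exact hx.choose_spec

/-- arbitrary marks `m0 < m1 < m2 < m0 + n` on a cycle (the cycle is read from `m0`) -/
noncomputable def DlbSel.ofMarks {Y : Set ℂ} (good : DelGood Y) (c : (delMap good).Cyc) (fin : c.Left.Finite) (m0 m1 m2 : ℕ) (h1 : m0 < m1) (h2 : m1 < m2) (h3 : m2 < m0 + c.n) : DlbSel Y where
  good := good
  c := c.shift m0
  fin := by rw [(pl_shift_left (dls_isSph good) c m0).1]; exact fin
  i1 := m1 - m0
  i2 := m2 - m0
  h1 := by omega
  h2 := by omega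
  h3 := by show m2 - m0 < c.n; omega

theorem dlb_eqns_cite3 : True := by
  have := @DlbSel.ofMarks.eq_1
  trivial

theorem DlbSel.ofMarks_left {Y : Set ℂ} (good : DelGood Y) (c : (delMap good).Cyc) (fin : c.Left.Finite) (m0 m1 m2 : ℕ) (h1 : m0 < m1) (h2 : m1 < m2) (h3 : m2 < m0 + c.n) :
    (DlbSel.ofMarks good c fin m0 m1 m2 h1 h2 h3).c.Left = c.Left := (pl_shift_left (dls_isSph good) c m0).1

theorem DlbSel.ofMarks_fan {Y : Set ℂ} (good : DelGood Y) (c : (delMap good).Cyc) (fin : c.Left.Finite) (m0 m1 m2 : ℕ) (h1 : m0 < m1) (h2 : m1 < m2) (h3 : m2 < m0 + c.n) :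
    (DlbSel.ofMarks good c fin m0 m1 m2 h1 h2 h3).fan = PvFan.ofMarks (delMap good) (dls_isSph good) c fin m0 m1 m2 h1 h2 h3 := rfl

/-! ## 7. `PvCR` read on the discs -/

open Filter Topology in
open scoped ContDiff ENNReal in
/-- **the discrete Cauchy-Riemann relation (8.3), mirror form, on the chosen discs**: `PvCR` of `Cr/Main` specialised to the family `dlbBulk sel`, in the vocabulary of `delMap` and of the completed sphere.
The subsequence `φ` and the scalar `a` do not depend on the choice `sel`, on the ball, on the test. -/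
theorem dlb_cr (hCR : PvCR) (εs : ℕ → ℝ) (h0 : ∀ n, 0 < εs n) (hε : Tendsto εs atTop (𝓝 0)) : ∃ φ : ℕ → ℕ, StrictMono φ ∧ ∃ a : ℂ,
    ∀ (sel : ∀ Y : Set ℂ, Option (DlbSel Y)) (z : ℂ) (R : ℝ) (f : ℂ → ℂ), 0 < R → ContDiff ℝ ∞ f → tsupport f ⊆ Metric.ball z R →
      ∃ u : ℕ → PvGeoT → ℝ≥0∞, (∀ n, Measurable (u n)) ∧
        (∀ n g, PvgOk g → ∀ x : DlbSel (pvgSites g), sel (pvgSites g) = some x →
          (∀ v : pvgSites g, (v : ℂ) ∈ Metric.closedBall z (6 * R) → v ∈ (delMap x.good).Int x.c.Left) →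
          ‖(1 - a) * ∑ᶠ e : {d // d ∈ x.c.Left}, f ((delMap x.good).bary (dlsPos _) e.1) * (delMap x.good).side (dlsPos _) e.1 *
              x.fan.map.obs (PvFanD.s 0) (PvFanD.inn e)‖ₑ ≤ u n g ∧
          ‖a * ∑ᶠ e : {d // d ∈ x.c.Left}, f ((delMap x.good).bary (dlsPos _) e.1) * (delMap x.good).side (dlsPos _) e.1 *
              (starRingEnd ℂ) (x.fan.map.obs (PvFanD.s 0) (PvFanD.inn e))‖ₑ ≤ u n g) ∧
        Tendsto (fun n => ∫⁻ g, u n g ∂(pvGeo (εs (φ n)))) atTop (𝓝 0) := by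
  obtain ⟨φ, hφ, a, H⟩ := hCR εs h0 hε
  refine ⟨φ, hφ, a, fun sel z R f hR hf hs => ?_⟩
  obtain ⟨u, hu, hb, ht⟩ := H (Fin 3) (dlbBulk sel) (dlbQ sel) z R f hR hf hs
  refine ⟨u, hu, fun n g hg x hx hK => ?_, ht⟩
  have := hb n g hg
  rwa [dlb_crS hx hK, dlb_crSc hx hK] at this

end Claimed.Agent.R289
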