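import Claimed.Agent.R289.Del.Tile
import Claimed.Agent.R289.Del.Plane

/-!
# Row 289 (S0537), box DEL (head helper253), file Del/Dual : THE GEOMETRIC <-> DUAL DICTIONARY      (owner helper19; prefix `deld_`, `Deld`)      0 sorry

Deterministic statements on a SITE SET `Y : Set ℂ`; triangles `delT`, `delTo` of `Del/Area`; tiling of `Del/Tile`; link of `Del/Main`; `DelGood`, `delPl` of `Del/Plane`.
Consumers: `Pl/Geo` (172: instance of `PlGeo` for `delPl`), L8.3 (dual path between two probes), (D2)-(D4) of DISC (188, 74), QUAD.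
* **(U1a)** `deld_site`: a site lying in a closed Delaunay triangle is one of its vertices.
* **(U1b)** `deld_side`, `deld_side_seg`: a point of the open side `]a,b[` lies only in the two Delaunay triangles of that side;   `deld_openSegment` (open side in determinant form), `deld_side_nhds`, `deld_eq_vertex`.
* chains: `DeldStep Y S`, `DeldJoin Y S` on triples `ℂ × ℂ × ℂ`: ROTATION `(a,b,c) ↦ (b,c,a)` or CROSSING `(a,b,c) ↦ (b,a,d)` of a side `[a,b]` which meets `S`, always to a Delaunay triangle which meets `S`.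
* **(U2)** `deld_at`: two Delaunay triangles with a common point `x` are joined through Delaunay triangles containing `x` (`deld_fan`: fan of a site; `deld_at_side`; `del_T2`).
* **(U3)** `deld_conn` (abstract), `deld_conn_good` (`DelGood Y`, `S` bounded), `deld_conn_dense` (sites `ρ`-dense in the `4ρ`-collar of `S`): `S` preconnected ⟹ the Delaunay triangles meeting `S` are dual connected through such triangles.
* **local finiteness** `deld_finite` (all cells bounded, no density), `deld_cells_bdd` (the cells of the points of a bounded set are uniformly bounded: four directions), `deld_O_mem_cell`.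
* primal form: `deldV Y S`, `DeldJoin.primal`, `deld_primal_good`, `deld_primal_dense`;   size: `deld_V_subset`, `deld_T_subset` (`2ρ`-collar).
* dart form on `(delPl h).toMap`: `deldF`, `deld_dart_conn`, `deld_DJoin`.
-/

set_option autoImplicit false
set_option linter.unusedSimpArgs false

namespace Claimed.Agent.R289

open Complex Set Metric Filter Topology Relation

/-! ## 1. algebra of the determinants -/

/-- an affine function in barycentric coordinates -/
theorem deld_aff (a b c u v x : ℂ) :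
    vorDet a b c * vorDet u v x = vorDet b c x * vorDet u v a + vorDet c a x * vorDet u v b + vorDet a b x * vorDet u v c := by
  simp only [vorDet]; ring

theorem deld_det_add (a b p w : ℂ) (s : ℝ) : vorDet a b (p + (s : ℂ) * (w - a)) = vorDet a b p + s * vorDet a b w := by
  simp only [vorDet, add_re, add_im, mul_re, mul_im, ofReal_re, ofReal_im, sub_re, sub_im, zero_mul, sub_zero, add_zero]
  ring

/-- two vanishing barycentric coordinates: a vertex -/
theorem deld_eq_vertex {a b c x : ℂ} (h : 0 < vorDet a b c) (h1 : vorDet a b x = 0) (h2 : vorDet c a x = 0) : x = a := by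
  have hs := dela_det_sum a b c x
  have he := dela_expand a b c x
  rw [h1, h2] at he
  have h3 : vorDet b c x = vorDet a b c := by linarith
  rw [h3] at he
  have hD : ((vorDet a b c : ℝ) : ℂ) ≠ 0 := by exact_mod_cast h.ne'
  apply mul_left_cancel₀ hD
  rw [he]; simp

section local_

variable {Y : Set ℂ} {a b c d a' b' c' x : ℂ}

/-! ## 2. (U1) sites and open sides -/

/-- **(U1a)** a site lying in a closed Delaunay triangle is one of its vertices -/
theorem deld_site (hY : VorGP Y) (h : DelTri Y a b c) {v : ℂ} (hv : v ∈ Y) (hvT : v ∈ delT a b c) : v = a ∨ v = b ∨ v = c := by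
  have h1 := del_T_subset_disc h.left hvT
  rw [mem_closedBall, dist_comm, dist_eq_norm] at h1
  have e : ‖delO a b c - v‖ = ‖delO a b c - a‖ := le_antisymm h1 (h.empty v hv)
  by_contra hh
  push Not at hh
  exact hY.cir a h.1 b h.2.1 c h.2.2.1 v hv h.ne.1 h.ne.2.1 (Ne.symm hh.1) h.ne.2.2 (Ne.symm hh.2.1) (Ne.symm hh.2.2) (delO a b c)
    ⟨del_O_ab a b c, del_O_ac h.left.ne', e.symm⟩

/-- a point of the open side `]a,b[` of the triangle `a b c` is a point of the open side of the triangle `b a d` -/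
theorem deld_side_pos (h : 0 < vorDet a b c) (h' : 0 < vorDet b a d) (h0 : vorDet a b x = 0) (h1 : 0 < vorDet b c x) (h2 : 0 < vorDet c a x) :
    0 < vorDet a d x ∧ 0 < vorDet d b x := by
  have e1 := deld_aff a b c a d x
  have e2 := deld_aff a b c d b x
  have r1 : vorDet a d b = vorDet b a d := del_det_rot b a d
  have r2 : vorDet d b a = vorDet b a d := by simp only [vorDet]; ring
  have z1 : vorDet a d a = 0 := by simp only [vorDet]; ring
  have z2 : vorDet d b b = 0 := by simp only [vorDet]; ring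
  rw [h0, z1, r1] at e1
  rw [h0, z2, r2] at e2
  constructor
  · have : 0 < vorDet a b c * vorDet a d x := by rw [e1]; nlinarith [mul_pos h2 h']
    exact (pos_iff_pos_of_mul_pos this).1 h
  · have : 0 < vorDet a b c * vorDet d b x := by rw [e2]; nlinarith [mul_pos h1 h']
    exact (pos_iff_pos_of_mul_pos this).1 h

/-- near a point of the open side `]a,b[` the plane is covered by the two triangles -/
theorem deld_side_nhds (h : 0 < vorDet a b c) (h' : 0 < vorDet b a d) (h0 : vorDet a b x = 0) (h1 : 0 < vorDet b c x) (h2 : 0 < vorDet c a x) :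
    ∀ᶠ q in 𝓝 x, (0 < vorDet a b q → q ∈ delTo a b c) ∧ (vorDet a b q < 0 → q ∈ delTo b a d) := by
  obtain ⟨h3, h4⟩ := deld_side_pos h h' h0 h1 h2
  have c1 := (dela_det_cont b c).continuousAt.eventually (lt_mem_nhds h1)
  have c2 := (dela_det_cont c a).continuousAt.eventually (lt_mem_nhds h2)
  have c3 := (dela_det_cont a d).continuousAt.eventually (lt_mem_nhds h3)
  have c4 := (dela_det_cont d b).continuousAt.eventually (lt_mem_nhds h4)
  filter_upwards [c1, c2, c3, c4] with q q1 q2 q3 q4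
  refine ⟨fun hq => ⟨hq, q1, q2⟩, fun hq => ⟨?_, q3, q4⟩⟩
  rw [del_det_swap]; linarith

/-- an open triangle is not contained in a line -/
theorem deld_exists_off (h : 0 < vorDet a b c) (h' : 0 < vorDet a' b' c') : ∃ g ∈ delTo a' b' c', vorDet a b g ≠ 0 := by
  have hg0 := dela_bar_mem h'
  by_cases h0 : vorDet a b (delBar a' b' c') = 0
  · have hc : ContinuousAt (fun s : ℝ => delBar a' b' c' + (s : ℂ) * (c - a)) 0 := by fun_prop
    have hm : delTo a' b' c' ∈ 𝓝 (delBar a' b' c' + ((0 : ℝ) : ℂ) * (c - a)) := by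
      rw [ofReal_zero, zero_mul, add_zero]; exact (dela_isOpen a' b' c').mem_nhds hg0
    have h1 : ∀ᶠ s : ℝ in 𝓝[>] 0, delBar a' b' c' + (s : ℂ) * (c - a) ∈ delTo a' b' c' := (hc.eventually hm).filter_mono nhdsWithin_le_nhds
    obtain ⟨s, hs, hs0⟩ := (h1.and self_mem_nhdsWithin).exists
    refine ⟨_, hs, ?_⟩
    rw [deld_det_add, h0, zero_add]
    exact (mul_pos hs0 h).ne'
  · exact ⟨_, hg0, h0⟩

/-- the segment from a point of the closed triangle to a point of the open triangle -/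
theorem deld_seg_open {g : ℂ} (hx : x ∈ delT a b c) (hg : g ∈ delTo a b c) {t : ℝ} (ht0 : 0 < t) (ht1 : t ≤ 1) : (1 - t) • x + t • g ∈ delTo a b c := by
  have h1t : 0 ≤ 1 - t := by linarith
  refine ⟨?_, ?_, ?_⟩
  · rw [dela_det_affine a b x g (1 - t) t (by ring)]; nlinarith [mul_nonneg h1t hx.1, mul_pos ht0 hg.1]
  · rw [dela_det_affine b c x g (1 - t) t (by ring)]; nlinarith [mul_nonneg h1t hx.2.1, mul_pos ht0 hg.2.1]
  · rw [dela_det_affine c a x g (1 - t) t (by ring)]; nlinarith [mul_nonneg h1t hx.2.2, mul_pos ht0 hg.2.2]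

/-- **(U1b)** a point of the open side `]a,b[` lies only in the two Delaunay triangles of that side -/
theorem deld_side (hY : VorGP Y) (h : DelTri Y a b c) (h' : DelTri Y b a d) (h0 : vorDet a b x = 0) (h1 : 0 < vorDet b c x) (h2 : 0 < vorDet c a x)
    (ht : DelTri Y a' b' c') (hx : x ∈ delT a' b' c') :
    ((a' = a ∧ b' = b ∧ c' = c) ∨ (a' = b ∧ b' = c ∧ c' = a) ∨ (a' = c ∧ b' = a ∧ c' = b)) ∨
    ((a' = b ∧ b' = a ∧ c' = d) ∨ (a' = a ∧ b' = d ∧ c' = b) ∨ (a' = d ∧ b' = b ∧ c' = a)) := by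
  obtain ⟨g, hg, hg0⟩ := deld_exists_off h.left ht.left
  have hc : ContinuousAt (fun t : ℝ => (1 - t) • x + t • g) 0 := by fun_prop
  have hn := deld_side_nhds h.left h'.left h0 h1 h2
  have hn' : ∀ᶠ q in 𝓝 ((1 - (0 : ℝ)) • x + (0 : ℝ) • g), (0 < vorDet a b q → q ∈ delTo a b c) ∧ (vorDet a b q < 0 → q ∈ delTo b a d) := by
    simpa using hn
  have e1 : ∀ᶠ t : ℝ in 𝓝[>] 0, _ := (hc.eventually hn').filter_mono nhdsWithin_le_nhds
  have e2 : ∀ᶠ t : ℝ in 𝓝[>] 0, t < 1 := (gt_mem_nhds (by norm_num : (0 : ℝ) < 1)).filter_mono nhdsWithin_le_nhds |>.mono fun _ h => h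
  obtain ⟨t, ⟨⟨hp, hm⟩, ht1⟩, ht0⟩ := ((e1.and e2).and self_mem_nhdsWithin).exists
  have ht0' : (0 : ℝ) < t := ht0
  have hq := deld_seg_open hx hg ht0' ht1.le
  have hdet : vorDet a b ((1 - t) • x + t • g) = t * vorDet a b g := by
    rw [dela_det_affine a b x g (1 - t) t (by ring), h0, mul_zero, zero_add]
  rcases lt_or_gt_of_ne hg0 with hneg | hpos
  · right
    exact del_T2 hY h' ht (hm (by rw [hdet]; exact mul_neg_of_pos_of_neg ht0' hneg)) (dela_open_subset _ _ _ hq)
  · left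
    exact del_T2 hY h ht (hp (by rw [hdet]; exact mul_pos ht0' hpos)) (dela_open_subset _ _ _ hq)

/-- the open side in determinant form -/
theorem deld_openSegment (h : 0 < vorDet a b c) : x ∈ openSegment ℝ a b ↔ vorDet a b x = 0 ∧ 0 < vorDet b c x ∧ 0 < vorDet c a x := by
  have z1 : vorDet a b a = 0 := by simp only [vorDet]; ring
  have z2 : vorDet a b b = 0 := by simp only [vorDet]; ring
  have z3 : vorDet b c b = 0 := by simp only [vorDet]; ring
  have z4 : vorDet c a a = 0 := by simp only [vorDet]; ring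
  have r1 : vorDet b c a = vorDet a b c := del_det_rot a b c
  have r2 : vorDet c a b = vorDet a b c := by simp only [vorDet]; ring
  constructor
  · rintro ⟨s, t, hs, ht, hst, rfl⟩
    refine ⟨?_, ?_, ?_⟩
    · rw [dela_det_affine a b a b s t hst, z1, z2]; ring
    · rw [dela_det_affine b c a b s t hst, z3, r1, mul_zero, add_zero]; exact mul_pos hs h
    · rw [dela_det_affine c a a b s t hst, z4, r2, mul_zero, zero_add]; exact mul_pos ht h
  · rintro ⟨h0, h1, h2⟩
    have hs := dela_det_sum a b c x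
    have he := dela_expand a b c x
    have hD : ((vorDet a b c : ℝ) : ℂ) ≠ 0 := by exact_mod_cast h.ne'
    refine ⟨vorDet b c x / vorDet a b c, vorDet c a x / vorDet a b c, div_pos h1 h, div_pos h2 h, ?_, ?_⟩
    · rw [← add_div, div_eq_one_iff_eq h.ne']; linarith
    · rw [h0] at he
      simp only [Complex.real_smul]
      push_cast
      apply mul_left_cancel₀ hD
      rw [he]
      field_simp
      simp

/-- **(U1b)**, segment form: a Delaunay triangle which contains a point of the open side `]a,b[` of a Delaunay triangle has the vertices `a` and `b` -/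
theorem deld_side_seg (hLF : VorLF Y) (hY : VorGP Y) (hbd : Bornology.IsBounded (vorCell Y b)) (h : DelTri Y a b c) (ht : DelTri Y a' b' c')
    (hx : x ∈ openSegment ℝ a b) (hx' : x ∈ delT a' b' c') : (a = a' ∨ a = b' ∨ a = c') ∧ (b = a' ∨ b = b' ∨ b = c') := by
  obtain ⟨d, hd⟩ := del_apex_exists hLF hbd (del_tri_adj h).1.symm
  obtain ⟨h0, h1, h2⟩ := (deld_openSegment h.left).1 hx
  rcases deld_side hY h hd h0 h1 h2 ht hx' with (⟨rfl, rfl, rfl⟩ | ⟨rfl, rfl, rfl⟩ | ⟨rfl, rfl, rfl⟩) | (⟨rfl, rfl, rfl⟩ | ⟨rfl, rfl, rfl⟩ | ⟨rfl, rfl, rfl⟩) <;>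
    simp

end local_

/-! ## 3. chains of triangles -/

/-- the closed triangle of a triple -/
def deldT (t : ℂ × ℂ × ℂ) : Set ℂ := delT t.1 t.2.1 t.2.2

/-- the triple is a (positively oriented) Delaunay triangle -/
def DeldTri (Y : Set ℂ) (t : ℂ × ℂ × ℂ) : Prop := DelTri Y t.1 t.2.1 t.2.2

/-- one step to a Delaunay triangle `t` meeting `S`: ROTATION of the triple `(a,b,c) ↦ (b,c,a)` or CROSSING of the first side `(a,b,c) ↦ (b,a,d)`, allowed only if the closed side `[a,b]` meets `S` -/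
def DeldStep (Y S : Set ℂ) (s t : ℂ × ℂ × ℂ) : Prop :=
  DeldTri Y t ∧ (deldT t ∩ S).Nonempty ∧ (t = (s.2.1, s.2.2, s.1) ∨ (t.1 = s.2.1 ∧ t.2.1 = s.1 ∧ (segment ℝ s.1 s.2.1 ∩ S).Nonempty))

/-- dual connection through Delaunay triangles meeting `S` -/
def DeldJoin (Y S : Set ℂ) : ℂ × ℂ × ℂ → ℂ × ℂ × ℂ → Prop := ReflTransGen (DeldStep Y S)

theorem deld_eqns_cite : True := by
  have := @deldT.eq_1; have := @DeldTri.eq_1; have := @DeldStep.eq_1; have := @DeldJoin.eq_1
  trivial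

section chain

variable {Y S S' : Set ℂ} {a b c d a' b' c' x : ℂ}

theorem DeldStep.mono (hS : S ⊆ S') {s t : ℂ × ℂ × ℂ} (h : DeldStep Y S s t) : DeldStep Y S' s t :=
  ⟨h.1, h.2.1.mono (inter_subset_inter_right _ hS), h.2.2.imp id fun h' => ⟨h'.1, h'.2.1, h'.2.2.mono (inter_subset_inter_right _ hS)⟩⟩

theorem DeldJoin.mono (hS : S ⊆ S') {s t : ℂ × ℂ × ℂ} (h : DeldJoin Y S s t) : DeldJoin Y S' s t :=
  ReflTransGen.mono (fun _ _ h' => DeldStep.mono hS h') _ _ h

theorem DeldJoin.trans {s t u : ℂ × ℂ × ℂ} (h : DeldJoin Y S s t) (h' : DeldJoin Y S t u) : DeldJoin Y S s u := ReflTransGen.trans h h'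

theorem deld_rot (h : DelTri Y a b c) (hS : (delT a b c ∩ S).Nonempty) : DeldJoin Y S (a, b, c) (b, c, a) :=
  ReflTransGen.single ⟨del_tri_cyc h, by unfold deldT; rw [dela_cyc]; exact hS, Or.inl rfl⟩

theorem deld_rot2 (h : DelTri Y a b c) (hS : (delT a b c ∩ S).Nonempty) : DeldJoin Y S (a, b, c) (c, a, b) :=
  (deld_rot h hS).trans (deld_rot (del_tri_cyc h) (by rw [dela_cyc]; exact hS))

theorem deld_flip (c : ℂ) (h' : DelTri Y b a d) (hS : (delT b a d ∩ S).Nonempty) (hseg : (segment ℝ a b ∩ S).Nonempty) :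
    DeldJoin Y S (a, b, c) (b, a, d) :=
  ReflTransGen.single ⟨h', hS, Or.inr ⟨rfl, rfl, hseg⟩⟩

/-- a rotation of the triple -/
theorem deld_of_rot (h : DelTri Y a b c) (hS : (delT a b c ∩ S).Nonempty)
    (hr : (a' = a ∧ b' = b ∧ c' = c) ∨ (a' = b ∧ b' = c ∧ c' = a) ∨ (a' = c ∧ b' = a ∧ c' = b)) : DeldJoin Y S (a, b, c) (a', b', c') := by
  rcases hr with ⟨rfl, rfl, rfl⟩ | ⟨rfl, rfl, rfl⟩ | ⟨rfl, rfl, rfl⟩
  · exact ReflTransGen.refl
  · exact deld_rot h hS
  · exact deld_rot2 h hS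

/-- the end of a chain is a Delaunay triangle meeting `S` -/
theorem DeldJoin.right {s t : ℂ × ℂ × ℂ} (h : DeldJoin Y S s t) (hs : DeldTri Y s) (hS : (deldT s ∩ S).Nonempty) :
    DeldTri Y t ∧ (deldT t ∩ S).Nonempty := by
  rcases ReflTransGen.cases_tail h with rfl | ⟨u, _, hu⟩
  · exact ⟨hs, hS⟩
  · exact ⟨hu.1, hu.2.1⟩

/-! ## 4. (U2) the triangles through a point -/

/-- the fan of a site -/
theorem deld_fan (hLF : VorLF Y) (hY : VorGP Y) {v : ℂ} (hbd : Bornology.IsBounded (vorCell Y v)) (h : DelTri Y v b c) (h' : DelTri Y v b' c') :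
    DeldJoin Y {v} (v, b, c) (v, b', c') := by
  have hmem : ∀ p q, DelTri Y v p q → (delT v p q ∩ {v}).Nonempty := fun p q hpq => ⟨v, dela_mem_a hpq.left.le, rfl⟩
  have key : ∀ p, ReflTransGen (fun x y => DelTri Y v x y) b p → ∀ q, DelTri Y v p q → DeldJoin Y {v} (v, b, c) (v, p, q) := by
    intro p hp
    induction hp with
    | refl =>
      intro q hq
      rw [del_tri_unique hY h hq]
      exact ReflTransGen.refl
    | @tail p p' _ hstep ih =>
      intro q' hq'
      refine (ih p' hstep).trans ((deld_rot2 hstep (hmem _ _ hstep)).trans ?_)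
      exact deld_flip p hq' (hmem _ _ hq') ⟨v, right_mem_segment ℝ p' v, rfl⟩
  exact key b' (del_link_cyc hLF hY hbd (del_tri_adj h).1 (del_tri_adj h').1) c' h'

/-- the vertex case -/
theorem deld_at_vertex (hLF : VorLF Y) (hY : VorGP Y) (hbd : Bornology.IsBounded (vorCell Y a)) (h : DelTri Y a b c) (h' : DelTri Y a' b' c')
    (hx' : a ∈ delT a' b' c') : DeldJoin Y {a} (a, b, c) (a', b', c') := by
  have hS' : (delT a' b' c' ∩ {a}).Nonempty := ⟨a, hx', rfl⟩
  rcases deld_site hY h' h.1 hx' with rfl | rfl | rfl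
  · exact deld_fan hLF hY hbd h h'
  · have h2 := del_tri_cyc h'
    exact (deld_fan hLF hY hbd h h2).trans (deld_rot2 h2 (by rw [dela_cyc]; exact hS'))
  · have h2 := del_tri_cyc (del_tri_cyc h')
    exact (deld_fan hLF hY hbd h h2).trans (deld_rot h2 (by rw [dela_cyc, dela_cyc]; exact hS'))

/-- the side case -/
theorem deld_at_side (hLF : VorLF Y) (hY : VorGP Y) (hbd : Bornology.IsBounded (vorCell Y b)) (h : DelTri Y a b c) (h' : DelTri Y a' b' c')
    (h0 : vorDet a b x = 0) (h1 : 0 < vorDet b c x) (h2 : 0 < vorDet c a x) (hx' : x ∈ delT a' b' c') : DeldJoin Y {x} (a, b, c) (a', b', c') := by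
  obtain ⟨d, hd⟩ := del_apex_exists hLF hbd (del_tri_adj h).1.symm
  obtain ⟨h3, h4⟩ := deld_side_pos h.left hd.left h0 h1 h2
  have hS : (delT a b c ∩ {x}).Nonempty := ⟨x, ⟨h0.ge, h1.le, h2.le⟩, rfl⟩
  have hSd : (delT b a d ∩ {x}).Nonempty := ⟨x, ⟨by rw [del_det_swap, h0, neg_zero], h3.le, h4.le⟩, rfl⟩
  rcases deld_side hY h hd h0 h1 h2 h' hx' with hr | hr
  · exact deld_of_rot h hS hr
  · exact (deld_flip c hd hSd ⟨x, openSegment_subset_segment ℝ a b ((deld_openSegment h.left).2 ⟨h0, h1, h2⟩), rfl⟩).trans (deld_of_rot hd hSd hr)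

/-- **(U2)** two Delaunay triangles with a common point `x` are joined by a chain of edge-adjacent Delaunay triangles containing `x` -/
theorem deld_at (hLF : VorLF Y) (hY : VorGP Y) (hbd : ∀ a b c, DelTri Y a b c → x ∈ delT a b c → Bornology.IsBounded (vorCell Y a))
    (h : DelTri Y a b c) (h' : DelTri Y a' b' c') (hx : x ∈ delT a b c) (hx' : x ∈ delT a' b' c') : DeldJoin Y {x} (a, b, c) (a', b', c') := by
  have hS : (delT a b c ∩ {x}).Nonempty := ⟨x, hx, rfl⟩
  have hb1 := del_tri_cyc h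
  have hc1 := del_tri_cyc hb1
  have hxb : x ∈ delT b c a := by rw [dela_cyc]; exact hx
  have hxc : x ∈ delT c a b := by rw [dela_cyc]; exact hxb
  obtain ⟨g1, g2, g3⟩ := hx
  rcases g1.eq_or_lt with e1 | p1 <;> rcases g2.eq_or_lt with e2 | p2 <;> rcases g3.eq_or_lt with e3 | p3
  · exfalso
    have := dela_det_sum a b c x
    have := h.left
    linarith
  · -- `x = b`
    have : x = b := deld_eq_vertex hb1.left e2.symm e1.symm
    subst this
    exact (deld_rot h hS).trans (deld_at_vertex hLF hY (hbd _ _ _ hb1 hxb) hb1 h' hx')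
  · -- `x = a`
    have : x = a := deld_eq_vertex h.left e1.symm e3.symm
    subst this
    exact deld_at_vertex hLF hY (hbd _ _ _ h ⟨g1, g2, g3⟩) h h' hx'
  · exact deld_at_side hLF hY (hbd _ _ _ hb1 hxb) h h' e1.symm p2 p3 hx'
  · -- `x = c`
    have : x = c := deld_eq_vertex hc1.left e3.symm e2.symm
    subst this
    exact (deld_rot2 h hS).trans (deld_at_vertex hLF hY (hbd _ _ _ hc1 hxc) hc1 h' hx')
  · exact (deld_rot h hS).trans (deld_at_side hLF hY (hbd _ _ _ hc1 hxc) hb1 h' e2.symm p3 p1 hx')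
  · exact (deld_rot2 h hS).trans (deld_at_side hLF hY (hbd _ _ _ h ⟨g1, g2, g3⟩) hc1 h' e3.symm p1 p2 hx')
  · exact deld_of_rot h hS (del_T2 hY h h' ⟨p1, p2, p3⟩ hx')

/-! ## 5. (U3) the triangles meeting a preconnected set -/

/-- **(U3)**, abstract form: `S` preconnected, covered by the Delaunay triangles, finitely many of them meet `S`, their vertices have bounded cells -/
theorem deld_conn (hLF : VorLF Y) (hY : VorGP Y) (hS : IsPreconnected S) (hcov : ∀ x ∈ S, ∃ a b c, DelTri Y a b c ∧ x ∈ delT a b c)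
    (hfin : {t : ℂ × ℂ × ℂ | DeldTri Y t ∧ (deldT t ∩ S).Nonempty}.Finite)
    (hbd : ∀ a b c, DelTri Y a b c → (delT a b c ∩ S).Nonempty → Bornology.IsBounded (vorCell Y a))
    {s t : ℂ × ℂ × ℂ} (hs : DeldTri Y s) (hsS : (deldT s ∩ S).Nonempty) (ht : DeldTri Y t) (htS : (deldT t ∩ S).Nonempty) : DeldJoin Y S s t := by
  by_contra hcon
  set F : Set (ℂ × ℂ × ℂ) := {t | DeldTri Y t ∧ (deldT t ∩ S).Nonempty} with hF
  set C : Set (ℂ × ℂ × ℂ) := {u | u ∈ F ∧ DeldJoin Y S s u} with hC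
  set C' : Set (ℂ × ℂ × ℂ) := {u | u ∈ F ∧ ¬ DeldJoin Y S s u} with hC'
  have hclosed : ∀ G : Set (ℂ × ℂ × ℂ), G ⊆ F → IsClosed (⋃ u ∈ G, deldT u) := fun G hG =>
    (hfin.subset hG).isClosed_biUnion fun u _ => dela_isClosed _ _ _
  have cA := hclosed C fun u hu => hu.1
  have cB := hclosed C' fun u hu => hu.1
  have hcover : S ⊆ (⋃ u ∈ C, deldT u) ∪ (⋃ u ∈ C', deldT u) := by
    intro x hx
    obtain ⟨a, b, c, habc, hxT⟩ := hcov x hx
    have hmem : ((a, b, c) : ℂ × ℂ × ℂ) ∈ F := ⟨habc, x, hxT, hx⟩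
    by_cases hj : DeldJoin Y S s (a, b, c)
    · exact Or.inl (mem_biUnion (show ((a, b, c) : ℂ × ℂ × ℂ) ∈ C from ⟨hmem, hj⟩) hxT)
    · exact Or.inr (mem_biUnion (show ((a, b, c) : ℂ × ℂ × ℂ) ∈ C' from ⟨hmem, hj⟩) hxT)
  have nA : (S ∩ ⋃ u ∈ C, deldT u).Nonempty := by
    obtain ⟨x, hxT, hxS⟩ := hsS
    exact ⟨x, hxS, mem_biUnion (show s ∈ C from ⟨⟨hs, x, hxT, hxS⟩, ReflTransGen.refl⟩) hxT⟩
  have nB : (S ∩ ⋃ u ∈ C', deldT u).Nonempty := by
    obtain ⟨x, hxT, hxS⟩ := htS
    exact ⟨x, hxS, mem_biUnion (show t ∈ C' from ⟨⟨ht, x, hxT, hxS⟩, hcon⟩) hxT⟩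
  obtain ⟨x, hxS, hxA, hxB⟩ := isPreconnected_closed_iff.1 hS _ _ cA cB hcover nA nB
  simp only [mem_iUnion] at hxA hxB
  obtain ⟨u, hu, hxu⟩ := hxA
  obtain ⟨u', hu', hxu'⟩ := hxB
  apply hu'.2
  refine hu.2.trans (DeldJoin.mono (singleton_subset_iff.2 hxS) ?_)
  exact deld_at hLF hY (fun a b c habc hxT => hbd a b c habc ⟨x, hxT, hxS⟩) hu.1.1 hu'.1.1 hxu hxu'

end chain

/-! ## 6. local finiteness of the Delaunay triangulation -/

section finite

variable {Y S : Set ℂ}

theorem deld_dir_core {p q r M : ℝ} (hM : 0 ≤ M) (hr : r ^ 2 = p ^ 2 + q ^ 2) (hr0 : 0 ≤ r) (h5 : 5 * M ≤ r) (hp : 0 ≤ p) (hq : q ^ 2 ≤ p ^ 2) :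
    (p - 4 * M) ^ 2 + q ^ 2 ≤ (r - M) ^ 2 := by
  have h1 : 5 * r ≤ 8 * p := by
    have : (5 * r) ^ 2 ≤ (8 * p) ^ 2 := by nlinarith
    exact (pow_le_pow_iff_left₀ (by positivity) (by positivity) two_ne_zero).1 this
  nlinarith [mul_nonneg hM (sub_nonneg.2 h1), mul_nonneg hM (sub_nonneg.2 h5)]

/-- the dominant direction of a far point -/
theorem deld_dir {O : ℂ} {M : ℝ} (hM : 0 ≤ M) (hO : 5 * M ≤ ‖O‖) :
    ∃ u : ℂ, (u = 1 ∨ u = -1 ∨ u = I ∨ u = -I) ∧ ‖O - ((4 * M : ℝ) : ℂ) * u‖ ≤ ‖O‖ - M := by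
  have hr := del_sq O
  have hr0 := norm_nonneg O
  have hrM : 0 ≤ ‖O‖ - M := by linarith
  have fin : ∀ u : ℂ, ‖O - ((4 * M : ℝ) : ℂ) * u‖ ^ 2 ≤ (‖O‖ - M) ^ 2 → ‖O - ((4 * M : ℝ) : ℂ) * u‖ ≤ ‖O‖ - M := fun u h =>
    (pow_le_pow_iff_left₀ (norm_nonneg _) hrM two_ne_zero).1 h
  rcases le_total (O.im ^ 2) (O.re ^ 2) with hq | hq
  · rcases le_total 0 O.re with hp | hp
    · refine ⟨1, Or.inl rfl, fin _ ?_⟩
      have := deld_dir_core hM hr hr0 hO hp hq
      rw [del_sq]
      simp only [sub_re, sub_im, mul_re, mul_im, ofReal_re, ofReal_im, one_re, one_im, mul_one, mul_zero, zero_mul, sub_zero, add_zero]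
      exact this
    · refine ⟨-1, Or.inr (Or.inl rfl), fin _ ?_⟩
      have := deld_dir_core (p := -O.re) (q := O.im) hM (by rw [hr]; ring) hr0 hO (by linarith) (by rw [neg_sq]; exact hq)
      rw [del_sq]
      simp only [sub_re, sub_im, mul_re, mul_im, ofReal_re, ofReal_im, neg_re, neg_im, one_re, one_im, mul_one, mul_zero, zero_mul, sub_zero, add_zero,
        neg_zero]
      nlinarith
  · rcases le_total 0 O.im with hp | hp
    · refine ⟨I, Or.inr (Or.inr (Or.inl rfl)), fin _ ?_⟩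
      have := deld_dir_core (p := O.im) (q := O.re) hM (by rw [hr]; ring) hr0 hO hp hq
      rw [del_sq]
      simp only [sub_re, sub_im, mul_re, mul_im, ofReal_re, ofReal_im, I_re, I_im, mul_one, mul_zero, zero_mul, sub_zero, add_zero]
      nlinarith
    · refine ⟨-I, Or.inr (Or.inr (Or.inr rfl)), fin _ ?_⟩
      have := deld_dir_core (p := -O.im) (q := O.re) hM (by rw [hr]; ring) hr0 hO (by linarith) (by rw [neg_sq]; exact hq)
      rw [del_sq]
      simp only [sub_re, sub_im, mul_re, mul_im, ofReal_re, ofReal_im, neg_re, neg_im, I_re, I_im, mul_one, mul_zero, zero_mul, sub_zero, add_zero,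
        neg_zero]
      nlinarith

/-- the cells of the points of a bounded set are uniformly bounded -/
theorem deld_cells_bdd (hbd : ∀ v : ℂ, Bornology.IsBounded (vorCell Y v)) (hS : Bornology.IsBounded S) :
    Bornology.IsBounded (⋃ x ∈ S, vorCell Y x) := by
  obtain ⟨M₀, hM₀⟩ := hS.subset_closedBall (0 : ℂ)
  set M : ℝ := max M₀ 0 with hMdef
  have hM : 0 ≤ M := le_max_right _ _
  have hSM : ∀ x ∈ S, ‖x‖ ≤ M := fun x hx => by
    have := hM₀ hx
    rw [mem_closedBall, dist_zero_right] at this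
    exact this.trans (le_max_left _ _)
  have hB : Bornology.IsBounded (closedBall (0 : ℂ) (5 * M) ∪ (vorCell Y (((4 * M : ℝ) : ℂ) * 1) ∪ (vorCell Y (((4 * M : ℝ) : ℂ) * (-1)) ∪
      (vorCell Y (((4 * M : ℝ) : ℂ) * I) ∪ vorCell Y (((4 * M : ℝ) : ℂ) * (-I)))))) :=
    isBounded_closedBall.union ((hbd _).union ((hbd _).union ((hbd _).union (hbd _))))
  refine hB.subset ?_
  intro O hO
  simp only [mem_iUnion] at hO
  obtain ⟨x, hx, hOx⟩ := hO
  rcases le_total ‖O‖ (5 * M) with h5 | h5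
  · exact Or.inl (by rw [mem_closedBall, dist_zero_right]; exact h5)
  · obtain ⟨u, hu, hle⟩ := deld_dir hM h5
    have hcell : O ∈ vorCell Y (((4 * M : ℝ) : ℂ) * u) := by
      intro y hy
      have h1 : ‖O‖ ≤ ‖O - x‖ + ‖x‖ := by
        calc ‖O‖ = ‖(O - x) + x‖ := by ring_nf
          _ ≤ _ := norm_add_le _ _
      linarith [hOx y hy, hSM x hx]
    rcases hu with rfl | rfl | rfl | rfl
    · exact Or.inr (Or.inl hcell)
    · exact Or.inr (Or.inr (Or.inl hcell))
    · exact Or.inr (Or.inr (Or.inr (Or.inl hcell)))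
    · exact Or.inr (Or.inr (Or.inr (Or.inr hcell)))

/-- the circumcentre of a Delaunay triangle lies in the cell of every point of the triangle -/
theorem deld_O_mem_cell {a b c x : ℂ} (h : DelTri Y a b c) (hx : x ∈ delT a b c) : delO a b c ∈ vorCell Y x := by
  intro y hy
  have h1 := del_T_subset_disc h.left hx
  rw [mem_closedBall, dist_comm, dist_eq_norm] at h1
  exact h1.trans (h.empty y hy)

/-- **local finiteness**: finitely many Delaunay triangles meet a bounded set (all cells bounded; no density) -/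
theorem deld_finite (hLF : VorLF Y) (hne : Y.Nonempty) (hbd : ∀ v : ℂ, Bornology.IsBounded (vorCell Y v)) (hS : Bornology.IsBounded S) :
    {t : ℂ × ℂ × ℂ | DeldTri Y t ∧ (deldT t ∩ S).Nonempty}.Finite := by
  obtain ⟨R, hR⟩ := (deld_cells_bdd hbd hS).subset_closedBall (0 : ℂ)
  obtain ⟨y₀, hy₀⟩ := hne
  set F : Set ℂ := Y ∩ closedBall (0 : ℂ) (2 * R + ‖y₀‖) with hF
  have hFfin : F.Finite := hLF _
  refine (hFfin.prod (hFfin.prod hFfin)).subset ?_
  rintro ⟨a, b, c⟩ ⟨h, x, hxT, hxS⟩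
  have h : DelTri Y a b c := h
  have hO : ‖delO a b c‖ ≤ R := by
    have := hR (mem_biUnion hxS (deld_O_mem_cell h hxT))
    rwa [mem_closedBall, dist_zero_right] at this
  have hr : ‖delO a b c - a‖ ≤ R + ‖y₀‖ := (h.empty y₀ hy₀).trans ((norm_sub_le _ _).trans (by linarith))
  have key : ∀ v : ℂ, ‖delO a b c - v‖ = ‖delO a b c - a‖ → v ∈ closedBall (0 : ℂ) (2 * R + ‖y₀‖) := by
    intro v hv
    rw [mem_closedBall, dist_zero_right]
    calc ‖v‖ = ‖delO a b c - (delO a b c - v)‖ := by ring_nf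
      _ ≤ ‖delO a b c‖ + ‖delO a b c - v‖ := norm_sub_le _ _
      _ ≤ 2 * R + ‖y₀‖ := by rw [hv]; linarith
  exact ⟨⟨h.1, key a rfl⟩, ⟨h.2.1, key b (del_O_ab a b c).symm⟩, ⟨h.2.2.1, key c (del_O_ac h.left.ne').symm⟩⟩

/-- **(U3)**, global form -/
theorem deld_conn_good (h : DelGood Y) (hS : IsPreconnected S) (hSb : Bornology.IsBounded S) {s t : ℂ × ℂ × ℂ} (hs : DeldTri Y s)
    (hsS : (deldT s ∩ S).Nonempty) (ht : DeldTri Y t) (htS : (deldT t ∩ S).Nonempty) : DeldJoin Y S s t :=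
  deld_conn h.lf h.gp hS (fun x _ => del_cover_bdd h.lf h.gp h.ne (h.bdd x) fun a _ _ => h.bdd a) (deld_finite h.lf h.ne h.bdd hSb)
    (fun a _ _ _ _ => h.bdd a) hs hsS ht htS

/-- **(U3)**, local form: the sites are `ρ`-dense in the `4ρ`-collar of `S` -/
theorem deld_conn_dense (hLF : VorLF Y) (hY : VorGP Y) (hS : IsPreconnected S) (hSb : Bornology.IsBounded S) {ρ : ℝ} (hρ : 0 < ρ)
    (hd : VorDense Y (vorNbd S (4 * ρ)) ρ) {s t : ℂ × ℂ × ℂ} (hs : DeldTri Y s) (hsS : (deldT s ∩ S).Nonempty) (ht : DeldTri Y t)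
    (htS : (deldT t ∩ S).Nonempty) : DeldJoin Y S s t := by
  refine deld_conn hLF hY hS (fun x hx => del_cover_win hLF hY hρ hd hx) (del_tri_finite hLF hSb hρ.le (by linarith) hd) ?_ hs hsS ht htS
  rintro a b c habc ⟨p, hpT, hpS⟩
  have hd' : VorDense Y (closedBall p (4 * ρ)) ρ := hd.mono subset_rfl (fun q hq => ⟨p, hpS, by
    rwa [mem_closedBall, dist_eq_norm] at hq⟩) le_rfl
  obtain ⟨h1, _, _⟩ := del_tri_near hρ.le (by linarith) hd' habc hpT
  have hd'' : VorDense Y (closedBall a (2 * ρ)) ρ := by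
    refine hd'.mono subset_rfl ?_ le_rfl
    intro q hq
    rw [mem_closedBall, dist_eq_norm] at hq ⊢
    calc ‖q - p‖ = ‖(q - a) + (a - p)‖ := by ring_nf
      _ ≤ ‖q - a‖ + ‖a - p‖ := norm_add_le _ _
      _ ≤ 4 * ρ := by linarith
  exact isBounded_closedBall.subset (vor_cell_subset_ball hρ.le (by linarith) hd'')

end finite

/-! ## 7. primal paths -/

section primal

variable {Y S : Set ℂ}

/-- the vertices of the Delaunay triangles meeting `S` -/
def deldV (Y S : Set ℂ) : Set ℂ := {v | ∃ b c, DelTri Y v b c ∧ (delT v b c ∩ S).Nonempty}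

theorem deld_eqns_cite2 : True := by
  have := @deldV.eq_1
  trivial

theorem DeldStep.adj {s t : ℂ × ℂ × ℂ} (h : DeldStep Y S s t) : DelAdj Y s.1 t.1 ∧ t.1 ∈ deldV Y S := by
  refine ⟨?_, t.2.1, t.2.2, h.1, h.2.1⟩
  have hadj := del_tri_adj h.1
  rcases h.2.2 with e | ⟨e1, e2, _⟩
  · have h3 := hadj.2.2
    rw [e] at h3 ⊢
    exact h3
  · have h1 := hadj.1.symm
    rwa [e2] at h1

/-- a dual chain gives a primal path through the vertices of the triangles meeting `S` -/
theorem DeldJoin.primal {s t : ℂ × ℂ × ℂ} (h : DeldJoin Y S s t) : ReflTransGen (fun u v => DelAdj Y u v ∧ v ∈ deldV Y S) s.1 t.1 := by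
  induction h with
  | refl => exact ReflTransGen.refl
  | tail _ hstep ih => exact ih.tail hstep.adj

/-- **primal form of (U3)**: two vertices of Delaunay triangles meeting `S` are joined by a Delaunay path through such vertices -/
theorem deld_primal_good (h : DelGood Y) (hS : IsPreconnected S) (hSb : Bornology.IsBounded S) {u v : ℂ} (hu : u ∈ deldV Y S) (hv : v ∈ deldV Y S) :
    ReflTransGen (fun u v => DelAdj Y u v ∧ v ∈ deldV Y S) u v := by
  obtain ⟨b, c, h1, h2⟩ := hu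
  obtain ⟨b', c', h1', h2'⟩ := hv
  exact (deld_conn_good h hS hSb (s := (u, b, c)) (t := (v, b', c')) h1 h2 h1' h2').primal

theorem deld_primal_dense (hLF : VorLF Y) (hY : VorGP Y) (hS : IsPreconnected S) (hSb : Bornology.IsBounded S) {ρ : ℝ} (hρ : 0 < ρ)
    (hd : VorDense Y (vorNbd S (4 * ρ)) ρ) {u v : ℂ} (hu : u ∈ deldV Y S) (hv : v ∈ deldV Y S) :
    ReflTransGen (fun u v => DelAdj Y u v ∧ v ∈ deldV Y S) u v := by
  obtain ⟨b, c, h1, h2⟩ := hu
  obtain ⟨b', c', h1', h2'⟩ := hv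
  exact (deld_conn_dense hLF hY hS hSb hρ hd (s := (u, b, c)) (t := (v, b', c')) h1 h2 h1' h2').primal

/-- under density the vertices of the triangles meeting `S` lie in the `2ρ`-collar of `S` -/
theorem deld_V_subset {ρ R : ℝ} (hρ : 0 ≤ ρ) (hρR : ρ < R) (hd : VorDense Y (vorNbd S R) ρ) : deldV Y S ⊆ Y ∩ vorNbd S (2 * ρ) := by
  rintro v ⟨b, c, h, p, hpT, hpS⟩
  have hd' : VorDense Y (closedBall p R) ρ := hd.mono subset_rfl (fun q hq => ⟨p, hpS, by
    rwa [mem_closedBall, dist_eq_norm] at hq⟩) le_rfl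
  exact ⟨h.1, p, hpS, (del_tri_near hρ hρR hd' h hpT).1⟩

/-- under density a triangle meeting `S` lies in the `2ρ`-collar of `S` -/
theorem deld_T_subset {ρ R : ℝ} (hρ : 0 ≤ ρ) (hρR : ρ < R) (hd : VorDense Y (vorNbd S R) ρ) {a b c : ℂ} (h : DelTri Y a b c)
    (hS : (delT a b c ∩ S).Nonempty) : delT a b c ⊆ vorNbd S (2 * ρ) := by
  obtain ⟨p, hpT, hpS⟩ := hS
  have hd' : VorDense Y (closedBall p R) ρ := hd.mono subset_rfl (fun q hq => ⟨p, hpS, by
    rwa [mem_closedBall, dist_eq_norm] at hq⟩) le_rfl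
  have hr := del_tri_radius_le hρ hρR hd' h hpT
  intro q hq
  refine ⟨p, hpS, ?_⟩
  have h1 := del_T_subset_disc h.left hq
  have h2 := del_T_subset_disc h.left hpT
  rw [mem_closedBall, dist_comm, dist_eq_norm] at h1 h2
  calc ‖q - p‖ = ‖(delO a b c - p) - (delO a b c - q)‖ := by ring_nf
    _ ≤ ‖delO a b c - p‖ + ‖delO a b c - q‖ := norm_sub_le _ _
    _ ≤ 2 * ρ := by linarith

end primal

/-! ## 8. dart form on the Delaunay triangulation of the plane -/

section dart

variable {Y S : Set ℂ}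

/-- the face on the left of a dart of `delPl`, as a triple -/
noncomputable def deldF (h : DelGood Y) (e : (delPl h).Dart) : ℂ × ℂ × ℂ :=
  ((((delPl h).toMap.src e : ↥Y) : ℂ), (((delPl h).toMap.tgt e : ↥Y) : ℂ), (((delPl h).toMap.apex e : ↥Y) : ℂ))

theorem deld_eqns_cite3 : True := by
  have := @deldF.eq_1
  trivial

theorem deld_F_eq (h : DelGood Y) (e : (delPl h).Dart) : deldF h e = ((e.1.1 : ℂ), (e.1.2 : ℂ), delApex Y e.1.1 e.1.2) := rfl

theorem deld_F_tri (h : DelGood Y) (e : (delPl h).Dart) : DeldTri Y (deldF h e) := delp_apex_spec h e.2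

theorem deld_F_nxt (h : DelGood Y) (e : (delPl h).Dart) : deldF h ((delPl h).toMap.nxt e) = ((deldF h e).2.1, (deldF h e).2.2, (deldF h e).1) := by
  have h3 : ((delPl h).toMap.apex ((delPl h).toMap.nxt e)) = (delPl h).toMap.src e := (delPl h).toMap.apex_nxt e
  unfold deldF
  rw [h3]
  rfl

theorem deld_F_opp (h : DelGood Y) (e : (delPl h).Dart) : (deldF h ((delPl h).toMap.opp e)).1 = (deldF h e).2.1 ∧ (deldF h ((delPl h).toMap.opp e)).2.1 = (deldF h e).1 :=
  ⟨rfl, rfl⟩

theorem deld_F_inj (h : DelGood Y) {e e' : (delPl h).Dart} (he : deldF h e = deldF h e') : e = e' := by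
  rw [deld_F_eq, deld_F_eq] at he
  have h1 : (e.1.1 : ℂ) = e'.1.1 := congrArg Prod.fst he
  have h2 : (e.1.2 : ℂ) = e'.1.2 := congrArg (fun t : ℂ × ℂ × ℂ => t.2.1) he
  exact Subtype.ext (Prod.ext (Subtype.ext h1) (Subtype.ext h2))

/-- every Delaunay triangle is the face of a dart -/
theorem deld_F_surj (h : DelGood Y) {t : ℂ × ℂ × ℂ} (ht : DeldTri Y t) : ∃ e : (delPl h).Dart, deldF h e = t := by
  obtain ⟨a, b, c⟩ := t
  have ht : DelTri Y a b c := ht
  have ha : a ∈ Y := ht.1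
  have hb : b ∈ Y := ht.2.1
  refine ⟨⟨(⟨a, ha⟩, ⟨b, hb⟩), (del_tri_adj ht).1⟩, ?_⟩
  have e := deld_F_eq h ⟨(⟨a, ha⟩, ⟨b, hb⟩), (del_tri_adj ht).1⟩
  rw [e]
  simp only [del_apex_eq h.gp ht]

/-- one step of the dart form: `nxt`, or `opp` across a side which meets `S`; the new face meets `S` -/
def DeldDStep (h : DelGood Y) (S : Set ℂ) (e e' : (delPl h).Dart) : Prop :=
  (deldT (deldF h e') ∩ S).Nonempty ∧
    (e' = (delPl h).toMap.nxt e ∨ (e' = (delPl h).toMap.opp e ∧ (segment ℝ (e.1.1 : ℂ) (e.1.2 : ℂ) ∩ S).Nonempty))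

theorem deld_eqns_cite4 : True := by
  have := @DeldDStep.eq_1
  trivial

/-- a chain of triples is a chain of darts -/
theorem DeldJoin.dart (h : DelGood Y) {e : (delPl h).Dart} {t : ℂ × ℂ × ℂ} (hj : DeldJoin Y S (deldF h e) t) :
    ∃ e' : (delPl h).Dart, deldF h e' = t ∧ ReflTransGen (DeldDStep h S) e e' := by
  induction hj with
  | refl => exact ⟨e, rfl, ReflTransGen.refl⟩
  | @tail u w _ hstep ih =>
    obtain ⟨e₁, he₁, hch⟩ := ih
    obtain ⟨hw, hwS, hcase⟩ := hstep
    rcases hcase with hrot | ⟨f1, f2, hseg⟩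
    · have e2 : deldF h ((delPl h).toMap.nxt e₁) = w := by rw [deld_F_nxt, he₁, hrot]
      exact ⟨_, e2, hch.tail ⟨by rw [e2]; exact hwS, Or.inl rfl⟩⟩
    · have e2 : deldF h ((delPl h).toMap.opp e₁) = w := by
        obtain ⟨g1, g2⟩ := deld_F_opp h e₁
        have hT := deld_F_tri h ((delPl h).toMap.opp e₁)
        rw [he₁] at g1 g2
        have k1 : (deldF h ((delPl h).toMap.opp e₁)).1 = w.1 := g1.trans f1.symm
        have k2 : (deldF h ((delPl h).toMap.opp e₁)).2.1 = w.2.1 := g2.trans f2.symm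
        have hT' : DelTri Y w.1 w.2.1 (deldF h ((delPl h).toMap.opp e₁)).2.2 := by
          have := hT
          unfold DeldTri at this
          rwa [k1, k2] at this
        have k3 : (deldF h ((delPl h).toMap.opp e₁)).2.2 = w.2.2 := del_tri_unique h.gp hT' hw
        exact Prod.ext k1 (Prod.ext k2 k3)
      refine ⟨_, e2, hch.tail ⟨by rw [e2]; exact hwS, Or.inr ⟨rfl, ?_⟩⟩⟩
      have : u = deldF h e₁ := he₁.symm
      rw [this] at hseg
      exact hseg

/-- **(U3), dart form**: the faces of `delPl` meeting a bounded preconnected set are dual connected through such faces, crossing only sides which meet the set -/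
theorem deld_dart_conn (h : DelGood Y) (hS : IsPreconnected S) (hSb : Bornology.IsBounded S) {e e' : (delPl h).Dart}
    (he : (deldT (deldF h e) ∩ S).Nonempty) (he' : (deldT (deldF h e') ∩ S).Nonempty) : ReflTransGen (DeldDStep h S) e e' := by
  obtain ⟨e₁, h1, h2⟩ := (deld_conn_good h hS hSb (deld_F_tri h e) he (deld_F_tri h e') he').dart h
  rwa [deld_F_inj h h1] at h2

/-- **the side lemma**: if the closed sides of the darts of `Z` miss the bounded preconnected set `S`, all the faces meeting `S` are on the same side of `Z` -/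
theorem deld_DJoin (h : DelGood Y) (hS : IsPreconnected S) (hSb : Bornology.IsBounded S) (Z : Set (delPl h).Dart)
    (hZ : ∀ z ∈ Z, Disjoint (segment ℝ (z.1.1 : ℂ) (z.1.2 : ℂ)) S) {e e' : (delPl h).Dart}
    (he : (deldT (deldF h e) ∩ S).Nonempty) (he' : (deldT (deldF h e') ∩ S).Nonempty) : (delPl h).toMap.DJoin Z e e' := by
  refine ReflTransGen.mono ?_ _ _ (deld_dart_conn h hS hSb he he')
  rintro d d' ⟨_, rfl | ⟨rfl, x, hx, hxS⟩⟩
  · exact Or.inl rfl
  · refine Or.inr ⟨rfl, ?_⟩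
    rintro (hd | hd)
    · exact Set.disjoint_left.1 (hZ _ hd) hx hxS
    · refine Set.disjoint_left.1 (hZ _ hd) ?_ hxS
      rw [segment_symm]
      exact hx

end dart

end Claimed.Agent.R289
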