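-- KEEP
import Claimed.Agent.R289.Del.Main
import Claimed.Agent.R289.Del.GenPos

/-!
# Row 289 (S0537), unit L0 DEL, file Meas : MEASURABILITY OF THE VORONOI / DELAUNAY RELATIONS IN INDEX FORM      (helper120, post of helper253; prefix `delm_`, defs `DelmT delmY DelmAct delmOf delmGeo DelmQuad DelmSq DelmFst delmE2 delmE3 DelmG`)

GEOMETRY ONLY: everything is stated on the space `DelmT = (ℤ × ℤ → ℕ) × (DelgpIx → ℂ)` of (counts, sites); `delmY x` = the set of ACTIVE sites.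
Pull back along a measurable map: `delmOf : PVSample → DelmT` (`delm_sites : cfSites (pvConf ω) = delmY (delmOf ω)`) or `delmGeo : (ℤ × ℤ → ℕ) × (DelgpIx → ℝ × ℝ) → DelmT` (no colours: `delm_of_eq`; the source is `PvfBase` of S1/Meas).
METHOD: `DelmT` is a countable product of Polish spaces, its product sigma-algebra is the Borel one; activity is CLOPEN; `{(z, x) | z ∈ vorCell (delmY x) (x.2 i)}` is CLOSED;
`∃ z ∈ K` with `K` compact preserves closed sets (`delm_closed_proj`), `K` closed = countable union of compacts (`delm_meas_ex`).      NO good event is needed for `DelAdj`, `DelTri`, `DelTriIn`, `VorAdjIn`, `vorMeet`, `VorGP`, `VorQuad`, `VorLF`.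
EXITS
* sec. 2 index form: `delm_meas_act _mem _cell _meet _cell2 _cell3 _adjIn (K closed) _adj _tri _triIn (K measurable) _det_pos`, `delm_measurable_O` (circumcentre).
* sec. 3 logic kit `delm_meas_imp _all _exi _and _not _forall_site _exists_site`; `delm_meas_gp`, `delm_meas_quad` (`DelmQuad` = text of `VorQuad`), `delm_meas_nonempty`.
* sec. 4 `DelmSq` (points in their unit cells; `DelgpOk.delmSq`, `delm_sq_geo`) ⟹ `DelmSq.lf`, `.finite_ix`, `.cell_eq`; `delm_closed_nbd`, `delm_dense_iff`, `delm_meas_dense` (K arbitrary).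
* sec. 5 SUMS over sites / pairs / triples of sites = sums over indices, for EVERY `x` (first representatives `DelmFst`): `delm_tsum1 2 3`; `delm_measurable_tsum`, `delm_measurable_sum_site _adj _tri` (values in `ℝ≥0∞`, `ℝ`, `ℂ`, ...).
* sec. 6 `delm_meas_lf`, `delm_meas_dense_lf`, good event `DelmG` (`delm_meas_G`).
* sec. 7 pull-backs: `delm_pull`, `delm_pull_geo`, `delm_pv_*` (on `PVSample`, sites `delgpW ω i`), `delm_cf`, `delm_cf_gp _quad _dense` (on `Conf PvPt`, ∩ `PvLF`), `delm_cf_fun`, `delm_cf_sum_tri _adj _site` (`AEMeasurable` for `pvP ε`).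
-/

set_option autoImplicit false

namespace Claimed.Agent.R289

open MeasureTheory Set Filter Topology Metric Claims.C0465

/-! ## 0. the space of geometries -/

/-- (counts, sites) -/
abbrev DelmT := (ℤ × ℤ → ℕ) × (DelgpIx → ℂ)

/-- the index `i` is active -/
def DelmAct (x : DelmT) (i : DelgpIx) : Prop := i.2 < x.1 i.1

/-- the set of active sites -/
def delmY (x : DelmT) : Set ℂ := {v | ∃ i : DelgpIx, DelmAct x i ∧ v = x.2 i}

/-- the geometry of a sample -/
def delmOf (ω : PVSample) : DelmT := (ω.1, delgpW ω)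

/-- the geometry from counts and positions in the unit cells (no colours) -/
def delmGeo (g : (ℤ × ℤ → ℕ) × (DelgpIx → ℝ × ℝ)) : DelmT := (g.1, fun i => ⟨(i.1.1 : ℝ) + (g.2 i).1, (i.1.2 : ℝ) + (g.2 i).2⟩)

theorem delm_eqns_cite : True := by
  have := @DelmAct.eq_1
  have := @delmY.eq_1
  have := @delmOf.eq_1
  have := @delmGeo.eq_1
  trivial

theorem delm_of_eq (ω : PVSample) : delmOf ω = delmGeo (ω.1, fun i => (ω.2 i).1) := rfl

theorem delm_measurable_of : Measurable delmOf :=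
  measurable_fst.prodMk (measurable_pi_lambda _ fun i => delgp_measurable_W i)

theorem delm_measurable_geo : Measurable delmGeo := by
  refine measurable_fst.prodMk (measurable_pi_lambda _ fun i => ?_)
  have e : (fun g : (ℤ × ℤ → ℕ) × (DelgpIx → ℝ × ℝ) => (⟨(i.1.1 : ℝ) + (g.2 i).1, (i.1.2 : ℝ) + (g.2 i).2⟩ : ℂ))
      = fun g => Complex.equivRealProdCLM.symm ((i.1.1 : ℝ) + (g.2 i).1, (i.1.2 : ℝ) + (g.2 i).2) := by
    funext g; apply Complex.ext <;> simp
  show Measurable fun g : (ℤ × ℤ → ℕ) × (DelgpIx → ℝ × ℝ) => (⟨(i.1.1 : ℝ) + (g.2 i).1, (i.1.2 : ℝ) + (g.2 i).2⟩ : ℂ)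
  rw [e]
  exact Complex.equivRealProdCLM.symm.continuous.measurable.comp (by fun_prop)

theorem delm_sites (ω : PVSample) : cfSites (pvConf ω) = delmY (delmOf ω) := by
  ext v
  constructor
  · rintro ⟨p, hp, rfl⟩
    obtain ⟨i, hi, rfl⟩ := delgp_mem_conf.1 hp
    exact ⟨i, hi, rfl⟩
  · rintro ⟨i, hi, rfl⟩
    exact ⟨_, delgp_mem_conf.2 ⟨i, hi, rfl⟩, rfl⟩

theorem delm_mem {x : DelmT} {i : DelgpIx} (h : DelmAct x i) : x.2 i ∈ delmY x := ⟨i, h, rfl⟩

theorem delm_forall {x : DelmT} {p : ℂ → Prop} : (∀ w ∈ delmY x, p w) ↔ ∀ l : DelgpIx, DelmAct x l → p (x.2 l) := by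
  constructor
  · intro h l hl; exact h _ (delm_mem hl)
  · rintro h _ ⟨l, hl, rfl⟩; exact h l hl

theorem delm_exists {x : DelmT} {p : ℂ → Prop} : (∃ w ∈ delmY x, p w) ↔ ∃ l : DelgpIx, DelmAct x l ∧ p (x.2 l) := by
  constructor
  · rintro ⟨_, ⟨l, hl, rfl⟩, h⟩; exact ⟨l, hl, h⟩
  · rintro ⟨l, hl, h⟩; exact ⟨_, delm_mem hl, h⟩

/-! ## 1. topology -/

theorem delm_continuous_site (i : DelgpIx) : Continuous fun x : DelmT => x.2 i := (continuous_apply i).comp continuous_snd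

theorem delm_measurable_site (i : DelgpIx) : Measurable fun x : DelmT => x.2 i := (measurable_pi_apply i).comp measurable_snd

theorem delm_clopen_act (i : DelgpIx) : IsClopen {x : DelmT | DelmAct x i} := by
  have hc : Continuous fun x : DelmT => x.1 i.1 := (continuous_apply i.1).comp continuous_fst
  exact (isClopen_discrete {n : ℕ | i.2 < n}).preimage hc

theorem delm_meas_act (i : DelgpIx) : MeasurableSet {x : DelmT | DelmAct x i} := (delm_clopen_act i).isClosed.measurableSet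

/-- projection of a closed set along a compact set -/
theorem delm_closed_proj {X : Type*} [TopologicalSpace X] {K : Set ℂ} (hK : IsCompact K) {C : Set (ℂ × X)} (hC : IsClosed C) :
    IsClosed {x : X | ∃ z ∈ K, (z, x) ∈ C} := by
  have : CompactSpace K := isCompact_iff_compactSpace.1 hK
  have h1 : IsClosed ((fun p : K × X => ((p.1 : ℂ), p.2)) ⁻¹' C) := hC.preimage (by fun_prop)
  have h2 := isClosedMap_snd_of_compactSpace (X := K) (Y := X) _ h1
  have e : {x : X | ∃ z ∈ K, (z, x) ∈ C} = Prod.snd '' ((fun p : K × X => ((p.1 : ℂ), p.2)) ⁻¹' C) := by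
    ext x
    constructor
    · rintro ⟨z, hz, h⟩; exact ⟨(⟨z, hz⟩, x), h, rfl⟩
    · rintro ⟨⟨⟨z, hz⟩, y⟩, h, rfl⟩; exact ⟨z, hz, h⟩
  rw [e]; exact h2

/-- `∃ z ∈ K`, `K` closed, of a closed relation is measurable (an `F_σ`) -/
theorem delm_meas_ex {K : Set ℂ} (hK : IsClosed K) {C : Set (ℂ × DelmT)} (hC : IsClosed C) : MeasurableSet {x : DelmT | ∃ z ∈ K, (z, x) ∈ C} := by
  have e : {x : DelmT | ∃ z ∈ K, (z, x) ∈ C} = ⋃ n : ℕ, {x : DelmT | ∃ z ∈ K ∩ closedBall (0 : ℂ) n, (z, x) ∈ C} := by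
    ext x
    simp only [mem_ofPred_eq, mem_iUnion]
    constructor
    · rintro ⟨z, hz, h⟩
      obtain ⟨n, hn⟩ := exists_nat_ge ‖z‖
      exact ⟨n, z, ⟨hz, by rw [mem_closedBall, dist_zero_right]; exact hn⟩, h⟩
    · rintro ⟨n, z, hz, h⟩; exact ⟨z, hz.1, h⟩
  rw [e]
  exact MeasurableSet.iUnion fun n => (delm_closed_proj ((isCompact_closedBall (0 : ℂ) n).inter_left hK) hC).measurableSet

/-- the cell relation is closed -/
theorem delm_closed_cell (i : DelgpIx) : IsClosed {p : ℂ × DelmT | p.1 ∈ vorCell (delmY p.2) (p.2.2 i)} := by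
  have e : {p : ℂ × DelmT | p.1 ∈ vorCell (delmY p.2) (p.2.2 i)}
      = ⋂ l : DelgpIx, ({p : ℂ × DelmT | DelmAct p.2 l}ᶜ ∪ {p : ℂ × DelmT | ‖p.1 - p.2.2 i‖ ≤ ‖p.1 - p.2.2 l‖}) := by
    ext p
    simp only [mem_ofPred_eq, vorCell, delm_forall, mem_iInter, mem_union, mem_compl_iff]
    exact forall_congr' fun l => imp_iff_not_or
  rw [e]
  refine isClosed_iInter fun l => IsClosed.union ?_ ?_
  · exact ((delm_clopen_act l).preimage continuous_snd).compl.isClosed
  · have c1 : Continuous fun p : ℂ × DelmT => p.2.2 i := (delm_continuous_site i).comp continuous_snd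
    have c2 : Continuous fun p : ℂ × DelmT => p.2.2 l := (delm_continuous_site l).comp continuous_snd
    exact isClosed_le (continuous_fst.sub c1).norm (continuous_fst.sub c2).norm

/-! ## 2. Voronoi and Delaunay relations between sites given by their indices -/

theorem delm_meas_eq (i j : DelgpIx) : MeasurableSet {x : DelmT | x.2 i = x.2 j} :=
  measurableSet_eq_fun (delm_measurable_site i) (delm_measurable_site j)

/-- the point of index `i` is a site (`i` itself need not be active) -/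
theorem delm_meas_mem (i : DelgpIx) : MeasurableSet {x : DelmT | x.2 i ∈ delmY x} := by
  have e : {x : DelmT | x.2 i ∈ delmY x} = ⋃ l : DelgpIx, ({x : DelmT | DelmAct x l} ∩ {x : DelmT | x.2 i = x.2 l}) := by
    ext x
    simp only [mem_ofPred_eq, delmY, mem_iUnion, mem_inter_iff]
  rw [e]
  exact MeasurableSet.iUnion fun l => (delm_meas_act l).inter (delm_meas_eq i l)

/-- the cell of the site `i` meets the closed set `K` -/
theorem delm_meas_cell {K : Set ℂ} (hK : IsClosed K) (i : DelgpIx) : MeasurableSet {x : DelmT | (vorCell (delmY x) (x.2 i) ∩ K).Nonempty} := by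
  have e : {x : DelmT | (vorCell (delmY x) (x.2 i) ∩ K).Nonempty} = {x : DelmT | ∃ z ∈ K, (z, x) ∈ {p : ℂ × DelmT | p.1 ∈ vorCell (delmY p.2) (p.2.2 i)}} := by
    ext x
    constructor
    · rintro ⟨z, h1, h2⟩; exact ⟨z, h2, h1⟩
    · rintro ⟨z, h2, h1⟩; exact ⟨z, h1, h2⟩
  rw [e]
  exact delm_meas_ex hK (delm_closed_cell i)

theorem delm_meas_meet {K : Set ℂ} (hK : IsClosed K) (i : DelgpIx) : MeasurableSet {x : DelmT | x.2 i ∈ vorMeet (delmY x) K} :=
  (delm_meas_mem i).inter (delm_meas_cell hK i)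

/-- the cells of `i` and `j` meet inside the closed set `K` -/
theorem delm_meas_cell2 {K : Set ℂ} (hK : IsClosed K) (i j : DelgpIx) :
    MeasurableSet {x : DelmT | (vorCell (delmY x) (x.2 i) ∩ vorCell (delmY x) (x.2 j) ∩ K).Nonempty} := by
  have e : {x : DelmT | (vorCell (delmY x) (x.2 i) ∩ vorCell (delmY x) (x.2 j) ∩ K).Nonempty}
      = {x : DelmT | ∃ z ∈ K, (z, x) ∈ {p : ℂ × DelmT | p.1 ∈ vorCell (delmY p.2) (p.2.2 i)} ∩ {p : ℂ × DelmT | p.1 ∈ vorCell (delmY p.2) (p.2.2 j)}} := by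
    ext x
    constructor
    · rintro ⟨z, ⟨h1, h2⟩, h3⟩; exact ⟨z, h3, h1, h2⟩
    · rintro ⟨z, h3, h1, h2⟩; exact ⟨z, ⟨h1, h2⟩, h3⟩
  rw [e]
  exact delm_meas_ex hK ((delm_closed_cell i).inter (delm_closed_cell j))

/-- the cells of `i`, `j`, `k` meet inside the closed set `K` -/
theorem delm_meas_cell3 {K : Set ℂ} (hK : IsClosed K) (i j k : DelgpIx) :
    MeasurableSet {x : DelmT | (vorCell (delmY x) (x.2 i) ∩ vorCell (delmY x) (x.2 j) ∩ vorCell (delmY x) (x.2 k) ∩ K).Nonempty} := by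
  have e : {x : DelmT | (vorCell (delmY x) (x.2 i) ∩ vorCell (delmY x) (x.2 j) ∩ vorCell (delmY x) (x.2 k) ∩ K).Nonempty}
      = {x : DelmT | ∃ z ∈ K, (z, x) ∈ {p : ℂ × DelmT | p.1 ∈ vorCell (delmY p.2) (p.2.2 i)} ∩ {p : ℂ × DelmT | p.1 ∈ vorCell (delmY p.2) (p.2.2 j)}
          ∩ {p : ℂ × DelmT | p.1 ∈ vorCell (delmY p.2) (p.2.2 k)}} := by
    ext x
    constructor
    · rintro ⟨z, ⟨⟨h1, h2⟩, h3⟩, h4⟩; exact ⟨z, h4, ⟨h1, h2⟩, h3⟩
    · rintro ⟨z, h4, ⟨h1, h2⟩, h3⟩; exact ⟨z, ⟨⟨h1, h2⟩, h3⟩, h4⟩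
  rw [e]
  exact delm_meas_ex hK (((delm_closed_cell i).inter (delm_closed_cell j)).inter (delm_closed_cell k))

/-- **`VorAdjIn`**, `K` closed -/
theorem delm_meas_adjIn {K : Set ℂ} (hK : IsClosed K) (i j : DelgpIx) : MeasurableSet {x : DelmT | VorAdjIn (delmY x) K (x.2 i) (x.2 j)} :=
  (delm_meas_mem i).inter ((delm_meas_mem j).inter ((delm_meas_eq i j).compl.inter (delm_meas_cell2 hK i j)))

/-- **`DelAdj`** (no good event needed) -/
theorem delm_meas_adj (i j : DelgpIx) : MeasurableSet {x : DelmT | DelAdj (delmY x) (x.2 i) (x.2 j)} := by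
  have e : {x : DelmT | DelAdj (delmY x) (x.2 i) (x.2 j)} = {x : DelmT | VorAdjIn (delmY x) univ (x.2 i) (x.2 j)} := by
    ext x; exact del_adj_iff_univ _ _ _
  rw [e]
  exact delm_meas_adjIn isClosed_univ i j

theorem delm_meas_det_pos (i j k : DelgpIx) : MeasurableSet {x : DelmT | 0 < vorDet (x.2 i) (x.2 j) (x.2 k)} :=
  measurableSet_lt measurable_const (delgp_meas_det (delm_measurable_site i) (delm_measurable_site j) (delm_measurable_site k))

/-- `DelTriIn`, `K` closed -/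
theorem delm_meas_triIn_closed {K : Set ℂ} (hK : IsClosed K) (i j k : DelgpIx) : MeasurableSet {x : DelmT | DelTriIn (delmY x) K (x.2 i) (x.2 j) (x.2 k)} :=
  (delm_meas_mem i).inter ((delm_meas_mem j).inter ((delm_meas_mem k).inter ((delm_meas_det_pos i j k).inter (delm_meas_cell3 hK i j k))))

/-- **`DelTri`** -/
theorem delm_meas_tri (i j k : DelgpIx) : MeasurableSet {x : DelmT | DelTri (delmY x) (x.2 i) (x.2 j) (x.2 k)} := by
  have e : {x : DelmT | DelTri (delmY x) (x.2 i) (x.2 j) (x.2 k)} = {x : DelmT | DelTriIn (delmY x) univ (x.2 i) (x.2 j) (x.2 k)} := by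
    ext x; exact del_tri_iff_univ _ _ _ _
  rw [e]
  exact delm_meas_triIn_closed isClosed_univ i j k

/-- the circumcentre `delO` is a measurable function -/
theorem delm_measurable_O {α : Type*} [MeasurableSpace α] {f g h : α → ℂ} (hf : Measurable f) (hg : Measurable g) (hh : Measurable h) :
    Measurable fun x => delO (f x) (g x) (h x) := by
  have hre := Complex.measurable_re
  have him := Complex.measurable_im
  have hP : Measurable fun x => delP (f x) (g x) (h x) := by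
    unfold delP
    fun_prop
  have hS : Measurable fun x => delS (f x) (g x) (h x) := by
    unfold delS
    exact hP.div ((delgp_meas_det hf hg hh).const_mul 2)
  unfold delO delBis
  exact ((hf.add hg).div_const 2).add ((Complex.measurable_ofReal.comp hS).mul ((hg.sub hf).const_mul Complex.I))

/-- **`DelTriIn`**, `K` measurable -/
theorem delm_meas_triIn {K : Set ℂ} (hK : MeasurableSet K) (i j k : DelgpIx) : MeasurableSet {x : DelmT | DelTriIn (delmY x) K (x.2 i) (x.2 j) (x.2 k)} := by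
  have e : {x : DelmT | DelTriIn (delmY x) K (x.2 i) (x.2 j) (x.2 k)}
      = {x : DelmT | DelTri (delmY x) (x.2 i) (x.2 j) (x.2 k)} ∩ (fun x : DelmT => delO (x.2 i) (x.2 j) (x.2 k)) ⁻¹' K := by
    ext x; exact del_triIn_iff
  rw [e]
  exact (delm_meas_tri i j k).inter (delm_measurable_O (delm_measurable_site i) (delm_measurable_site j) (delm_measurable_site k) hK)

/-! ## 3. logic kit; general position; quadrants -/

theorem delm_meas_imp {α : Type*} [MeasurableSpace α] {p q : α → Prop} (hp : MeasurableSet {x | p x}) (hq : MeasurableSet {x | q x}) : MeasurableSet {x | p x → q x} := by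
  have e : {x | p x → q x} = {x | p x}ᶜ ∪ {x | q x} := by
    ext x; simp only [mem_ofPred_eq, mem_union, mem_compl_iff]; exact imp_iff_not_or
  rw [e]; exact hp.compl.union hq

theorem delm_meas_all {α ι : Type*} [MeasurableSpace α] [Countable ι] {p : ι → α → Prop} (h : ∀ i, MeasurableSet {x | p i x}) : MeasurableSet {x | ∀ i, p i x} := by
  have e : {x | ∀ i, p i x} = ⋂ i, {x | p i x} := by
    ext x; simp only [mem_ofPred_eq, mem_iInter]
  rw [e]; exact MeasurableSet.iInter h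

theorem delm_meas_exi {α ι : Type*} [MeasurableSpace α] [Countable ι] {p : ι → α → Prop} (h : ∀ i, MeasurableSet {x | p i x}) : MeasurableSet {x | ∃ i, p i x} := by
  have e : {x | ∃ i, p i x} = ⋃ i, {x | p i x} := by
    ext x; simp only [mem_ofPred_eq, mem_iUnion]
  rw [e]; exact MeasurableSet.iUnion h

theorem delm_meas_and {α : Type*} [MeasurableSpace α] {p q : α → Prop} (hp : MeasurableSet {x | p x}) (hq : MeasurableSet {x | q x}) : MeasurableSet {x | p x ∧ q x} := hp.inter hq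

theorem delm_meas_not {α : Type*} [MeasurableSpace α] {p : α → Prop} (hp : MeasurableSet {x | p x}) : MeasurableSet {x | ¬ p x} := hp.compl

/-- **a property of the SITES is measurable as soon as it is measurable in index form**: `∀` -/
theorem delm_meas_forall_site {p : DelmT → ℂ → Prop} (h : ∀ l : DelgpIx, MeasurableSet {x : DelmT | p x (x.2 l)}) : MeasurableSet {x : DelmT | ∀ w ∈ delmY x, p x w} := by
  have e : {x : DelmT | ∀ w ∈ delmY x, p x w} = {x : DelmT | ∀ l : DelgpIx, DelmAct x l → p x (x.2 l)} := by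
    ext x; exact delm_forall
  rw [e]; exact delm_meas_all fun l => delm_meas_imp (delm_meas_act l) (h l)

/-- the same for `∃` -/
theorem delm_meas_exists_site {p : DelmT → ℂ → Prop} (h : ∀ l : DelgpIx, MeasurableSet {x : DelmT | p x (x.2 l)}) : MeasurableSet {x : DelmT | ∃ w ∈ delmY x, p x w} := by
  have e : {x : DelmT | ∃ w ∈ delmY x, p x w} = {x : DelmT | ∃ l : DelgpIx, DelmAct x l ∧ p x (x.2 l)} := by
    ext x; exact delm_exists
  rw [e]; exact delm_meas_exi fun l => delm_meas_and (delm_meas_act l) (h l)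

theorem delm_meas_det_ne (i j k : DelgpIx) : MeasurableSet {x : DelmT | vorDet (x.2 i) (x.2 j) (x.2 k) ≠ 0} :=
  (measurableSet_eq_fun (delgp_meas_det (delm_measurable_site i) (delm_measurable_site j) (delm_measurable_site k)) measurable_const).compl

/-- four points on one circle (or two of them equal ...) -/
theorem delm_meas_cocirc (i j k l : DelgpIx) :
    MeasurableSet {x : DelmT | ∃ z : ℂ, ‖z - x.2 i‖ = ‖z - x.2 j‖ ∧ ‖z - x.2 i‖ = ‖z - x.2 k‖ ∧ ‖z - x.2 i‖ = ‖z - x.2 l‖} := by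
  have c : ∀ m : DelgpIx, Continuous fun p : ℂ × DelmT => ‖p.1 - p.2.2 m‖ := fun m =>
    (continuous_fst.sub ((delm_continuous_site m).comp continuous_snd)).norm
  have hC : IsClosed {p : ℂ × DelmT | ‖p.1 - p.2.2 i‖ = ‖p.1 - p.2.2 j‖ ∧ ‖p.1 - p.2.2 i‖ = ‖p.1 - p.2.2 k‖ ∧ ‖p.1 - p.2.2 i‖ = ‖p.1 - p.2.2 l‖} :=
    (isClosed_eq (c i) (c j)).inter ((isClosed_eq (c i) (c k)).inter (isClosed_eq (c i) (c l)))
  have e : {x : DelmT | ∃ z : ℂ, ‖z - x.2 i‖ = ‖z - x.2 j‖ ∧ ‖z - x.2 i‖ = ‖z - x.2 k‖ ∧ ‖z - x.2 i‖ = ‖z - x.2 l‖}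
      = {x : DelmT | ∃ z ∈ (univ : Set ℂ), (z, x) ∈ {p : ℂ × DelmT | ‖p.1 - p.2.2 i‖ = ‖p.1 - p.2.2 j‖ ∧ ‖p.1 - p.2.2 i‖ = ‖p.1 - p.2.2 k‖ ∧ ‖p.1 - p.2.2 i‖ = ‖p.1 - p.2.2 l‖}} := by
    ext x
    constructor
    · rintro ⟨z, h⟩; exact ⟨z, mem_univ _, h⟩
    · rintro ⟨z, -, h⟩; exact ⟨z, h⟩
  rw [e]
  exact delm_meas_ex isClosed_univ hC

theorem delm_gp_iff (x : DelmT) : VorGP (delmY x) ↔
    (∀ i j k : DelgpIx, DelmAct x i → DelmAct x j → DelmAct x k → x.2 i ≠ x.2 j → x.2 i ≠ x.2 k → x.2 j ≠ x.2 k → vorDet (x.2 i) (x.2 j) (x.2 k) ≠ 0) ∧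
    (∀ i j k l : DelgpIx, DelmAct x i → DelmAct x j → DelmAct x k → DelmAct x l → x.2 i ≠ x.2 j → x.2 i ≠ x.2 k → x.2 i ≠ x.2 l → x.2 j ≠ x.2 k → x.2 j ≠ x.2 l → x.2 k ≠ x.2 l →
      ¬ ∃ z : ℂ, ‖z - x.2 i‖ = ‖z - x.2 j‖ ∧ ‖z - x.2 i‖ = ‖z - x.2 k‖ ∧ ‖z - x.2 i‖ = ‖z - x.2 l‖) := by
  constructor
  · intro h
    refine ⟨fun i j k hi hj hk => h.col _ (delm_mem hi) _ (delm_mem hj) _ (delm_mem hk), fun i j k l hi hj hk hl a b c d e f => ?_⟩
    rintro ⟨z, hz⟩
    exact h.cir _ (delm_mem hi) _ (delm_mem hj) _ (delm_mem hk) _ (delm_mem hl) a b c d e f z hz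
  · rintro ⟨h1, h2⟩
    constructor
    · rintro _ ⟨i, hi, rfl⟩ _ ⟨j, hj, rfl⟩ _ ⟨k, hk, rfl⟩
      exact h1 i j k hi hj hk
    · rintro _ ⟨i, hi, rfl⟩ _ ⟨j, hj, rfl⟩ _ ⟨k, hk, rfl⟩ _ ⟨l, hl, rfl⟩ a b c d e f z hz
      exact h2 i j k l hi hj hk hl a b c d e f ⟨z, hz⟩

/-- **`VorGP`** -/
theorem delm_meas_gp : MeasurableSet {x : DelmT | VorGP (delmY x)} := by
  simp only [delm_gp_iff]
  have hne : ∀ i j : DelgpIx, MeasurableSet {x : DelmT | x.2 i ≠ x.2 j} := fun i j => (delm_meas_eq i j).compl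
  refine delm_meas_and ?_ ?_
  · refine delm_meas_all fun i => delm_meas_all fun j => delm_meas_all fun k => ?_
    exact delm_meas_imp (delm_meas_act i) <| delm_meas_imp (delm_meas_act j) <| delm_meas_imp (delm_meas_act k) <|
      delm_meas_imp (hne i j) <| delm_meas_imp (hne i k) <| delm_meas_imp (hne j k) (delm_meas_det_ne i j k)
  · refine delm_meas_all fun i => delm_meas_all fun j => delm_meas_all fun k => delm_meas_all fun l => ?_
    exact delm_meas_imp (delm_meas_act i) <| delm_meas_imp (delm_meas_act j) <| delm_meas_imp (delm_meas_act k) <| delm_meas_imp (delm_meas_act l) <|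
      delm_meas_imp (hne i j) <| delm_meas_imp (hne i k) <| delm_meas_imp (hne i l) <| delm_meas_imp (hne j k) <| delm_meas_imp (hne j l) <| delm_meas_imp (hne k l) <|
      delm_meas_not (delm_meas_cocirc i j k l)

/-- every open quadrant contains a site (the TEXT of `VorQuad` of Del/Plane: `delm_quad_def : DelmQuad Y ↔ VorQuad Y` is `Iff.rfl` for whoever imports both) -/
def DelmQuad (Y : Set ℂ) : Prop := ∀ z : ℂ, (∃ s ∈ Y, z.re < s.re ∧ z.im < s.im) ∧ (∃ s ∈ Y, s.re < z.re ∧ z.im < s.im) ∧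
  (∃ s ∈ Y, s.re < z.re ∧ s.im < z.im) ∧ (∃ s ∈ Y, z.re < s.re ∧ s.im < z.im)

/-- quadrants with integer corners are enough -/
theorem delm_quad_iff (Y : Set ℂ) : DelmQuad Y ↔ ∀ n : ℕ, (∃ s ∈ Y, (n : ℝ) < s.re ∧ (n : ℝ) < s.im) ∧ (∃ s ∈ Y, s.re < -(n : ℝ) ∧ (n : ℝ) < s.im) ∧
    (∃ s ∈ Y, s.re < -(n : ℝ) ∧ s.im < -(n : ℝ)) ∧ (∃ s ∈ Y, (n : ℝ) < s.re ∧ s.im < -(n : ℝ)) := by
  constructor
  · intro h n
    exact ⟨(h ⟨n, n⟩).1, (h ⟨-n, n⟩).2.1, (h ⟨-n, -n⟩).2.2.1, (h ⟨n, -n⟩).2.2.2⟩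
  · intro h z
    obtain ⟨n, hn⟩ := exists_nat_ge ‖z‖
    have h1 := abs_le.1 ((Complex.abs_re_le_norm z).trans hn)
    have h2 := abs_le.1 ((Complex.abs_im_le_norm z).trans hn)
    obtain ⟨⟨a, ha, a1, a2⟩, ⟨b, hb, b1, b2⟩, ⟨c, hc, c1, c2⟩, ⟨d, hd, d1, d2⟩⟩ := h n
    exact ⟨⟨a, ha, by linarith, by linarith⟩, ⟨b, hb, by linarith, by linarith⟩, ⟨c, hc, by linarith, by linarith⟩, ⟨d, hd, by linarith, by linarith⟩⟩

theorem delm_measurable_re (i : DelgpIx) : Measurable fun x : DelmT => (x.2 i).re := Complex.measurable_re.comp (delm_measurable_site i)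

theorem delm_measurable_im (i : DelgpIx) : Measurable fun x : DelmT => (x.2 i).im := Complex.measurable_im.comp (delm_measurable_site i)

/-- **`VorQuad`** -/
theorem delm_meas_quad : MeasurableSet {x : DelmT | DelmQuad (delmY x)} := by
  simp only [delm_quad_iff]
  refine delm_meas_all fun n => delm_meas_and ?_ (delm_meas_and ?_ (delm_meas_and ?_ ?_))
  · exact delm_meas_exists_site (p := fun _ s => (n : ℝ) < s.re ∧ (n : ℝ) < s.im) fun l =>
      delm_meas_and (measurableSet_lt measurable_const (delm_measurable_re l)) (measurableSet_lt measurable_const (delm_measurable_im l))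
  · exact delm_meas_exists_site (p := fun _ s => s.re < -(n : ℝ) ∧ (n : ℝ) < s.im) fun l =>
      delm_meas_and (measurableSet_lt (delm_measurable_re l) measurable_const) (measurableSet_lt measurable_const (delm_measurable_im l))
  · exact delm_meas_exists_site (p := fun _ s => s.re < -(n : ℝ) ∧ s.im < -(n : ℝ)) fun l =>
      delm_meas_and (measurableSet_lt (delm_measurable_re l) measurable_const) (measurableSet_lt (delm_measurable_im l) measurable_const)
  · exact delm_meas_exists_site (p := fun _ s => (n : ℝ) < s.re ∧ s.im < -(n : ℝ)) fun l =>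
      delm_meas_and (measurableSet_lt measurable_const (delm_measurable_re l)) (measurableSet_lt (delm_measurable_im l) measurable_const)

theorem delm_meas_nonempty : MeasurableSet {x : DelmT | (delmY x).Nonempty} := by
  have e : {x : DelmT | (delmY x).Nonempty} = {x : DelmT | ∃ l : DelgpIx, DelmAct x l} := by
    ext x
    constructor
    · rintro ⟨_, l, hl, -⟩; exact ⟨l, hl⟩
    · rintro ⟨l, hl⟩; exact ⟨_, delm_mem hl⟩
  rw [e]; exact delm_meas_exi delm_meas_act

/-! ## 4. the sites in their unit cells: local finiteness, density -/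

/-- every point (active or not) lies in the unit cell of its index -/
def DelmSq (x : DelmT) : Prop := ∀ i : DelgpIx, ((x.2 i).re ∈ Ico (i.1.1 : ℝ) (i.1.1 + 1)) ∧ ((x.2 i).im ∈ Ico (i.1.2 : ℝ) (i.1.2 + 1))

theorem delm_meas_sq : MeasurableSet {x : DelmT | DelmSq x} :=
  delm_meas_all fun i => delm_meas_and (delm_measurable_re i measurableSet_Ico) (delm_measurable_im i measurableSet_Ico)

theorem delm_sq_of {ω : PVSample} (h : ∀ k j, (ω.2 (k, j)).1 ∈ Ico (0 : ℝ) 1 ×ˢ Ico (0 : ℝ) 1) : DelmSq (delmOf ω) := by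
  rintro ⟨k, j⟩
  obtain ⟨⟨a1, a2⟩, ⟨b1, b2⟩⟩ := h k j
  simp only [delmOf, delgpW, pvSite]
  exact ⟨⟨by linarith, by linarith⟩, ⟨by linarith, by linarith⟩⟩

theorem DelgpOk.delmSq {ω : PVSample} (h : DelgpOk ω) : DelmSq (delmOf ω) := delm_sq_of h.sq

theorem delm_sq_geo {g : (ℤ × ℤ → ℕ) × (DelgpIx → ℝ × ℝ)} (h : ∀ i, g.2 i ∈ Ico (0 : ℝ) 1 ×ˢ Ico (0 : ℝ) 1) : DelmSq (delmGeo g) := by
  intro i
  obtain ⟨⟨a1, a2⟩, ⟨b1, b2⟩⟩ := h i
  simp only [delmGeo]
  exact ⟨⟨by linarith, by linarith⟩, ⟨by linarith, by linarith⟩⟩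

/-- on `DelmSq` only finitely many ACTIVE indices have their site in a ball -/
theorem DelmSq.finite_ix {x : DelmT} (h : DelmSq x) (R : ℝ) : {i : DelgpIx | DelmAct x i ∧ ‖x.2 i‖ ≤ R}.Finite := by
  obtain ⟨N, hN⟩ := exists_nat_gt (R + 1)
  have hfin : (⋃ k ∈ (Icc (-(N : ℤ)) N ×ˢ Icc (-(N : ℤ)) N : Set (ℤ × ℤ)), (fun j : ℕ => ((k, j) : DelgpIx)) '' {j | j < x.1 k}).Finite :=
    Set.Finite.biUnion ((finite_Icc _ _).prod (finite_Icc _ _)) fun k _ => (Set.finite_lt_nat _).image _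
  refine hfin.subset ?_
  rintro ⟨k, j⟩ ⟨hj, hR⟩
  have h1 := abs_le.1 ((Complex.abs_re_le_norm _).trans hR)
  have h2 := abs_le.1 ((Complex.abs_im_le_norm _).trans hR)
  obtain ⟨⟨a1, a2⟩, ⟨b1, b2⟩⟩ := h (k, j)
  simp only at a1 a2 b1 b2
  refine mem_biUnion (x := k) ⟨⟨?_, ?_⟩, ⟨?_, ?_⟩⟩ ⟨j, hj, rfl⟩
  · have : (-(N : ℤ) : ℝ) ≤ (k.1 : ℝ) := by push_cast; linarith
    exact_mod_cast this
  · have : (k.1 : ℝ) ≤ ((N : ℤ) : ℝ) := by push_cast; linarith
    exact_mod_cast this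
  · have : (-(N : ℤ) : ℝ) ≤ (k.2 : ℝ) := by push_cast; linarith
    exact_mod_cast this
  · have : (k.2 : ℝ) ≤ ((N : ℤ) : ℝ) := by push_cast; linarith
    exact_mod_cast this

/-- **`VorLF`** holds on the measurable event `DelmSq` -/
theorem DelmSq.lf {x : DelmT} (h : DelmSq x) : VorLF (delmY x) := by
  intro R
  refine ((h.finite_ix R).image x.2).subset ?_
  rintro _ ⟨⟨i, hi, rfl⟩, hR⟩
  rw [mem_closedBall, dist_zero_right] at hR
  exact ⟨i, ⟨hi, hR⟩, rfl⟩

/-- on `DelmSq` points of different cells are different -/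
theorem DelmSq.cell_eq {x : DelmT} (h : DelmSq x) {i j : DelgpIx} (hij : x.2 i = x.2 j) : i.1 = j.1 := by
  obtain ⟨⟨a1, a2⟩, ⟨b1, b2⟩⟩ := h i
  obtain ⟨⟨c1, c2⟩, ⟨d1, d2⟩⟩ := h j
  rw [hij] at a1 a2 b1 b2
  refine Prod.ext ?_ ?_
  · have e1 : (i.1.1 : ℝ) < j.1.1 + 1 := by linarith
    have e2 : (j.1.1 : ℝ) < i.1.1 + 1 := by linarith
    have f1 : i.1.1 < j.1.1 + 1 := by exact_mod_cast e1
    have f2 : j.1.1 < i.1.1 + 1 := by exact_mod_cast e2
    omega
  · have e1 : (i.1.2 : ℝ) < j.1.2 + 1 := by linarith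
    have e2 : (j.1.2 : ℝ) < i.1.2 + 1 := by linarith
    have f1 : i.1.2 < j.1.2 + 1 := by exact_mod_cast e1
    have f2 : j.1.2 < i.1.2 + 1 := by exact_mod_cast e2
    omega

/-- the `ρ`-neighbourhood of a locally finite set is closed -/
theorem delm_closed_nbd {Y : Set ℂ} (h : VorLF Y) (ρ : ℝ) : IsClosed {z : ℂ | ∃ u ∈ Y, ‖z - u‖ ≤ ρ} := by
  have e : {z : ℂ | ∃ u ∈ Y, ‖z - u‖ ≤ ρ} = ⋃ u : Y, closedBall (u : ℂ) ρ := by
    ext z
    simp only [mem_ofPred_eq, mem_iUnion, mem_closedBall, dist_eq_norm, Subtype.exists, exists_prop]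
  rw [e]
  refine LocallyFinite.isClosed_iUnion ?_ fun u => isClosed_closedBall
  intro z
  refine ⟨ball z 1, ball_mem_nhds z one_pos, ?_⟩
  refine Set.Finite.of_finite_image (f := Subtype.val) ((h.finite_ball z (ρ + 1)).subset ?_) Subtype.val_injective.injOn
  rintro _ ⟨u, ⟨w, hw1, hw2⟩, rfl⟩
  refine ⟨u.2, ?_⟩
  rw [mem_closedBall] at hw1 ⊢
  rw [mem_ball] at hw2
  calc dist (u : ℂ) z ≤ dist (u : ℂ) w + dist w z := dist_triangle _ _ _
    _ ≤ ρ + 1 := by rw [dist_comm (u : ℂ) w]; linarith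

/-- density may be tested on a dense subset -/
theorem delm_dense_iff {Y : Set ℂ} (h : VorLF Y) {K K₀ : Set ℂ} (h0 : K₀ ⊆ K) (hd : K ⊆ closure K₀) (ρ : ℝ) : VorDense Y K ρ ↔ VorDense Y K₀ ρ := by
  constructor
  · intro H; exact H.mono subset_rfl h0 le_rfl
  · intro H z hz
    exact closure_minimal (s := K₀) (t := {z : ℂ | ∃ u ∈ Y, ‖z - u‖ ≤ ρ}) H (delm_closed_nbd h ρ) (hd hz)

theorem delm_meas_near (z : ℂ) (ρ : ℝ) : MeasurableSet {x : DelmT | ∃ u ∈ delmY x, ‖z - u‖ ≤ ρ} :=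
  delm_meas_exists_site (p := fun _ u => ‖z - u‖ ≤ ρ) fun l => measurableSet_le ((delm_measurable_site l).const_sub z).norm measurable_const

/-- **`VorDense`** on the good event, `K` ARBITRARY -/
theorem delm_meas_dense (K : Set ℂ) (ρ : ℝ) : MeasurableSet {x : DelmT | DelmSq x ∧ VorDense (delmY x) K ρ} := by
  obtain ⟨K₀, h0, hc, hd⟩ := (TopologicalSpace.IsSeparable.of_separableSpace K).exists_countable_dense_subset
  have e : {x : DelmT | DelmSq x ∧ VorDense (delmY x) K ρ} = {x : DelmT | DelmSq x ∧ ∀ z : K₀, ∃ u ∈ delmY x, ‖(z : ℂ) - u‖ ≤ ρ} := by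
    ext x
    refine and_congr_right fun hx => ?_
    rw [delm_dense_iff hx.lf h0 hd]
    exact ⟨fun H z => H z z.2, fun H z hz => H ⟨z, hz⟩⟩
  rw [e]
  have : Countable K₀ := hc.to_subtype
  exact delm_meas_and delm_meas_sq (delm_meas_all fun z => delm_meas_near z ρ)

/-! ## 5. first representatives: sums over sites, pairs and triples of sites, in index form, for EVERY `x` (no injectivity asked) -/

/-- `i` is active and is the first active index of its point -/
def DelmFst (x : DelmT) (i : DelgpIx) : Prop := DelmAct x i ∧ ∀ j : DelgpIx, DelmAct x j → x.2 j = x.2 i → Encodable.encode i ≤ Encodable.encode j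

theorem delm_meas_fst (i : DelgpIx) : MeasurableSet {x : DelmT | DelmFst x i} :=
  delm_meas_and (delm_meas_act i) (delm_meas_all fun j => delm_meas_imp (delm_meas_act j) (delm_meas_imp (delm_meas_eq j i) (MeasurableSet.const _)))

theorem delm_fst_inj {x : DelmT} {i j : DelgpIx} (hi : DelmFst x i) (hj : DelmFst x j) (h : x.2 i = x.2 j) : i = j :=
  Encodable.encode_injective (le_antisymm (hi.2 j hj.1 h.symm) (hj.2 i hi.1 h))

theorem delm_fst_surj {x : DelmT} {v : ℂ} (hv : v ∈ delmY x) : ∃ i, DelmFst x i ∧ x.2 i = v := by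
  classical
  obtain ⟨i0, h0, rfl⟩ := hv
  have hex : ∃ n : ℕ, ∃ j : DelgpIx, Encodable.encode j = n ∧ DelmAct x j ∧ x.2 j = x.2 i0 := ⟨_, i0, rfl, h0, rfl⟩
  obtain ⟨j, hj, hja, hje⟩ := Nat.find_spec hex
  refine ⟨j, ⟨hja, fun l hl hle => ?_⟩, hje⟩
  rw [hj]
  exact Nat.find_min' hex ⟨l, rfl, hl, hle.trans hje⟩

/-- if the active points are different then every active index is a first representative -/
theorem delm_fst_iff {x : DelmT} (h : ∀ i j : DelgpIx, DelmAct x i → DelmAct x j → x.2 i = x.2 j → i = j) (i : DelgpIx) : DelmFst x i ↔ DelmAct x i :=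
  ⟨fun hi => hi.1, fun hi => ⟨hi, fun j hj hji => by rw [h j i hj hi hji]⟩⟩

theorem delm_Y_eq_image (x : DelmT) : delmY x = x.2 '' {i | DelmFst x i} := by
  ext v
  constructor
  · intro hv
    obtain ⟨i, hi, rfl⟩ := delm_fst_surj hv
    exact ⟨i, hi, rfl⟩
  · rintro ⟨i, hi, rfl⟩
    exact delm_mem hi.1

/-- the pair, the triple of points of a pair, a triple of indices -/
def delmE2 (x : DelmT) (q : DelgpIx × DelgpIx) : ℂ × ℂ := (x.2 q.1, x.2 q.2)

def delmE3 (x : DelmT) (q : DelgpIx × DelgpIx × DelgpIx) : ℂ × ℂ × ℂ := (x.2 q.1, x.2 q.2.1, x.2 q.2.2)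

theorem delm_measurable_E2 (q : DelgpIx × DelgpIx) : Measurable fun x : DelmT => delmE2 x q :=
  (delm_measurable_site q.1).prodMk (delm_measurable_site q.2)

theorem delm_measurable_E3 (q : DelgpIx × DelgpIx × DelgpIx) : Measurable fun x : DelmT => delmE3 x q :=
  (delm_measurable_site q.1).prodMk ((delm_measurable_site q.2.1).prodMk (delm_measurable_site q.2.2))

section sums

variable {M : Type*} [AddCommMonoid M] [TopologicalSpace M]

/-- **sum over a set of sites** -/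
theorem delm_tsum1 (x : DelmT) {S : Set ℂ} (hS : S ⊆ delmY x) (F : ℂ → M) :
    ∑' a : S, F a = ∑' i : DelgpIx, {i | DelmFst x i ∧ x.2 i ∈ S}.indicator (fun i => F (x.2 i)) i := by
  have e : S = x.2 '' {i | DelmFst x i ∧ x.2 i ∈ S} := by
    ext v
    constructor
    · intro hv
      obtain ⟨i, hi, rfl⟩ := delm_fst_surj (hS hv)
      exact ⟨i, ⟨hi, hv⟩, rfl⟩
    · rintro ⟨i, hi, rfl⟩
      exact hi.2
  have hinj : InjOn x.2 {i | DelmFst x i ∧ x.2 i ∈ S} := fun i hi j hj h => delm_fst_inj hi.1 hj.1 h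
  rw [← tsum_subtype, ← tsum_image F hinj]
  exact tsum_congr_set_coe F e

/-- **sum over a set of pairs of sites** -/
theorem delm_tsum2 (x : DelmT) {S : Set (ℂ × ℂ)} (hS : ∀ t ∈ S, t.1 ∈ delmY x ∧ t.2 ∈ delmY x) (F : ℂ × ℂ → M) :
    ∑' t : S, F t = ∑' q : DelgpIx × DelgpIx, {q | DelmFst x q.1 ∧ DelmFst x q.2 ∧ delmE2 x q ∈ S}.indicator (fun q => F (delmE2 x q)) q := by
  have e : S = delmE2 x '' {q | DelmFst x q.1 ∧ DelmFst x q.2 ∧ delmE2 x q ∈ S} := by
    ext ⟨a, b⟩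
    constructor
    · intro hv
      obtain ⟨i, hi, rfl⟩ := delm_fst_surj (hS _ hv).1
      obtain ⟨j, hj, rfl⟩ := delm_fst_surj (hS _ hv).2
      exact ⟨(i, j), ⟨hi, hj, hv⟩, rfl⟩
    · rintro ⟨q, hq, h⟩
      rw [← h]; exact hq.2.2
  have hinj : InjOn (delmE2 x) {q | DelmFst x q.1 ∧ DelmFst x q.2 ∧ delmE2 x q ∈ S} := fun q hq r hr h =>
    Prod.ext (delm_fst_inj hq.1 hr.1 (congrArg Prod.fst h)) (delm_fst_inj hq.2.1 hr.2.1 (congrArg Prod.snd h))
  rw [← tsum_subtype, ← tsum_image F hinj]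
  exact tsum_congr_set_coe F e

/-- **sum over a set of triples of sites** -/
theorem delm_tsum3 (x : DelmT) {S : Set (ℂ × ℂ × ℂ)} (hS : ∀ t ∈ S, t.1 ∈ delmY x ∧ t.2.1 ∈ delmY x ∧ t.2.2 ∈ delmY x) (F : ℂ × ℂ × ℂ → M) :
    ∑' t : S, F t = ∑' q : DelgpIx × DelgpIx × DelgpIx,
      {q | DelmFst x q.1 ∧ DelmFst x q.2.1 ∧ DelmFst x q.2.2 ∧ delmE3 x q ∈ S}.indicator (fun q => F (delmE3 x q)) q := by
  have e : S = delmE3 x '' {q | DelmFst x q.1 ∧ DelmFst x q.2.1 ∧ DelmFst x q.2.2 ∧ delmE3 x q ∈ S} := by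
    ext ⟨a, b, c⟩
    constructor
    · intro hv
      obtain ⟨i, hi, rfl⟩ := delm_fst_surj (hS _ hv).1
      obtain ⟨j, hj, rfl⟩ := delm_fst_surj (hS _ hv).2.1
      obtain ⟨k, hk, rfl⟩ := delm_fst_surj (hS _ hv).2.2
      exact ⟨(i, j, k), ⟨hi, hj, hk, hv⟩, rfl⟩
    · rintro ⟨q, hq, h⟩
      rw [← h]; exact hq.2.2.2
  have hinj : InjOn (delmE3 x) {q | DelmFst x q.1 ∧ DelmFst x q.2.1 ∧ DelmFst x q.2.2 ∧ delmE3 x q ∈ S} := fun q hq r hr h =>
    Prod.ext (delm_fst_inj hq.1 hr.1 (congrArg Prod.fst h))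
      (Prod.ext (delm_fst_inj hq.2.1 hr.2.1 (congrArg (fun t => t.2.1) h)) (delm_fst_inj hq.2.2.1 hr.2.2.1 (congrArg (fun t => t.2.2) h)))
  rw [← tsum_subtype, ← tsum_image F hinj]
  exact tsum_congr_set_coe F e

end sums

section msums

/- `M = ℝ≥0∞`, `ℝ`, `ℂ`, ... -/
variable {M : Type*} [AddCommMonoid M] [TopologicalSpace M] [TopologicalSpace.IsCompletelyPseudoMetrizableSpace M] [SecondCountableTopology M] [MeasurableSpace M] [BorelSpace M] [MeasurableAdd₂ M]

/-- a countable sum of measurable terms over a measurable random index set -/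
theorem delm_measurable_tsum {α ι : Type*} [MeasurableSpace α] [Countable ι] {P : ι → α → Prop} (hP : ∀ i, MeasurableSet {x | P i x}) {f : ι → α → M} (hf : ∀ i, Measurable (f i)) :
    Measurable fun x => ∑' i, {i | P i x}.indicator (fun i => f i x) i := by
  refine Measurable.tsum fun i => ?_
  have e : (fun x => {i | P i x}.indicator (fun i => f i x) i) = {x | P i x}.indicator (f i) := by
    funext x
    by_cases h : P i x
    · rw [indicator_of_mem (show i ∈ {i | P i x} from h), indicator_of_mem (show x ∈ {x | P i x} from h)]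
    · rw [indicator_of_notMem (show i ∉ {i | P i x} from h), indicator_of_notMem (show x ∉ {x | P i x} from h)]
  rw [e]
  exact (hf i).indicator (hP i)

/-- **sums over sites** -/
theorem delm_measurable_sum_site {R : DelmT → ℂ → Prop} (hR : ∀ i, MeasurableSet {x : DelmT | R x (x.2 i)}) {F : ℂ → M} (hF : Measurable F) :
    Measurable fun x : DelmT => ∑' a : {a : ℂ | a ∈ delmY x ∧ R x a}, F a := by
  have e : (fun x : DelmT => ∑' a : {a : ℂ | a ∈ delmY x ∧ R x a}, F a)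
      = fun x => ∑' i : DelgpIx, {i | DelmFst x i ∧ x.2 i ∈ {a : ℂ | a ∈ delmY x ∧ R x a}}.indicator (fun i => F (x.2 i)) i := by
    funext x; exact delm_tsum1 x (fun a ha => ha.1) F
  rw [e]
  exact delm_measurable_tsum (P := fun i x => DelmFst x i ∧ x.2 i ∈ {a : ℂ | a ∈ delmY x ∧ R x a}) (f := fun i x => F (x.2 i))
    (fun i => delm_meas_and (delm_meas_fst i) (delm_meas_and (delm_meas_mem i) (hR i))) fun i => hF.comp (delm_measurable_site i)

/-- **sums over Delaunay edges** (ordered pairs) whose dual Voronoi edge meets the closed set `K` -/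
theorem delm_measurable_sum_adj {K : Set ℂ} (hK : IsClosed K) {F : ℂ × ℂ → M} (hF : Measurable F) :
    Measurable fun x : DelmT => ∑' t : {t : ℂ × ℂ | VorAdjIn (delmY x) K t.1 t.2}, F t := by
  have e : (fun x : DelmT => ∑' t : {t : ℂ × ℂ | VorAdjIn (delmY x) K t.1 t.2}, F t)
      = fun x => ∑' q : DelgpIx × DelgpIx, {q | DelmFst x q.1 ∧ DelmFst x q.2 ∧ delmE2 x q ∈ {t : ℂ × ℂ | VorAdjIn (delmY x) K t.1 t.2}}.indicator (fun q => F (delmE2 x q)) q := by
    funext x; exact delm_tsum2 x (fun t ht => ⟨ht.1, ht.2.1⟩) F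
  rw [e]
  exact delm_measurable_tsum (P := fun q x => DelmFst x q.1 ∧ DelmFst x q.2 ∧ delmE2 x q ∈ {t : ℂ × ℂ | VorAdjIn (delmY x) K t.1 t.2}) (f := fun q x => F (delmE2 x q))
    (fun q => delm_meas_and (delm_meas_fst q.1) (delm_meas_and (delm_meas_fst q.2) (delm_meas_adjIn hK q.1 q.2))) fun q => hF.comp (delm_measurable_E2 q)

/-- **sums over Delaunay triangles** (positively oriented triples) with circumcentre in the measurable set `K` -/
theorem delm_measurable_sum_tri {K : Set ℂ} (hK : MeasurableSet K) {F : ℂ × ℂ × ℂ → M} (hF : Measurable F) :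
    Measurable fun x : DelmT => ∑' t : {t : ℂ × ℂ × ℂ | DelTriIn (delmY x) K t.1 t.2.1 t.2.2}, F t := by
  have e : (fun x : DelmT => ∑' t : {t : ℂ × ℂ × ℂ | DelTriIn (delmY x) K t.1 t.2.1 t.2.2}, F t)
      = fun x => ∑' q : DelgpIx × DelgpIx × DelgpIx,
        {q | DelmFst x q.1 ∧ DelmFst x q.2.1 ∧ DelmFst x q.2.2 ∧ delmE3 x q ∈ {t : ℂ × ℂ × ℂ | DelTriIn (delmY x) K t.1 t.2.1 t.2.2}}.indicator (fun q => F (delmE3 x q)) q := by
    funext x; exact delm_tsum3 x (fun t ht => ⟨ht.1, ht.2.1, ht.2.2.1⟩) F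
  rw [e]
  exact delm_measurable_tsum (P := fun q x => DelmFst x q.1 ∧ DelmFst x q.2.1 ∧ DelmFst x q.2.2 ∧ delmE3 x q ∈ {t : ℂ × ℂ × ℂ | DelTriIn (delmY x) K t.1 t.2.1 t.2.2})
    (f := fun q x => F (delmE3 x q))
    (fun q => delm_meas_and (delm_meas_fst q.1) (delm_meas_and (delm_meas_fst q.2.1) (delm_meas_and (delm_meas_fst q.2.2) (delm_meas_triIn hK q.1 q.2.1 q.2.2))))
    fun q => hF.comp (delm_measurable_E3 q)

end msums

/-! ## 6. `VorLF` itself; density on `VorLF`; the good event -/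

theorem delm_lf_iff (x : DelmT) : VorLF (delmY x) ↔ ∀ n : ℕ, ∃ T : Finset DelgpIx, ∀ l : DelgpIx, DelmAct x l → ‖x.2 l‖ ≤ n → ∃ t : DelgpIx, t ∈ T ∧ x.2 l = x.2 t := by
  classical
  constructor
  · intro h n
    have hch : ∀ v : ℂ, ∃ t : DelgpIx, v ∈ delmY x → v = x.2 t := fun v => by
      by_cases hv : v ∈ delmY x
      · obtain ⟨t, -, ht⟩ := hv; exact ⟨t, fun _ => ht⟩
      · exact ⟨((0, 0), 0), fun h => absurd h hv⟩
    choose g hg using hch
    refine ⟨(h n).toFinset.image g, fun l hl hn => ⟨g (x.2 l), ?_, hg _ (delm_mem hl)⟩⟩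
    refine Finset.mem_image_of_mem g ?_
    rw [Set.Finite.mem_toFinset]
    exact ⟨delm_mem hl, by rw [mem_closedBall, dist_zero_right]; exact hn⟩
  · intro h R
    obtain ⟨n, hn⟩ := exists_nat_ge R
    obtain ⟨T, hT⟩ := h n
    refine ((T.finite_toSet).image x.2).subset ?_
    rintro _ ⟨⟨l, hl, rfl⟩, hR⟩
    rw [mem_closedBall, dist_zero_right] at hR
    obtain ⟨t, ht, e⟩ := hT l hl (hR.trans hn)
    exact ⟨t, ht, e.symm⟩

/-- **`VorLF`** -/
theorem delm_meas_lf : MeasurableSet {x : DelmT | VorLF (delmY x)} := by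
  simp only [delm_lf_iff]
  refine delm_meas_all fun n => delm_meas_exi fun T => delm_meas_all fun l => delm_meas_imp (delm_meas_act l) (delm_meas_imp ?_ ?_)
  · exact measurableSet_le (delm_measurable_site l).norm measurable_const
  · exact delm_meas_exi fun t => delm_meas_and (MeasurableSet.const _) (delm_meas_eq l t)

/-- **`VorDense`** on `VorLF`, `K` ARBITRARY -/
theorem delm_meas_dense_lf (K : Set ℂ) (ρ : ℝ) : MeasurableSet {x : DelmT | VorLF (delmY x) ∧ VorDense (delmY x) K ρ} := by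
  obtain ⟨K₀, h0, hc, hd⟩ := (TopologicalSpace.IsSeparable.of_separableSpace K).exists_countable_dense_subset
  have e : {x : DelmT | VorLF (delmY x) ∧ VorDense (delmY x) K ρ} = {x : DelmT | VorLF (delmY x) ∧ ∀ z : K₀, ∃ u ∈ delmY x, ‖(z : ℂ) - u‖ ≤ ρ} := by
    ext x
    refine and_congr_right fun hx => ?_
    rw [delm_dense_iff hx h0 hd]
    exact ⟨fun H z => H z z.2, fun H z hz => H ⟨z, hz⟩⟩
  rw [e]
  have : Countable K₀ := hc.to_subtype
  exact delm_meas_and delm_meas_lf (delm_meas_all fun z => delm_meas_near z ρ)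

/-- the good geometries: with Del/Plane, `DelGood.of_quad h.lf h.gp h.quad : DelGood (delmY x)` -/
structure DelmG (x : DelmT) : Prop where
  lf : VorLF (delmY x)
  gp : VorGP (delmY x)
  quad : DelmQuad (delmY x)

theorem delm_meas_G : MeasurableSet {x : DelmT | DelmG x} := by
  have e : {x : DelmT | DelmG x} = {x : DelmT | VorLF (delmY x) ∧ VorGP (delmY x) ∧ DelmQuad (delmY x)} := by
    ext x
    exact ⟨fun h => ⟨h.lf, h.gp, h.quad⟩, fun h => ⟨h.1, h.2.1, h.2.2⟩⟩
  rw [e]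
  exact delm_meas_and delm_meas_lf (delm_meas_and delm_meas_gp delm_meas_quad)

/-! ## 7. pull-backs: samples `PVSample`, geometries (counts, positions), configurations `Conf PvPt` -/

theorem delm_pull {A : Set DelmT} (hA : MeasurableSet A) : MeasurableSet {ω : PVSample | delmOf ω ∈ A} := delm_measurable_of hA

theorem delm_pull_geo {A : Set DelmT} (hA : MeasurableSet A) : MeasurableSet {g : (ℤ × ℤ → ℕ) × (DelgpIx → ℝ × ℝ) | delmGeo g ∈ A} := delm_measurable_geo hA

theorem delm_pv_act (i : DelgpIx) : MeasurableSet {ω : PVSample | i.2 < ω.1 i.1} := delm_pull (delm_meas_act i)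

theorem delm_pv_adj (i j : DelgpIx) : MeasurableSet {ω : PVSample | DelAdj (cfSites (pvConf ω)) (delgpW ω i) (delgpW ω j)} := by
  simp only [delm_sites]; exact delm_pull (delm_meas_adj i j)

theorem delm_pv_adjIn {K : Set ℂ} (hK : IsClosed K) (i j : DelgpIx) : MeasurableSet {ω : PVSample | VorAdjIn (cfSites (pvConf ω)) K (delgpW ω i) (delgpW ω j)} := by
  simp only [delm_sites]; exact delm_pull (delm_meas_adjIn hK i j)

theorem delm_pv_meet {K : Set ℂ} (hK : IsClosed K) (i : DelgpIx) : MeasurableSet {ω : PVSample | delgpW ω i ∈ vorMeet (cfSites (pvConf ω)) K} := by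
  simp only [delm_sites]; exact delm_pull (delm_meas_meet hK i)

theorem delm_pv_tri (i j k : DelgpIx) : MeasurableSet {ω : PVSample | DelTri (cfSites (pvConf ω)) (delgpW ω i) (delgpW ω j) (delgpW ω k)} := by
  simp only [delm_sites]; exact delm_pull (delm_meas_tri i j k)

theorem delm_pv_triIn {K : Set ℂ} (hK : MeasurableSet K) (i j k : DelgpIx) :
    MeasurableSet {ω : PVSample | DelTriIn (cfSites (pvConf ω)) K (delgpW ω i) (delgpW ω j) (delgpW ω k)} := by
  simp only [delm_sites]; exact delm_pull (delm_meas_triIn hK i j k)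

theorem delm_pv_lf : MeasurableSet {ω : PVSample | VorLF (cfSites (pvConf ω))} := by
  simp only [delm_sites]; exact delm_pull delm_meas_lf

theorem delm_pv_gp : MeasurableSet {ω : PVSample | VorGP (cfSites (pvConf ω))} := by
  simp only [delm_sites]; exact delm_pull delm_meas_gp

theorem delm_pv_quad : MeasurableSet {ω : PVSample | DelmQuad (cfSites (pvConf ω))} := by
  simp only [delm_sites]; exact delm_pull delm_meas_quad

theorem delm_pv_dense (K : Set ℂ) (ρ : ℝ) : MeasurableSet {ω : PVSample | VorLF (cfSites (pvConf ω)) ∧ VorDense (cfSites (pvConf ω)) K ρ} := by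
  simp only [delm_sites]; exact delm_pull (delm_meas_dense_lf K ρ)

/-- a property of the set of sites which is measurable on `DelmT` is measurable on the locally finite configurations -/
theorem delm_cf {Φ : Set ℂ → Prop} (h : MeasurableSet {x : DelmT | Φ (delmY x)}) : MeasurableSet {η : Conf PvPt | Φ (cfSites η) ∧ PvLF η} := by
  refine pvcn_bridge (A := {η : Conf PvPt | Φ (cfSites η)}) ?_
  show MeasurableSet {ω : PVSample | Φ (cfSites (pvConf ω))}
  simp only [delm_sites]; exact delm_pull h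

theorem delm_cf_gp : MeasurableSet {η : Conf PvPt | VorGP (cfSites η) ∧ PvLF η} := delm_cf delm_meas_gp

theorem delm_cf_quad : MeasurableSet {η : Conf PvPt | DelmQuad (cfSites η) ∧ PvLF η} := delm_cf delm_meas_quad

theorem delm_cf_dense (K : Set ℂ) (ρ : ℝ) : MeasurableSet {η : Conf PvPt | VorDense (cfSites η) K ρ ∧ PvLF η} := by
  have e : {η : Conf PvPt | VorDense (cfSites η) K ρ ∧ PvLF η} = {η : Conf PvPt | (VorLF (cfSites η) ∧ VorDense (cfSites η) K ρ) ∧ PvLF η} := by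
    ext η
    exact ⟨fun h => ⟨⟨delgp_lf_of_pvlf h.2, h.1⟩, h.2⟩, fun h => ⟨h.1.2, h.2⟩⟩
  rw [e]
  exact delm_cf (Φ := fun Y => VorLF Y ∧ VorDense Y K ρ) (delm_meas_dense_lf K ρ)

section cfsums

variable {M : Type*} [AddCommMonoid M] [TopologicalSpace M] [TopologicalSpace.IsCompletelyPseudoMetrizableSpace M] [SecondCountableTopology M] [MeasurableSpace M] [BorelSpace M] [MeasurableAdd₂ M]

/-- a function of the set of sites which is measurable on `DelmT` is a.e. measurable on the configurations -/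
theorem delm_cf_fun {β : Type*} [MeasurableSpace β] {f : Set ℂ → β} (h : Measurable fun x : DelmT => f (delmY x)) (ε : ℝ) : AEMeasurable (fun η : Conf PvPt => f (cfSites η)) (pvP ε) := by
  refine pvcn_bridge_fun (f := fun η : Conf PvPt => f (cfSites η)) ?_ ε
  simp only [delm_sites]
  exact h.comp delm_measurable_of

/-- **sums over the Delaunay triangles of a configuration with circumcentre in `K`** (e.g. `F t = w t * B.indicator 1 (z t)`: the random measure `∑ w t δ_{z t}`) -/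
theorem delm_cf_sum_tri {K : Set ℂ} (hK : MeasurableSet K) {F : ℂ × ℂ × ℂ → M} (hF : Measurable F) (ε : ℝ) :
    AEMeasurable (fun η : Conf PvPt => ∑' t : {t : ℂ × ℂ × ℂ | DelTriIn (cfSites η) K t.1 t.2.1 t.2.2}, F t) (pvP ε) :=
  delm_cf_fun (f := fun Y => ∑' t : {t : ℂ × ℂ × ℂ | DelTriIn Y K t.1 t.2.1 t.2.2}, F t) (delm_measurable_sum_tri hK hF) ε

theorem delm_cf_sum_adj {K : Set ℂ} (hK : IsClosed K) {F : ℂ × ℂ → M} (hF : Measurable F) (ε : ℝ) :
    AEMeasurable (fun η : Conf PvPt => ∑' t : {t : ℂ × ℂ | VorAdjIn (cfSites η) K t.1 t.2}, F t) (pvP ε) :=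
  delm_cf_fun (f := fun Y => ∑' t : {t : ℂ × ℂ | VorAdjIn Y K t.1 t.2}, F t) (delm_measurable_sum_adj hK hF) ε

theorem delm_cf_sum_site {K : Set ℂ} (hK : MeasurableSet K) {F : ℂ → M} (hF : Measurable F) (ε : ℝ) :
    AEMeasurable (fun η : Conf PvPt => ∑' a : {a : ℂ | a ∈ cfSites η ∧ a ∈ K}, F a) (pvP ε) :=
  delm_cf_fun (f := fun Y => ∑' a : {a : ℂ | a ∈ Y ∧ a ∈ K}, F a)
    (delm_measurable_sum_site (R := fun _ a => a ∈ K) (fun i => delm_measurable_site i hK) hF) ε

end cfsums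

theorem delm_eqns_cite2 : True := by
  have := @DelmQuad.eq_1
  have := @DelmSq.eq_1
  have := @DelmFst.eq_1
  have := @delmE2.eq_1
  have := @delmE3.eq_1
  trivial

end Claimed.Agent.R289
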