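import Claimed.Agent.R289.Del.Circ
import Claimed.Agent.R289.Pl.Quad

/-!
# Row 289 (S0537, Cardy for Poisson-Voronoi), box DEL, file Del/RectQuad : RECTANGLES ARE QUADS OF THE DELAUNAY MAP      (helper229; prefix `dlrq_`, `dlrq`, `Dlrq`)

THE INSTANCE asked by ruling 14 of 234 (ADMISSION, ropes A B C): `Pl/Quad` (`PvMap.Quad`, `Cr13`, `Cr24`, `Sea`, `Low`, hex, exclusion) speaks of a cycle with four marks; here the cycle and the marks of a RECTANGLE
`K = rswRect x0 x1 y0 y1` in the Delaunay map of a good site set which is `ρ`-dense near `K`.      Deterministic, no probability, no orientation argument, no winding number.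

* sec. 1  MODEL FREE: `dlrq_ni` (two chords of a disc whose ends interleave on the cycle meet: `pl_qd_excl`), `DlrqCh` (CHORD ORACLE: two vertices of the cycle in a half plane are joined inside the disc in the `κ`-enlarged half plane),
          `DlrqCor` (four vertices of the cycle near the four corners), **`dlrq_marks`** : oracle + corners ⟹ a quad on `c` with `S2` in the `a`-collar of the bottom side, `S4` of the top side, `{S1, S3}` of the left and right sides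
* sec. 2  MODEL FREE: **`dlrq_cross`** : a `Z`-path of the whole map from the zone `Wz` outside the disc to the zone `Ez` outside the disc contains a `Z`-chord of the disc from the side `A` to the side `B`
* sec. 3  Delaunay: `dlrq_max` (maximum principle for linear functionals), `dlrq_cyc` (star cycle of the sites whose cell meets `K`), metric control, `dlrq_chord` (the oracle with `κ = 4ρ`), `dlrq_corner`
* sec. 4  **`DlrqOk`**, **`dlrq_exists`** (THE QUAD OF A RECTANGLE), `DlrqOk.pureW ..` (the vertices of the cycle beside the middle part of a side lie on that side),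
          **`dlrq_cr13`**, **`dlrq_cr24`** (a site path which crosses the rectangle lengthwise inside the shrunken band gives `Cr13` / `Cr24`), converses `dlrq_cr13_path`, `dlrq_cr24_path`
-/

set_option autoImplicit false
set_option linter.unusedSectionVars false
set_option linter.unusedVariables false

namespace Claimed.Agent.R289

open Set Metric Relation

/-! ## 1. chords, corners, marks (model free) -/

section abs

variable {V D : Type} {T : PvMap V D} {pos : V → ℂ} {c : T.Cyc} {κ : ℝ}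

/-- position of the vertex number `k` of a cycle -/
def dlrqP (pos : V → ℂ) (c : T.Cyc) (k : ℕ) : ℂ := pos (T.src (c.e k))

/-- **CHORD ORACLE**: two vertices of the cycle in a half plane (left, right, lower, upper) are joined inside the closed disc by a path in the `κ`-enlarged half plane -/
structure DlrqCh (T : PvMap V D) (pos : V → ℂ) (c : T.Cyc) (κ : ℝ) : Prop where
  W : ∀ (t : ℝ) (k l : ℕ), (dlrqP pos c k).re ≤ t → (dlrqP pos c l).re ≤ t → T.Join c.Left {v | (pos v).re ≤ t + κ} (T.src (c.e k)) (T.src (c.e l))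
  E : ∀ (t : ℝ) (k l : ℕ), t ≤ (dlrqP pos c k).re → t ≤ (dlrqP pos c l).re → T.Join c.Left {v | t - κ ≤ (pos v).re} (T.src (c.e k)) (T.src (c.e l))
  S : ∀ (t : ℝ) (k l : ℕ), (dlrqP pos c k).im ≤ t → (dlrqP pos c l).im ≤ t → T.Join c.Left {v | (pos v).im ≤ t + κ} (T.src (c.e k)) (T.src (c.e l))
  N : ∀ (t : ℝ) (k l : ℕ), t ≤ (dlrqP pos c k).im → t ≤ (dlrqP pos c l).im → T.Join c.Left {v | t - κ ≤ (pos v).im} (T.src (c.e k)) (T.src (c.e l))

/-- four vertices of the cycle within `κ` of the four corner quadrants -/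
structure DlrqCor (pos : V → ℂ) (c : T.Cyc) (x0 x1 y0 y1 κ : ℝ) (kNW kSW kSE kNE : ℕ) : Prop where
  nw_re : (dlrqP pos c kNW).re ≤ x0 + κ
  nw_im : y1 - κ ≤ (dlrqP pos c kNW).im
  sw_re : (dlrqP pos c kSW).re ≤ x0 + κ
  sw_im : (dlrqP pos c kSW).im ≤ y0 + κ
  se_re : x1 - κ ≤ (dlrqP pos c kSE).re
  se_im : (dlrqP pos c kSE).im ≤ y0 + κ
  ne_re : x1 - κ ≤ (dlrqP pos c kNE).re
  ne_im : y1 - κ ≤ (dlrqP pos c kNE).im

theorem dlrq_eqns_cite : True := by
  have := @dlrqP.eq_1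
  trivial

theorem dlrq_P_per (pos : V → ℂ) (c : T.Cyc) (k : ℕ) : dlrqP pos c (k + c.n) = dlrqP pos c k := by
  unfold dlrqP; rw [c.per]

/-- a representative of the index `k` in the window `[A, A + n)` -/
theorem dlrq_rep (c : T.Cyc) (A k : ℕ) : ∃ k', A ≤ k' ∧ k' < A + c.n ∧ c.e k' = c.e k := by
  have hn := pl_cyc_pos c
  refine ⟨A + (k + A * (c.n - 1)) % c.n, Nat.le_add_right _ _, Nat.add_lt_add_left (Nat.mod_lt _ hn) _, pl_cyc_eq_of_mod c ?_⟩
  have h1 : A + (k + A * (c.n - 1)) = k + A * c.n := by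
    obtain ⟨m, hm⟩ : ∃ m, c.n = m + 1 := ⟨c.n - 1, by omega⟩
    rw [hm]; simp only [Nat.add_sub_cancel]; ring
  calc (A + (k + A * (c.n - 1)) % c.n) % c.n = (A + (k + A * (c.n - 1))) % c.n := by rw [Nat.add_mod_mod]
    _ = (k + A * c.n) % c.n := by rw [h1]
    _ = k % c.n := Nat.add_mul_mod_self_right _ _ _

/-- **NO INTERLEAVING**: two chords of the closed disc whose ends alternate on the cycle have a common vertex -/
theorem dlrq_ni (hT : T.IsSph) (c : T.Cyc) {i j k l : ℕ} (hij : i ≤ j) (hjk : j ≤ k) (hkl : k ≤ l) (hli : l ≤ i + c.n) {A B : Set V}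
    (hA : T.Join c.Left A (T.src (c.e i)) (T.src (c.e k))) (hB : T.Join c.Left B (T.src (c.e j)) (T.src (c.e l))) : (A ∩ B).Nonempty :=
  pl_qd_excl hT ⟨c, i, j, k, l, hij, hjk, hkl, hli⟩ ⟨_, ⟨i, le_rfl, hij, rfl⟩, _, ⟨k, le_rfl, hkl, rfl⟩, hA⟩ ⟨_, ⟨j, le_rfl, hjk, rfl⟩, _, ⟨l, le_rfl, hli, rfl⟩, hB⟩

theorem dlrq_ni_re (hT : T.IsSph) (H : DlrqCh T pos c κ) {i j k l : ℕ} (hij : i ≤ j) (hjk : j ≤ k) (hkl : k ≤ l) (hli : l ≤ i + c.n) {t s : ℝ} (hts : t + 2 * κ < s)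
    (hi : (dlrqP pos c i).re ≤ t) (hk : (dlrqP pos c k).re ≤ t) (hj : s ≤ (dlrqP pos c j).re) (hl : s ≤ (dlrqP pos c l).re) : False := by
  obtain ⟨v, h1, h2⟩ := dlrq_ni hT c hij hjk hkl hli (H.W t i k hi hk) (H.E s j l hj hl)
  have h1' : (pos v).re ≤ t + κ := h1
  have h2' : s - κ ≤ (pos v).re := h2
  linarith

theorem dlrq_ni_re' (hT : T.IsSph) (H : DlrqCh T pos c κ) {i j k l : ℕ} (hij : i ≤ j) (hjk : j ≤ k) (hkl : k ≤ l) (hli : l ≤ i + c.n) {t s : ℝ} (hts : t + 2 * κ < s)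
    (hi : s ≤ (dlrqP pos c i).re) (hk : s ≤ (dlrqP pos c k).re) (hj : (dlrqP pos c j).re ≤ t) (hl : (dlrqP pos c l).re ≤ t) : False := by
  obtain ⟨v, h1, h2⟩ := dlrq_ni hT c hij hjk hkl hli (H.E s i k hi hk) (H.W t j l hj hl)
  have h1' : s - κ ≤ (pos v).re := h1
  have h2' : (pos v).re ≤ t + κ := h2
  linarith

theorem dlrq_ni_im (hT : T.IsSph) (H : DlrqCh T pos c κ) {i j k l : ℕ} (hij : i ≤ j) (hjk : j ≤ k) (hkl : k ≤ l) (hli : l ≤ i + c.n) {t s : ℝ} (hts : t + 2 * κ < s)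
    (hi : (dlrqP pos c i).im ≤ t) (hk : (dlrqP pos c k).im ≤ t) (hj : s ≤ (dlrqP pos c j).im) (hl : s ≤ (dlrqP pos c l).im) : False := by
  obtain ⟨v, h1, h2⟩ := dlrq_ni hT c hij hjk hkl hli (H.S t i k hi hk) (H.N s j l hj hl)
  have h1' : (pos v).im ≤ t + κ := h1
  have h2' : s - κ ≤ (pos v).im := h2
  linarith

theorem dlrq_ni_im' (hT : T.IsSph) (H : DlrqCh T pos c κ) {i j k l : ℕ} (hij : i ≤ j) (hjk : j ≤ k) (hkl : k ≤ l) (hli : l ≤ i + c.n) {t s : ℝ} (hts : t + 2 * κ < s)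
    (hi : s ≤ (dlrqP pos c i).im) (hk : s ≤ (dlrqP pos c k).im) (hj : (dlrqP pos c j).im ≤ t) (hl : (dlrqP pos c l).im ≤ t) : False := by
  obtain ⟨v, h1, h2⟩ := dlrq_ni hT c hij hjk hkl hli (H.N s i k hi hk) (H.S t j l hj hl)
  have h1' : s - κ ≤ (pos v).im := h1
  have h2' : (pos v).im ≤ t + κ := h2
  linarith

/-- **THE MARKS**: chord oracle + four corner vertices ⟹ a quad on `c` whose sides lie in the `a`-collars of the four sides of the rectangle.      `S2` = bottom, `S4` = top; `S1`, `S3` = left, right in one of the two orders. -/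
theorem dlrq_marks (hT : T.IsSph) (H : DlrqCh T pos c κ) {x0 x1 y0 y1 a : ℝ} {kNW kSW kSE kNE : ℕ} (hC : DlrqCor pos c x0 x1 y0 y1 κ kNW kSW kSE kNE)
    (hκ : 0 ≤ κ) (ha : 3 * κ < a) (hx : x0 + a ≤ x1 - κ) (hy : y0 + a ≤ y1 - κ) :
    ∃ Q : T.Quad, Q.c = c ∧ (∀ v ∈ Q.S2, (pos v).im < y0 + a) ∧ (∀ v ∈ Q.S4, y1 - a < (pos v).im) ∧
      (((∀ v ∈ Q.S1, (pos v).re < x0 + a) ∧ ∀ v ∈ Q.S3, x1 - a < (pos v).re) ∨ ((∀ v ∈ Q.S1, x1 - a < (pos v).re) ∧ ∀ v ∈ Q.S3, (pos v).re < x0 + a)) := by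
  set A := kNW with hA
  obtain ⟨B, hAB, hBn, eB⟩ := dlrq_rep c A kSW
  obtain ⟨C, hAC, hCn, eC⟩ := dlrq_rep c A kSE
  obtain ⟨E, hAE, hEn, eE⟩ := dlrq_rep c A kNE
  have pB : dlrqP pos c B = dlrqP pos c kSW := by unfold dlrqP; rw [eB]
  have pC : dlrqP pos c C = dlrqP pos c kSE := by unfold dlrqP; rw [eC]
  have pE : dlrqP pos c E = dlrqP pos c kNE := by unfold dlrqP; rw [eE]
  have a1 := hC.nw_re; have a2 := hC.nw_im
  have b1 := hC.sw_re; have b2 := hC.sw_im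
  have c1 := hC.se_re; have c2 := hC.se_im
  have e1 := hC.ne_re; have e2 := hC.ne_im
  rw [← pB] at b1 b2; rw [← pC] at c1 c2; rw [← pE] at e1 e2
  have a1' : (dlrqP pos c (A + c.n)).re ≤ x0 + κ := by rw [dlrq_P_per]; exact a1
  have a2' : y1 - κ ≤ (dlrqP pos c (A + c.n)).im := by rw [dlrq_P_per]; exact a2
  have b1' : (dlrqP pos c (B + c.n)).re ≤ x0 + κ := by rw [dlrq_P_per]; exact b1
  have b2' : (dlrqP pos c (B + c.n)).im ≤ y0 + κ := by rw [dlrq_P_per]; exact b2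
  have c1' : x1 - κ ≤ (dlrqP pos c (C + c.n)).re := by rw [dlrq_P_per]; exact c1
  have c2' : (dlrqP pos c (C + c.n)).im ≤ y0 + κ := by rw [dlrq_P_per]; exact c2
  have e1' : x1 - κ ≤ (dlrqP pos c (E + c.n)).re := by rw [dlrq_P_per]; exact e1
  have e2' : y1 - κ ≤ (dlrqP pos c (E + c.n)).im := by rw [dlrq_P_per]; exact e2
  -- the two good orders
  have ccw : A ≤ B → B ≤ C → C ≤ E → _ := fun hAB hBC hCE => (⟨⟨c, A, B, C, E, hAB, hBC, hCE, hEn.le⟩, rfl, ?_, ?_, Or.inl ⟨?_, ?_⟩⟩ :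
    ∃ Q : T.Quad, Q.c = c ∧ (∀ v ∈ Q.S2, (pos v).im < y0 + a) ∧ (∀ v ∈ Q.S4, y1 - a < (pos v).im) ∧
      (((∀ v ∈ Q.S1, (pos v).re < x0 + a) ∧ ∀ v ∈ Q.S3, x1 - a < (pos v).re) ∨ ((∀ v ∈ Q.S1, x1 - a < (pos v).re) ∧ ∀ v ∈ Q.S3, (pos v).re < x0 + a)))
  have cw : A ≤ E → E ≤ C → C ≤ B → _ := fun hAE hEC hCB => (⟨⟨c, E, C, B, A + c.n, hEC, hCB, hBn.le, Nat.add_le_add_right hAE _⟩, rfl, ?_, ?_, Or.inr ⟨?_, ?_⟩⟩ :
    ∃ Q : T.Quad, Q.c = c ∧ (∀ v ∈ Q.S2, (pos v).im < y0 + a) ∧ (∀ v ∈ Q.S4, y1 - a < (pos v).im) ∧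
      (((∀ v ∈ Q.S1, (pos v).re < x0 + a) ∧ ∀ v ∈ Q.S3, x1 - a < (pos v).re) ∨ ((∀ v ∈ Q.S1, x1 - a < (pos v).re) ∧ ∀ v ∈ Q.S3, (pos v).re < x0 + a)))
  · rcases le_total B C with hBC | hCB
    · rcases le_total C E with hCE | hEC
      · exact ccw hAB hBC hCE
      · rcases le_total B E with hBE | hEB
        · exact (dlrq_ni_im' hT H hAB hBE hEC hCn.le (t := y0 + κ) (s := y1 - κ) (by linarith) a2 e2 b2 c2).elim
        · exact (dlrq_ni_re hT H hAE hEB hBC hCn.le (t := x0 + κ) (s := x1 - κ) (by linarith) a1 b1 e1 c1).elim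
    · rcases le_total B E with hBE | hEB
      · exact (dlrq_ni_re hT H hAC hCB hBE hEn.le (t := x0 + κ) (s := x1 - κ) (by linarith) a1 b1 c1 e1).elim
      · rcases le_total C E with hCE | hEC
        · exact (dlrq_ni_im' hT H hAC hCE hEB hBn.le (t := y0 + κ) (s := y1 - κ) (by linarith) a2 e2 c2 b2).elim
        · exact cw hAE hEC hCB
  -- cw : S2, S4, S1, S3
  · rintro v ⟨k, h1, h2, rfl⟩
    have h1 : C ≤ k := h1
    have h2 : k ≤ B := h2
    by_contra hc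
    exact dlrq_ni_im hT H h1 h2 hBn.le (by omega) (t := y0 + κ) (s := y0 + a) (by linarith) c2 b2 (not_lt.1 hc) (by linarith)
  · rintro v ⟨k, h1, h2, rfl⟩
    have h1 : A + c.n ≤ k := h1
    have h2 : k ≤ E + c.n := h2
    by_contra hc
    exact dlrq_ni_im' hT H h1 h2 (Nat.add_le_add_right hEC _) (by omega) (t := y1 - a) (s := y1 - κ) (by linarith) a2' e2' (not_lt.1 hc) (by linarith)
  · rintro v ⟨k, h1, h2, rfl⟩
    have h1 : E ≤ k := h1
    have h2 : k ≤ C := h2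
    by_contra hc
    exact dlrq_ni_re' hT H h1 h2 hCB (by omega) (t := x1 - a) (s := x1 - κ) (by linarith) e1 c1 (not_lt.1 hc) (by linarith)
  · rintro v ⟨k, h1, h2, rfl⟩
    have h1 : B ≤ k := h1
    have h2 : k ≤ A + c.n := h2
    by_contra hc
    exact dlrq_ni_re hT H h1 h2 (Nat.add_le_add_right hAE _) (by omega) (t := x0 + κ) (s := x0 + a) (by linarith) b1 a1' (not_lt.1 hc) (by linarith)
  -- ccw : S2, S4, S1, S3
  · rintro v ⟨k, h1, h2, rfl⟩
    have h1 : B ≤ k := h1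
    have h2 : k ≤ C := h2
    by_contra hc
    exact dlrq_ni_im hT H h1 h2 hCE (by omega) (t := y0 + κ) (s := y0 + a) (by linarith) b2 c2 (not_lt.1 hc) (by linarith)
  · rintro v ⟨k, h1, h2, rfl⟩
    have h1 : E ≤ k := h1
    have h2 : k ≤ A + c.n := h2
    by_contra hc
    exact dlrq_ni_im' hT H h1 h2 (Nat.add_le_add_right hAB _) (by omega) (t := y1 - a) (s := y1 - κ) (by linarith) e2 a2' (not_lt.1 hc) (by linarith)
  · rintro v ⟨k, h1, h2, rfl⟩
    have h1 : A ≤ k := h1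
    have h2 : k ≤ B := h2
    by_contra hc
    exact dlrq_ni_re hT H h1 h2 hBC (by omega) (t := x0 + κ) (s := x0 + a) (by linarith) a1 b1 (not_lt.1 hc) (by linarith)
  · rintro v ⟨k, h1, h2, rfl⟩
    have h1 : C ≤ k := h1
    have h2 : k ≤ E := h2
    by_contra hc
    exact dlrq_ni_re' hT H h1 h2 hEn.le (by omega) (t := x1 - a) (s := x1 - κ) (by linarith) c1 e1 (not_lt.1 hc) (by linarith)

/-! ## 2. a path of the whole map which crosses the disc contains a chord (model free) -/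

/-- an edge with an end strictly inside the disc is an edge of the disc -/
theorem dlrq_edge_in (hT : T.IsSph) (c : T.Cyc) {u v : V} (h : T.Adj u v) (hv : u ∈ T.Int c.Left ∨ v ∈ T.Int c.Left) : T.EdgeIn c.Left u v ∧ u ∈ T.VOf c.Left ∧ v ∈ T.VOf c.Left := by
  obtain ⟨d, rfl, rfl⟩ := h
  have hI : T.Int c.Left ⊆ T.VOf c.Left := by rw [pl_VOf_left hT c]; exact subset_union_right
  rcases hv with hv | hv
  · have h1 := pl_int_edge hT c (d := d) hv
    exact ⟨⟨d, Or.inl h1.1, rfl, rfl⟩, hI hv, h1.2.2⟩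
  · have h0 : T.src (T.opp d) = T.tgt d := T.src_opp d
    have h1 := pl_int_edge hT c (d := T.opp d) (by rw [h0]; exact hv)
    refine ⟨⟨d, Or.inr h1.1, rfl, rfl⟩, ?_, hI hv⟩
    have h2 : T.tgt (T.opp d) = T.src d := T.tgt_opp d
    rw [← h2]; exact h1.2.2

/-- **CROSSING ⟹ CHORD**.      `Wz`, `Ez` = the two zones beside the disc (left / right, or below / above);   the vertices of `Z` which are not strictly inside lie in one of them;   no edge of `Z` jumps from `Wz` to `Ez`;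
the vertices of the cycle in `Z ∩ Wz` lie on the side `A`, those in `Z ∩ Ez` on the side `B`.      Then a `Z`-path from `Wz` (not inside) to a vertex off the closed disc which is not in `Wz` contains a `Z`-chord from `A` to `B`. -/
theorem dlrq_cross (hT : T.IsSph) (c : T.Cyc) {Z A B : Set V} {Wz Ez : V → Prop} (hAv : A ⊆ c.verts)
    (h1 : ∀ v ∈ Z, v ∉ T.Int c.Left → Wz v ∨ Ez v) (h2 : ∀ u v, u ∈ Z → v ∈ Z → T.Adj u v → Wz u → ¬ Ez v)
    (hA : ∀ v ∈ Z, v ∈ c.verts → Wz v → v ∈ A) (hB : ∀ v ∈ Z, v ∈ c.verts → Ez v → v ∈ B)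
    {p q : V} (hp : p ∈ Z) (hpo : p ∉ T.Int c.Left) (hpW : Wz p) (hq : q ∉ T.VOf c.Left) (hqW : ¬ Wz q)
    (hpq : ReflTransGen (fun u v => T.Adj u v ∧ v ∈ Z) p q) : ∃ s ∈ A, ∃ e ∈ B, T.Join c.Left Z s e := by
  have hVO := pl_VOf_left hT c
  have hvV : c.verts ⊆ T.VOf c.Left := by rw [hVO]; exact subset_union_left
  have key : (∃ s ∈ A, ∃ e ∈ B, T.Join c.Left Z s e) ∨ (q ∈ Z ∧ ((∃ s ∈ A, T.Join c.Left Z s q) ∨ (q ∉ T.Int c.Left ∧ Wz q))) := by
    clear hq hqW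
    induction hpq with
    | refl => exact Or.inr ⟨hp, Or.inr ⟨hpo, hpW⟩⟩
    | @tail u v _ huv ih =>
      obtain ⟨hadj, hvZ⟩ := huv
      rcases ih with ih | ⟨huZ, ih⟩
      · exact Or.inl ih
      -- the step out of a vertex of the zone `Wz` which is not inside
      have stepW : u ∉ T.Int c.Left → Wz u → (u ∈ c.verts → ∃ s ∈ A, T.Join c.Left Z s u) →
          (v ∈ Z ∧ ((∃ s ∈ A, T.Join c.Left Z s v) ∨ (v ∉ T.Int c.Left ∧ Wz v))) := by
        intro huI huW hjoin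
        by_cases hv : v ∈ T.Int c.Left
        · obtain ⟨he, huV, -⟩ := dlrq_edge_in hT c hadj (Or.inr hv)
          have huc : u ∈ c.verts := by
            rw [hVO] at huV
            exact huV.resolve_right huI
          obtain ⟨s, hs, hj⟩ := hjoin huc
          exact ⟨hvZ, Or.inl ⟨s, hs, pl_hx_join_tail hj he hvZ⟩⟩
        · rcases h1 v hvZ hv with hw | he
          · exact ⟨hvZ, Or.inr ⟨hv, hw⟩⟩
          · exact absurd he (h2 u v huZ hvZ hadj huW)
      rcases ih with ⟨s, hs, hj⟩ | ⟨huI, huW⟩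
      · by_cases hu : u ∈ T.Int c.Left
        · exact Or.inr ⟨hvZ, Or.inl ⟨s, hs, pl_hx_join_tail hj (dlrq_edge_in hT c hadj (Or.inl hu)).1 hvZ⟩⟩
        · have huV : u ∈ T.VOf c.Left := pl_hx_join_VOf (pl_left_face c) hj (hvV (hAv hs))
          have huc : u ∈ c.verts := by
            rw [hVO] at huV
            exact huV.resolve_right hu
          rcases h1 u huZ hu with hw | he
          · exact Or.inr (stepW hu hw fun _ => ⟨s, hs, hj⟩)
          · exact Or.inl ⟨s, hs, u, hB u huZ huc he, hj⟩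
      · exact Or.inr (stepW huI huW fun huc => ⟨u, hA u huZ huc huW, pl_hx_join_refl huZ⟩)
  rcases key with h | ⟨-, ⟨s, hs, hj⟩ | ⟨-, hw⟩⟩
  · exact h
  · exact absurd (pl_hx_join_VOf (pl_left_face c) hj (hvV (hAv hs))) hq
  · exact absurd hw hqW

end abs

/-! ## 3. the Delaunay map: maximum principle, star cycle, chords, corners -/

section del

variable {Y : Set ℂ} {K : Set ℂ} {ρ : ℝ}

/-- **maximum principle for a linear functional** on the vertices of a finite disc -/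
theorem dlrq_max (h : DelGood Y) (c : (delMap h).Cyc) (hfin : c.Left.Finite) (α β : ℝ) (hαβ : α ≠ 0 ∨ β ≠ 0) {M : ℝ}
    (hM : ∀ v ∈ c.verts, α * (v : ℂ).re + β * (v : ℂ).im ≤ M) {v : Y} (hv : v ∈ (delMap h).VOf c.Left) : α * (v : ℂ).re + β * (v : ℂ).im ≤ M := by
  have hT := dls_isSph h
  obtain ⟨w, hw, hmax⟩ := Set.exists_max_image _ (fun x : Y => α * (x : ℂ).re + β * (x : ℂ).im) (pl_VOf_finite hT c hfin) ⟨v, hv⟩
  refine (hmax v hv).trans ?_
  have hw' := hw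
  rw [pl_VOf_left hT c] at hw'
  rcases hw' with h1 | h1
  · exact hM w h1
  · exfalso
    have hu : (⟨α, β⟩ : ℂ) ≠ 0 := by
      intro h0
      have e1 := congrArg Complex.re h0
      have e2 := congrArg Complex.im h0
      simp only [Complex.zero_re, Complex.zero_im] at e1 e2
      rcases hαβ with h3 | h3
      · exact h3 e1
      · exact h3 e2
    obtain ⟨b, hb, hlt⟩ := dlc_nbr h w.2 hu
    have h2 := (pl_int_edge hT c (d := dlsD h hb) h1).2.2
    have h3 := hmax _ h2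
    have h4 : ((((delMap h).tgt (dlsD h hb) : Y)) : ℂ) = b := rfl
    simp only [h4] at h3
    nlinarith

/-- a Delaunay edge at a site whose `2ρ`-ball is `ρ`-dense has length at most `2ρ` -/
theorem dlrq_edge_le {S : Set ℂ} (hρ : 0 < ρ) (hd : VorDense Y S ρ) {a u : ℂ} (hau : DelAdj Y a u) (hS : closedBall a (2 * ρ) ⊆ S) : ‖a - u‖ ≤ 2 * ρ := by
  obtain ⟨-, -, -, p, hpa, hpu⟩ := hau
  have h2 := vor_cell_subset_ball hρ.le (by linarith : ρ < 2 * ρ) (hd.mono subset_rfl hS le_rfl) hpa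
  have h2' : ‖p - a‖ ≤ ρ := by rwa [mem_closedBall, dist_eq_norm] at h2
  have h3 : ‖p - u‖ ≤ ρ := vor_site_near hd hpu (hS (closedBall_subset_closedBall (by linarith) h2))
  calc ‖a - u‖ = ‖(p - u) - (p - a)‖ := by ring_nf
    _ ≤ ‖p - u‖ + ‖p - a‖ := norm_sub_le _ _
    _ ≤ 2 * ρ := by linarith

/-- the star cycle of the sites whose cell meets `K` -/
structure DlrqCy (h : DelGood Y) (K : Set ℂ) (c : (delMap h).Cyc) : Prop where
  fin : c.Left.Finite
  ins : ∀ v : Y, (v : ℂ) ∈ vorMeet Y K → v ∈ (delMap h).Int c.Left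
  off : ∀ i, (((delMap h).src (c.e i) : Y) : ℂ) ∉ vorMeet Y K
  apx : ∀ i, (((delMap h).apex (c.e i) : Y) : ℂ) ∈ vorMeet Y K

theorem dlrq_cyc (h : DelGood Y) (hK : IsPreconnected K) (hb : Bornology.IsBounded K) (hne : K.Nonempty) : ∃ c : (delMap h).Cyc, DlrqCy h K c := by
  have hT := dls_isSph h
  have := dlc_infinite_dart h
  set X : Set Y := {v | (v : ℂ) ∈ vorMeet Y K} with hX
  have hXfin : X.Finite := (vor_finite_meet h.lf hb).preimage Subtype.val_injective.injOn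
  have hXne : X.Nonempty := by
    obtain ⟨z, hz⟩ := hne
    obtain ⟨v, hv, hzv⟩ := vor_cover h.lf h.ne z
    exact ⟨⟨v, hv⟩, hv, z, hzv, hz⟩
  obtain ⟨c, hfin, hint, hc⟩ := pl_star_cycle hT (dls_simple h) hXfin hXne fun a ha b hb => dlc_conn h hK a ha b hb
  exact ⟨c, hfin, fun v hv => hint hv, fun i => (hc i).1, fun i => (hc i).2⟩

/-- every vertex of the star cycle is within `3ρ` of a point of `K` which lies in the cell of the apex -/
theorem dlrq_near (h : DelGood Y) {c : (delMap h).Cyc} (H : DlrqCy h K c) (hρ : 0 < ρ) (hd : VorDense Y (vorNbd K (3 * ρ)) ρ) (i : ℕ) :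
    ∃ w ∈ K, w ∈ vorCell Y ((delMap h).apex (c.e i)) ∧ ‖w - (delMap h).apex (c.e i)‖ ≤ ρ ∧ ‖w - (delMap h).src (c.e i)‖ ≤ 3 * ρ := by
  obtain ⟨-, w, hwa, hwK⟩ := H.apx i
  set a := (delMap h).apex (c.e i) with haa
  set u := (delMap h).src (c.e i) with huu
  have hwd : w ∈ vorNbd K (3 * ρ) := ⟨w, hwK, by rw [sub_self, norm_zero]; positivity⟩
  have h1 : ‖w - a‖ ≤ ρ := vor_site_near hd hwa hwd
  have hsub : closedBall (a : ℂ) (2 * ρ) ⊆ vorNbd K (3 * ρ) := by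
    intro z hz
    rw [mem_closedBall, dist_eq_norm] at hz
    refine ⟨w, hwK, ?_⟩
    calc ‖z - w‖ = ‖(z - a) - (w - a)‖ := by ring_nf
      _ ≤ ‖z - a‖ + ‖w - a‖ := norm_sub_le _ _
      _ ≤ 3 * ρ := by linarith
  have h2 := dlrq_edge_le hρ hd ((dls_adj_iff h a u).1 (pl_adj_apex_src (c.e i))) hsub
  refine ⟨w, hwK, hwa, h1, ?_⟩
  calc ‖w - u‖ = ‖(w - a) + (a - u)‖ := by ring_nf
    _ ≤ ‖w - a‖ + ‖(a : ℂ) - u‖ := norm_add_le _ _
    _ ≤ 3 * ρ := by linarith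

/-- **THE CHORD** of a half plane `{α re + β im ≤ t}`, `K` convex -/
theorem dlrq_chord (h : DelGood Y) {c : (delMap h).Cyc} (H : DlrqCy h K c) (hK : Convex ℝ K) (hρ : 0 < ρ) (hd : VorDense Y (vorNbd K (3 * ρ)) ρ)
    (α β : ℝ) (hαβ : ∀ z : ℂ, α * z.re + β * z.im ≤ ‖z‖) (t : ℝ) (k l : ℕ)
    (hk : α * (dlrqP (dlsPos Y) c k).re + β * (dlrqP (dlsPos Y) c k).im ≤ t) (hl : α * (dlrqP (dlsPos Y) c l).re + β * (dlrqP (dlsPos Y) c l).im ≤ t) :
    (delMap h).Join c.Left {v | α * (dlsPos Y v).re + β * (dlsPos Y v).im ≤ t + 4 * ρ} ((delMap h).src (c.e k)) ((delMap h).src (c.e l)) := by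
  have hT := dls_isSph h
  obtain ⟨wk, hwkK, hwkc, -, nk⟩ := dlrq_near h H hρ hd k
  obtain ⟨wl, hwlK, hwlc, -, nl⟩ := dlrq_near h H hρ hd l
  have hF : ∀ z w : ℂ, α * z.re + β * z.im ≤ α * w.re + β * w.im + ‖z - w‖ := fun z w => by
    have := hαβ (z - w)
    simp only [Complex.sub_re, Complex.sub_im] at this
    linarith
  have hk' : α * ((delMap h).src (c.e k) : ℂ).re + β * ((delMap h).src (c.e k) : ℂ).im ≤ t := hk
  have hl' : α * ((delMap h).src (c.e l) : ℂ).re + β * ((delMap h).src (c.e l) : ℂ).im ≤ t := hl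
  have fk : α * wk.re + β * wk.im ≤ t + 3 * ρ := by have := hF wk ((delMap h).src (c.e k)); linarith
  have fl : α * wl.re + β * wl.im ≤ t + 3 * ρ := by have := hF wl ((delMap h).src (c.e l)); linarith
  set S : Set ℂ := segment ℝ wk wl with hS
  have hSK : S ⊆ K := hK.segment_subset hwkK hwlK
  have hSF : ∀ z ∈ S, α * z.re + β * z.im ≤ t + 3 * ρ := by
    rintro z ⟨a, b, ha, hb, hab, rfl⟩
    simp only [Complex.add_re, Complex.add_im, Complex.real_smul, Complex.mul_re, Complex.mul_im, Complex.ofReal_re, Complex.ofReal_im, zero_mul, sub_zero, add_zero]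
    have e : α * (a * wk.re + b * wl.re) + β * (a * wk.im + b * wl.im) = a * (α * wk.re + β * wk.im) + b * (α * wl.re + β * wl.im) := by ring
    rw [e]
    calc a * (α * wk.re + β * wk.im) + b * (α * wl.re + β * wl.im) ≤ a * (t + 3 * ρ) + b * (t + 3 * ρ) :=
          add_le_add (mul_le_mul_of_nonneg_left fk ha) (mul_le_mul_of_nonneg_left fl hb)
      _ = t + 3 * ρ := by rw [← add_mul, hab, one_mul]
  set Zs : Set Y := {v | α * (dlsPos Y v).re + β * (dlsPos Y v).im ≤ t + 4 * ρ} with hZs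
  have claim : ∀ v : Y, (v : ℂ) ∈ vorMeet Y S → v ∈ Zs ∧ v ∈ (delMap h).Int c.Left := by
    rintro v ⟨hvY, z, hzc, hzS⟩
    refine ⟨?_, H.ins v ⟨hvY, z, hzc, hSK hzS⟩⟩
    have h1 : ‖z - v‖ ≤ ρ := vor_site_near hd hzc ⟨z, hSK hzS, by rw [sub_self, norm_zero]; positivity⟩
    have h2 := hF v z
    have h3 := hSF z hzS
    rw [norm_sub_rev] at h2
    show α * (v : ℂ).re + β * (v : ℂ).im ≤ t + 4 * ρ
    linarith
  have hconn := dlc_conn h (convex_segment wk wl).isPreconnected ((delMap h).apex (c.e k)) ⟨((delMap h).apex (c.e k)).2, wk, hwkc, left_mem_segment ℝ wk wl⟩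
    ((delMap h).apex (c.e l)) ⟨((delMap h).apex (c.e l)).2, wl, hwlc, right_mem_segment ℝ wk wl⟩
  have hconn' : ReflTransGen (fun u v => (delMap h).EdgeIn c.Left u v ∧ v ∈ Zs) ((delMap h).apex (c.e k)) ((delMap h).apex (c.e l)) :=
    ReflTransGen.mono (fun u v huv => ⟨(dlrq_edge_in hT c huv.1 (Or.inr (claim v huv.2).2)).1, (claim v huv.2).1⟩) _ _ hconn
  have hL := (pl_jordan hT c).2.1
  have ek : (delMap h).EdgeIn c.Left ((delMap h).src (c.e k)) ((delMap h).apex (c.e k)) := pl_hx_edgeIn_symm (pl_hx_edgeIn_nxt2 (pl_left_face c) (hL k))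
  have el : (delMap h).EdgeIn c.Left ((delMap h).apex (c.e l)) ((delMap h).src (c.e l)) := pl_hx_edgeIn_nxt2 (pl_left_face c) (hL l)
  have zk : (delMap h).src (c.e k) ∈ Zs := hk'.trans (by linarith)
  have zl : (delMap h).src (c.e l) ∈ Zs := hl'.trans (by linarith)
  have zak : (delMap h).apex (c.e k) ∈ Zs := (claim _ ⟨((delMap h).apex (c.e k)).2, wk, hwkc, left_mem_segment ℝ wk wl⟩).1
  exact ⟨zk, ((ReflTransGen.single ⟨ek, zak⟩).trans hconn').tail ⟨el, zl⟩⟩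

theorem dlrq_re_le (z w : ℂ) : z.re ≤ w.re + ‖z - w‖ := by
  have := Complex.re_le_norm (z - w)
  rw [Complex.sub_re] at this
  linarith

theorem dlrq_im_le (z w : ℂ) : z.im ≤ w.im + ‖z - w‖ := by
  have := Complex.im_le_norm (z - w)
  rw [Complex.sub_im] at this
  linarith

/-- **THE CHORD ORACLE** of the star cycle of a convex set, `κ = 4ρ` -/
theorem dlrq_oracle (h : DelGood Y) {c : (delMap h).Cyc} (H : DlrqCy h K c) (hK : Convex ℝ K) (hρ : 0 < ρ) (hd : VorDense Y (vorNbd K (3 * ρ)) ρ) :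
    DlrqCh (delMap h) (dlsPos Y) c (4 * ρ) where
  W := fun t k l hk hl => pl_hx_join_mono subset_rfl (fun v hv => by
      have hv' : 1 * (dlsPos Y v).re + 0 * (dlsPos Y v).im ≤ t + 4 * ρ := hv
      show (dlsPos Y v).re ≤ t + 4 * ρ
      linarith)
    (dlrq_chord h H hK hρ hd 1 0 (fun z => by have := Complex.re_le_norm z; linarith) t k l (by linarith) (by linarith))
  E := fun t k l hk hl => pl_hx_join_mono subset_rfl (fun v hv => by
      have hv' : (-1) * (dlsPos Y v).re + 0 * (dlsPos Y v).im ≤ -t + 4 * ρ := hv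
      show t - 4 * ρ ≤ (dlsPos Y v).re
      linarith)
    (dlrq_chord h H hK hρ hd (-1) 0 (fun z => by have := Complex.abs_re_le_norm z; have := neg_abs_le z.re; linarith) (-t) k l (by linarith) (by linarith))
  S := fun t k l hk hl => pl_hx_join_mono subset_rfl (fun v hv => by
      have hv' : 0 * (dlsPos Y v).re + 1 * (dlsPos Y v).im ≤ t + 4 * ρ := hv
      show (dlsPos Y v).im ≤ t + 4 * ρ
      linarith)
    (dlrq_chord h H hK hρ hd 0 1 (fun z => by have := Complex.im_le_norm z; linarith) t k l (by linarith) (by linarith))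
  N := fun t k l hk hl => pl_hx_join_mono subset_rfl (fun v hv => by
      have hv' : 0 * (dlsPos Y v).re + (-1) * (dlsPos Y v).im ≤ -t + 4 * ρ := hv
      show t - 4 * ρ ≤ (dlsPos Y v).im
      linarith)
    (dlrq_chord h H hK hρ hd 0 (-1) (fun z => by have := Complex.abs_im_le_norm z; have := neg_abs_le z.im; linarith) (-t) k l (by linarith) (by linarith))

/-- the closed disc of the star cycle of a rectangle lies in the `3ρ`-enlarged rectangle -/
theorem dlrq_box (h : DelGood Y) {x0 x1 y0 y1 : ℝ} {c : (delMap h).Cyc} (H : DlrqCy h (rswRect x0 x1 y0 y1) c) (hρ : 0 < ρ)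
    (hd : VorDense Y (vorNbd (rswRect x0 x1 y0 y1) (3 * ρ)) ρ) {v : Y} (hv : v ∈ (delMap h).VOf c.Left) :
    (v : ℂ) ∈ rswRect (x0 - 3 * ρ) (x1 + 3 * ρ) (y0 - 3 * ρ) (y1 + 3 * ρ) := by
  have hc : ∀ u ∈ c.verts, ∃ w ∈ rswRect x0 x1 y0 y1, ‖w - (u : ℂ)‖ ≤ 3 * ρ := by
    rintro u ⟨i, rfl⟩
    obtain ⟨w, hw, -, -, h3⟩ := dlrq_near h H hρ hd i
    exact ⟨w, hw, h3⟩
  have b1 := dlrq_max h c H.fin (-1) 0 (Or.inl (by norm_num)) (M := -(x0 - 3 * ρ)) (fun u hu => by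
    obtain ⟨w, hw, h3⟩ := hc u hu
    have := dlrq_re_le w u
    have := hw.1
    linarith) hv
  have b2 := dlrq_max h c H.fin 1 0 (Or.inl (by norm_num)) (M := x1 + 3 * ρ) (fun u hu => by
    obtain ⟨w, hw, h3⟩ := hc u hu
    have := dlrq_re_le u w
    rw [norm_sub_rev] at this
    have := hw.2.1
    linarith) hv
  have b3 := dlrq_max h c H.fin 0 (-1) (Or.inr (by norm_num)) (M := -(y0 - 3 * ρ)) (fun u hu => by
    obtain ⟨w, hw, h3⟩ := hc u hu
    have := dlrq_im_le w u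
    have := hw.2.2.1
    linarith) hv
  have b4 := dlrq_max h c H.fin 0 1 (Or.inr (by norm_num)) (M := y1 + 3 * ρ) (fun u hu => by
    obtain ⟨w, hw, h3⟩ := hc u hu
    have := dlrq_im_le u w
    rw [norm_sub_rev] at this
    have := hw.2.2.2
    linarith) hv
  exact ⟨by linarith, by linarith, by linarith, by linarith⟩

/-- **a transversal meets the cycle**: a segment from a point of `K` to a point whose sites are off the closed disc passes within `ρ` of a vertex of the cycle -/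
theorem dlrq_hit (h : DelGood Y) {c : (delMap h).Cyc} (H : DlrqCy h K c) {q0 q1 : ℂ} (hq0 : q0 ∈ K) (hd : VorDense Y (segment ℝ q0 q1) ρ)
    (hout : ∀ v : Y, ‖q1 - (v : ℂ)‖ ≤ ρ → v ∉ (delMap h).VOf c.Left) : ∃ k, ∃ z ∈ segment ℝ q0 q1, ‖z - dlrqP (dlsPos Y) c k‖ ≤ ρ := by
  have hT := dls_isSph h
  obtain ⟨s0, hs0, hz0⟩ := vor_cover h.lf h.ne q0
  obtain ⟨s1, hs1, hz1⟩ := vor_cover h.lf h.ne q1
  have hconn := dlc_conn h (convex_segment q0 q1).isPreconnected ⟨s0, hs0⟩ ⟨hs0, q0, hz0, left_mem_segment ℝ q0 q1⟩ ⟨s1, hs1⟩ ⟨hs1, q1, hz1, right_mem_segment ℝ q0 q1⟩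
  by_contra hno
  push Not at hno
  have hoff : ∀ v : Y, (v : ℂ) ∈ vorMeet Y (segment ℝ q0 q1) → v ∉ c.verts := by
    rintro v ⟨-, z, hzc, hzS⟩ ⟨k, rfl⟩
    exact absurd (vor_site_near hd hzc hzS) (not_le.2 (hno k z hzS))
  have h1 : (⟨s1, hs1⟩ : Y) ∈ (delMap h).Int c.Left :=
    pl_jordan_sep hT c (H.ins ⟨s0, hs0⟩ ⟨hs0, q0, hz0, hq0⟩) (ReflTransGen.mono (fun u v huv => ⟨huv.1, hoff v huv.2⟩) _ _ hconn)
  refine hout ⟨s1, hs1⟩ (vor_site_near hd hz1 (right_mem_segment ℝ q0 q1)) ?_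
  rw [pl_VOf_left hT c]
  exact Or.inr h1

theorem dlrq_seg_lin {q0 q1 z : ℂ} (hz : z ∈ segment ℝ q0 q1) (α β M : ℝ) (h0 : α * q0.re + β * q0.im ≤ M) (h1 : α * q1.re + β * q1.im ≤ M) : α * z.re + β * z.im ≤ M := by
  obtain ⟨a, b, ha, hb, hab, rfl⟩ := hz
  simp only [Complex.add_re, Complex.add_im, Complex.real_smul, Complex.mul_re, Complex.mul_im, Complex.ofReal_re, Complex.ofReal_im, zero_mul, sub_zero, add_zero]
  have e : α * (a * q0.re + b * q1.re) + β * (a * q0.im + b * q1.im) = a * (α * q0.re + β * q0.im) + b * (α * q1.re + β * q1.im) := by ring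
  rw [e]
  calc a * (α * q0.re + β * q0.im) + b * (α * q1.re + β * q1.im) ≤ a * M + b * M := add_le_add (mul_le_mul_of_nonneg_left h0 ha) (mul_le_mul_of_nonneg_left h1 hb)
    _ = M := by rw [← add_mul, hab, one_mul]

/-- a vertex of the cycle near a short transversal which leaves the enlarged rectangle through a vertical side line -/
theorem dlrq_corner (h : DelGood Y) {x0 x1 y0 y1 : ℝ} {c : (delMap h).Cyc} (H : DlrqCy h (rswRect x0 x1 y0 y1) c) (hρ : 0 < ρ)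
    (hd : VorDense Y (vorNbd (rswRect x0 x1 y0 y1) (10 * ρ)) ρ) {q0 q1 : ℂ} (hq0 : q0 ∈ rswRect x0 x1 y0 y1) (hq : ‖q1 - q0‖ ≤ 10 * ρ)
    (hout : q1.re < x0 - 4 * ρ ∨ x1 + 4 * ρ < q1.re) : ∃ k, ∃ z ∈ segment ℝ q0 q1, ‖z - dlrqP (dlsPos Y) c k‖ ≤ ρ := by
  have hd3 : VorDense Y (vorNbd (rswRect x0 x1 y0 y1) (3 * ρ)) ρ := hd.mono subset_rfl (fun z ⟨w, hw, hzw⟩ => ⟨w, hw, hzw.trans (by linarith)⟩) le_rfl
  refine dlrq_hit h H hq0 (hd.mono subset_rfl (fun z hz => ⟨q0, hq0, ?_⟩) le_rfl) fun v hv hV => ?_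
  · have h1 : z ∈ closedBall q0 (10 * ρ) :=
      (convex_closedBall q0 (10 * ρ)).segment_subset (mem_closedBall_self (by positivity)) (by rw [mem_closedBall, dist_eq_norm]; exact hq) hz
    rwa [mem_closedBall, dist_eq_norm] at h1
  · have hb := dlrq_box h H hρ hd3 hV
    rcases hout with ho | ho
    · have := dlrq_re_le (v : ℂ) q1
      rw [norm_sub_rev] at this
      have := hb.1
      linarith
    · have := dlrq_re_le q1 (v : ℂ)
      have := hb.2.1
      linarith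

end del

/-! ## 4. THE QUAD OF A RECTANGLE -/

section quad

variable {Y : Set ℂ} {x0 x1 y0 y1 a ρ : ℝ}

/-- **`Q` IS A QUAD OF THE RECTANGLE** `rswRect x0 x1 y0 y1`, collar `a`, mesh `ρ` -/
structure DlrqOk (h : DelGood Y) (Q : (delMap h).Quad) (x0 x1 y0 y1 a ρ : ℝ) : Prop where
  fin : Q.c.Left.Finite
  /-- the sites whose cell meets the rectangle (in particular the sites of the rectangle) are strictly inside -/
  ins : ∀ v : Y, (v : ℂ) ∈ vorMeet Y (rswRect x0 x1 y0 y1) → v ∈ (delMap h).Int Q.c.Left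
  /-- the cells of the vertices of the cycle do not meet the rectangle -/
  off : ∀ v ∈ Q.c.verts, (v : ℂ) ∉ vorMeet Y (rswRect x0 x1 y0 y1)
  /-- the closed disc lies in the enlarged rectangle -/
  box : ∀ v ∈ (delMap h).VOf Q.c.Left, (v : ℂ) ∈ rswRect (x0 - 3 * ρ) (x1 + 3 * ρ) (y0 - 3 * ρ) (y1 + 3 * ρ)
  /-- `S2` = bottom -/
  s2 : ∀ v ∈ Q.S2, (v : ℂ).im < y0 + a
  /-- `S4` = top -/
  s4 : ∀ v ∈ Q.S4, y1 - a < (v : ℂ).im
  /-- `S1`, `S3` = left, right (or right, left) -/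
  we : ((∀ v ∈ Q.S1, (v : ℂ).re < x0 + a) ∧ ∀ v ∈ Q.S3, x1 - a < (v : ℂ).re) ∨ ((∀ v ∈ Q.S1, x1 - a < (v : ℂ).re) ∧ ∀ v ∈ Q.S3, (v : ℂ).re < x0 + a)

/-- **EXISTENCE** -/
theorem dlrq_exists (h : DelGood Y) (hρ : 0 < ρ) (hd : VorDense Y (vorNbd (rswRect x0 x1 y0 y1) (10 * ρ)) ρ) (ha : 12 * ρ < a) (hx : x0 + a + 4 * ρ ≤ x1) (hy : y0 + a + 4 * ρ ≤ y1) :
    ∃ Q : (delMap h).Quad, DlrqOk h Q x0 x1 y0 y1 a ρ := by
  have hT := dls_isSph h
  have hx01 : x0 ≤ x1 := by linarith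
  have hy01 : y0 ≤ y1 := by linarith
  have hd3 : VorDense Y (vorNbd (rswRect x0 x1 y0 y1) (3 * ρ)) ρ := hd.mono subset_rfl (fun z ⟨w, hw, hzw⟩ => ⟨w, hw, hzw.trans (by linarith)⟩) le_rfl
  obtain ⟨c, H⟩ := dlrq_cyc h (rsw_rect_convex x0 x1 y0 y1).isPreconnected (rsw_rect_compact x0 x1 y0 y1).isBounded ⟨⟨x0, y0⟩, le_rfl, hx01, le_rfl, hy01⟩
  have hn : ∀ sx sy : ℝ, |sx| ≤ 5 * ρ → |sy| ≤ 5 * ρ → ∀ q : ℂ, ‖(⟨q.re + sx, q.im + sy⟩ : ℂ) - q‖ ≤ 10 * ρ := by
    intro sx sy h1 h2 q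
    refine (Complex.norm_le_abs_re_add_abs_im _).trans ?_
    simp only [Complex.sub_re, Complex.sub_im, add_sub_cancel_left]
    linarith
  have e5 : |5 * ρ| ≤ 5 * ρ := by rw [abs_of_pos (by positivity)]
  have e5' : |-(5 * ρ)| ≤ 5 * ρ := by rw [abs_neg, abs_of_pos (by positivity)]
  obtain ⟨kNW, zNW, hzNW, nNW⟩ := dlrq_corner h H hρ hd (q0 := ⟨x0, y1⟩) (q1 := ⟨x0 + -(5 * ρ), y1 + 5 * ρ⟩) ⟨le_rfl, hx01, hy01, le_rfl⟩ (hn _ _ e5' e5 ⟨x0, y1⟩)
    (Or.inl (by show x0 + -(5 * ρ) < x0 - 4 * ρ; linarith))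
  obtain ⟨kSW, zSW, hzSW, nSW⟩ := dlrq_corner h H hρ hd (q0 := ⟨x0, y0⟩) (q1 := ⟨x0 + -(5 * ρ), y0 + -(5 * ρ)⟩) ⟨le_rfl, hx01, le_rfl, hy01⟩ (hn _ _ e5' e5' ⟨x0, y0⟩)
    (Or.inl (by show x0 + -(5 * ρ) < x0 - 4 * ρ; linarith))
  obtain ⟨kSE, zSE, hzSE, nSE⟩ := dlrq_corner h H hρ hd (q0 := ⟨x1, y0⟩) (q1 := ⟨x1 + 5 * ρ, y0 + -(5 * ρ)⟩) ⟨hx01, le_rfl, le_rfl, hy01⟩ (hn _ _ e5 e5' ⟨x1, y0⟩)
    (Or.inr (by show x1 + 4 * ρ < x1 + 5 * ρ; linarith))
  obtain ⟨kNE, zNE, hzNE, nNE⟩ := dlrq_corner h H hρ hd (q0 := ⟨x1, y1⟩) (q1 := ⟨x1 + 5 * ρ, y1 + 5 * ρ⟩) ⟨hx01, le_rfl, hy01, le_rfl⟩ (hn _ _ e5 e5 ⟨x1, y1⟩)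
    (Or.inr (by show x1 + 4 * ρ < x1 + 5 * ρ; linarith))
  have hC : DlrqCor (dlsPos Y) c x0 x1 y0 y1 (4 * ρ) kNW kSW kSE kNE := by
    refine ⟨?_, ?_, ?_, ?_, ?_, ?_, ?_, ?_⟩
    · have h1 := dlrq_seg_lin hzNW 1 0 x0 (by simp) (by simp; linarith)
      have h2 := dlrq_re_le (dlrqP (dlsPos Y) c kNW) zNW
      rw [norm_sub_rev] at h2
      linarith
    · have h1 := dlrq_seg_lin hzNW 0 (-1) (-y1) (by simp) (by simp; linarith)
      have h2 := dlrq_im_le zNW (dlrqP (dlsPos Y) c kNW)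
      linarith
    · have h1 := dlrq_seg_lin hzSW 1 0 x0 (by simp) (by simp; linarith)
      have h2 := dlrq_re_le (dlrqP (dlsPos Y) c kSW) zSW
      rw [norm_sub_rev] at h2
      linarith
    · have h1 := dlrq_seg_lin hzSW 0 1 y0 (by simp) (by simp; linarith)
      have h2 := dlrq_im_le (dlrqP (dlsPos Y) c kSW) zSW
      rw [norm_sub_rev] at h2
      linarith
    · have h1 := dlrq_seg_lin hzSE (-1) 0 (-x1) (by simp) (by simp; linarith)
      have h2 := dlrq_re_le zSE (dlrqP (dlsPos Y) c kSE)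
      linarith
    · have h1 := dlrq_seg_lin hzSE 0 1 y0 (by simp) (by simp; linarith)
      have h2 := dlrq_im_le (dlrqP (dlsPos Y) c kSE) zSE
      rw [norm_sub_rev] at h2
      linarith
    · have h1 := dlrq_seg_lin hzNE (-1) 0 (-x1) (by simp) (by simp; linarith)
      have h2 := dlrq_re_le zNE (dlrqP (dlsPos Y) c kNE)
      linarith
    · have h1 := dlrq_seg_lin hzNE 0 (-1) (-y1) (by simp) (by simp; linarith)
      have h2 := dlrq_im_le zNE (dlrqP (dlsPos Y) c kNE)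
      linarith
  obtain ⟨Q, rfl, h2, h4, hwe⟩ := dlrq_marks hT (dlrq_oracle h H (rsw_rect_convex x0 x1 y0 y1) hρ hd3) hC (by positivity) (a := a) (by linarith) (by linarith) (by linarith)
  exact ⟨Q, H.fin, H.ins, fun v ⟨i, hi⟩ => hi ▸ H.off i, fun v hv => dlrq_box h H hρ hd3 hv, h2, h4, hwe⟩

namespace DlrqOk

variable {h : DelGood Y} {Q : (delMap h).Quad}

/-- a site of the rectangle is strictly inside -/
theorem ins' (H : DlrqOk h Q x0 x1 y0 y1 a ρ) {v : Y} (hv : (v : ℂ) ∈ rswRect x0 x1 y0 y1) : v ∈ (delMap h).Int Q.c.Left :=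
  H.ins v ⟨v.2, v, vor_self_mem Y v, hv⟩

theorem int_sub (H : DlrqOk h Q x0 x1 y0 y1 a ρ) : (delMap h).Int Q.c.Left ⊆ (delMap h).VOf Q.c.Left := by
  rw [pl_VOf_left (dls_isSph h) Q.c]; exact subset_union_right

/-- a vertex of the cycle lies on one of the four sides -/
theorem side (H : DlrqOk h Q x0 x1 y0 y1 a ρ) {v : Y} (hv : v ∈ Q.c.verts) : v ∈ Q.S1 ∨ v ∈ Q.S2 ∨ v ∈ Q.S3 ∨ v ∈ Q.S4 := by
  rw [← pl_qd_sides Q] at hv
  rcases hv with ((h1 | h1) | h1) | h1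
  · exact Or.inl h1
  · exact Or.inr (Or.inl h1)
  · exact Or.inr (Or.inr (Or.inl h1))
  · exact Or.inr (Or.inr (Or.inr h1))

/-- the vertices of the cycle beside the middle part of the bottom side lie on `S2` -/
theorem pureS (H : DlrqOk h Q x0 x1 y0 y1 a ρ) {v : Y} (hv : v ∈ Q.c.verts) (h1 : x0 + a ≤ (v : ℂ).re) (h2 : (v : ℂ).re ≤ x1 - a) (h3 : (v : ℂ).im ≤ y1 - a) : v ∈ Q.S2 := by
  rcases H.side hv with k | k | k | k
  · rcases H.we with ⟨w, -⟩ | ⟨w, -⟩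
    · exact absurd (w v k) (by linarith)
    · exact absurd (w v k) (by linarith)
  · exact k
  · rcases H.we with ⟨-, w⟩ | ⟨-, w⟩
    · exact absurd (w v k) (by linarith)
    · exact absurd (w v k) (by linarith)
  · exact absurd (H.s4 v k) (by linarith)

/-- the vertices of the cycle beside the middle part of the top side lie on `S4` -/
theorem pureN (H : DlrqOk h Q x0 x1 y0 y1 a ρ) {v : Y} (hv : v ∈ Q.c.verts) (h1 : x0 + a ≤ (v : ℂ).re) (h2 : (v : ℂ).re ≤ x1 - a) (h3 : y0 + a ≤ (v : ℂ).im) : v ∈ Q.S4 := by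
  rcases H.side hv with k | k | k | k
  · rcases H.we with ⟨w, -⟩ | ⟨w, -⟩
    · exact absurd (w v k) (by linarith)
    · exact absurd (w v k) (by linarith)
  · exact absurd (H.s2 v k) (by linarith)
  · rcases H.we with ⟨-, w⟩ | ⟨-, w⟩
    · exact absurd (w v k) (by linarith)
    · exact absurd (w v k) (by linarith)
  · exact k

/-- the vertices of the cycle beside the middle part of a vertical side lie on `S1 ∪ S3` -/
theorem pureWE (H : DlrqOk h Q x0 x1 y0 y1 a ρ) {v : Y} (hv : v ∈ Q.c.verts) (h1 : y0 + a ≤ (v : ℂ).im) (h2 : (v : ℂ).im ≤ y1 - a) : v ∈ Q.S1 ∨ v ∈ Q.S3 := by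
  rcases H.side hv with k | k | k | k
  · exact Or.inl k
  · exact absurd (H.s2 v k) (by linarith)
  · exact Or.inr k
  · exact absurd (H.s4 v k) (by linarith)

end DlrqOk

/-- edges between sites near the rectangle are short -/
theorem dlrq_adj_le (h : DelGood Y) (hρ : 0 < ρ) (hd : VorDense Y (vorNbd (rswRect x0 x1 y0 y1) (10 * ρ)) ρ) {u v : Y} (huv : (delMap h).Adj u v)
    (hu : (u : ℂ) ∈ vorNbd (rswRect x0 x1 y0 y1) (8 * ρ)) : ‖(u : ℂ) - v‖ ≤ 2 * ρ := by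
  refine dlrq_edge_le hρ hd ((dls_adj_iff h u v).1 huv) fun z hz => ?_
  obtain ⟨w, hw, huw⟩ := hu
  rw [mem_closedBall, dist_eq_norm] at hz
  refine ⟨w, hw, ?_⟩
  calc ‖z - w‖ = ‖(z - u) + (u - w)‖ := by ring_nf
    _ ≤ ‖z - u‖ + ‖(u : ℂ) - w‖ := norm_add_le _ _
    _ ≤ 10 * ρ := by linarith

/-- a point beside a vertical side of the rectangle, at the height of the rectangle, is close to the rectangle -/
theorem dlrq_nbd_H (hx : x0 ≤ x1) {r : ℝ} (hr : 0 ≤ r) {z : ℂ} (h1 : x0 - r ≤ z.re) (h2 : z.re ≤ x1 + r) (h3 : y0 ≤ z.im) (h4 : z.im ≤ y1) : z ∈ vorNbd (rswRect x0 x1 y0 y1) r := by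
  refine ⟨⟨max x0 (min z.re x1), z.im⟩, ⟨le_max_left _ _, max_le hx (min_le_right _ _), h3, h4⟩, ?_⟩
  refine (Complex.norm_le_abs_re_add_abs_im _).trans ?_
  simp only [Complex.sub_re, Complex.sub_im, sub_self, abs_zero, add_zero]
  rw [abs_le]
  constructor
  · rcases le_total z.re x1 with k | k
    · rw [min_eq_left k]
      rcases le_total x0 z.re with k' | k'
      · rw [max_eq_right k']; linarith
      · rw [max_eq_left k']; linarith
    · rw [min_eq_right k, max_eq_right hx]; linarith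
  · rcases le_total z.re x1 with k | k
    · rw [min_eq_left k]
      rcases le_total x0 z.re with k' | k'
      · rw [max_eq_right k']; linarith
      · rw [max_eq_left k']; linarith
    · rw [min_eq_right k, max_eq_right hx]; linarith

/-- a point above or below the rectangle, in the column of the rectangle, is close to the rectangle -/
theorem dlrq_nbd_V (hy : y0 ≤ y1) {r : ℝ} (hr : 0 ≤ r) {z : ℂ} (h1 : x0 ≤ z.re) (h2 : z.re ≤ x1) (h3 : y0 - r ≤ z.im) (h4 : z.im ≤ y1 + r) : z ∈ vorNbd (rswRect x0 x1 y0 y1) r := by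
  refine ⟨⟨z.re, max y0 (min z.im y1)⟩, ⟨h1, h2, le_max_left _ _, max_le hy (min_le_right _ _)⟩, ?_⟩
  refine (Complex.norm_le_abs_re_add_abs_im _).trans ?_
  simp only [Complex.sub_re, Complex.sub_im, sub_self, abs_zero, zero_add]
  rw [abs_le]
  constructor
  · rcases le_total z.im y1 with k | k
    · rw [min_eq_left k]
      rcases le_total y0 z.im with k' | k'
      · rw [max_eq_right k']; linarith
      · rw [max_eq_left k']; linarith
    · rw [min_eq_right k, max_eq_right hy]; linarith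
  · rcases le_total z.im y1 with k | k
    · rw [min_eq_left k]
      rcases le_total y0 z.im with k' | k'
      · rw [max_eq_right k']; linarith
      · rw [max_eq_left k']; linarith
    · rw [min_eq_right k, max_eq_right hy]; linarith

/-- **LEFT-RIGHT**: a `Z`-path of sites, inside the band `y0 + a ≤ im ≤ y1 - a`, from the left of the enlarged rectangle to its right ⟹ `Q.Cr13 Z` -/
theorem dlrq_cr13 {h : DelGood Y} {Q : (delMap h).Quad} (H : DlrqOk h Q x0 x1 y0 y1 a ρ) (hρ : 0 < ρ) (hd : VorDense Y (vorNbd (rswRect x0 x1 y0 y1) (10 * ρ)) ρ)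
    (ha : 0 ≤ a) (hx : x0 + a + 2 * ρ ≤ x1) {Z : Set Y}
    (hZ : ∀ v ∈ Z, x0 - 8 * ρ ≤ (v : ℂ).re ∧ (v : ℂ).re ≤ x1 + 8 * ρ ∧ y0 + a ≤ (v : ℂ).im ∧ (v : ℂ).im ≤ y1 - a)
    {p q : Y} (hp : p ∈ Z) (hpx : (p : ℂ).re < x0 - 3 * ρ) (hqx : x1 + 3 * ρ < (q : ℂ).re) (hpq : ReflTransGen (fun u v => (delMap h).Adj u v ∧ v ∈ Z) p q) : Q.Cr13 Z := by
  have hT := dls_isSph h
  have h1 : ∀ v ∈ Z, v ∉ (delMap h).Int Q.c.Left → (v : ℂ).re < x0 ∨ x1 < (v : ℂ).re := by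
    intro v hv hvI
    by_contra hc
    push Not at hc
    obtain ⟨-, -, k3, k4⟩ := hZ v hv
    exact hvI (H.ins' ⟨hc.1, hc.2, by linarith, by linarith⟩)
  have h2 : ∀ u v, u ∈ Z → v ∈ Z → (delMap h).Adj u v → (u : ℂ).re < x0 → ¬ x1 < (v : ℂ).re := by
    intro u v hu hv huv hux hvx
    obtain ⟨k1, k2, k3, k4⟩ := hZ u hu
    have h3 := dlrq_adj_le h hρ hd huv (dlrq_nbd_H (by linarith) (by positivity) k1 k2 (by linarith) (by linarith))
    have h4 := dlrq_re_le (v : ℂ) u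
    rw [norm_sub_rev] at h4
    linarith
  have hpo : p ∉ (delMap h).Int Q.c.Left := fun hc => by have := (H.box p (H.int_sub hc)).1; linarith
  have hqo : q ∉ (delMap h).VOf Q.c.Left := fun hc => by have := (H.box q hc).2.1; linarith
  rcases H.we with ⟨w1, w3⟩ | ⟨w1, w3⟩
  · obtain ⟨s, hs, e, he, hj⟩ := dlrq_cross hT Q.c (Z := Z) (A := Q.S1) (B := Q.S3) (Wz := fun v => (v : ℂ).re < x0) (Ez := fun v => x1 < (v : ℂ).re) (pl_qd_S1_verts Q) h1 h2
      (fun v hv hvc hvx => by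
        obtain ⟨-, -, k3, k4⟩ := hZ v hv
        rcases H.pureWE hvc k3 k4 with k | k
        · exact k
        · exact absurd (w3 v k) (by linarith))
      (fun v hv hvc hvx => by
        obtain ⟨-, -, k3, k4⟩ := hZ v hv
        rcases H.pureWE hvc k3 k4 with k | k
        · exact absurd (w1 v k) (by have : x1 < (v : ℂ).re := hvx; linarith)
        · exact k) hp hpo (by show (p : ℂ).re < x0; linarith) hqo (by show ¬ (q : ℂ).re < x0; linarith) hpq
    exact ⟨s, hs, e, he, hj⟩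
  · obtain ⟨s, hs, e, he, hj⟩ := dlrq_cross hT Q.c (Z := Z) (A := Q.S3) (B := Q.S1) (Wz := fun v => (v : ℂ).re < x0) (Ez := fun v => x1 < (v : ℂ).re) (pl_qd_S3_verts Q) h1 h2
      (fun v hv hvc hvx => by
        obtain ⟨-, -, k3, k4⟩ := hZ v hv
        rcases H.pureWE hvc k3 k4 with k | k
        · exact absurd (w1 v k) (by have : (v : ℂ).re < x0 := hvx; linarith)
        · exact k)
      (fun v hv hvc hvx => by
        obtain ⟨-, -, k3, k4⟩ := hZ v hv
        rcases H.pureWE hvc k3 k4 with k | k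
        · exact k
        · exact absurd (w3 v k) (by have : x1 < (v : ℂ).re := hvx; linarith)) hp hpo (by show (p : ℂ).re < x0; linarith) hqo (by show ¬ (q : ℂ).re < x0; linarith) hpq
    exact ⟨e, he, s, hs, pl_hx_join_symm hj⟩

/-- **BOTTOM-TOP**: a `Z`-path of sites, inside the column `x0 + a ≤ re ≤ x1 - a`, from below the enlarged rectangle to above it ⟹ a `Z`-chord from `S2` to `S4` -/
theorem dlrq_cr24 {h : DelGood Y} {Q : (delMap h).Quad} (H : DlrqOk h Q x0 x1 y0 y1 a ρ) (hρ : 0 < ρ) (hd : VorDense Y (vorNbd (rswRect x0 x1 y0 y1) (10 * ρ)) ρ)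
    (ha : 0 ≤ a) (hy : y0 + a + 2 * ρ ≤ y1) {Z : Set Y}
    (hZ : ∀ v ∈ Z, x0 + a ≤ (v : ℂ).re ∧ (v : ℂ).re ≤ x1 - a ∧ y0 - 8 * ρ ≤ (v : ℂ).im ∧ (v : ℂ).im ≤ y1 + 8 * ρ)
    {p q : Y} (hp : p ∈ Z) (hpy : (p : ℂ).im < y0 - 3 * ρ) (hqy : y1 + 3 * ρ < (q : ℂ).im) (hpq : ReflTransGen (fun u v => (delMap h).Adj u v ∧ v ∈ Z) p q) : Q.Cr24 Z := by
  have hT := dls_isSph h
  have h1 : ∀ v ∈ Z, v ∉ (delMap h).Int Q.c.Left → (v : ℂ).im < y0 ∨ y1 < (v : ℂ).im := by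
    intro v hv hvI
    by_contra hc
    push Not at hc
    obtain ⟨k1, k2, -, -⟩ := hZ v hv
    exact hvI (H.ins' ⟨by linarith, by linarith, hc.1, hc.2⟩)
  have h2 : ∀ u v, u ∈ Z → v ∈ Z → (delMap h).Adj u v → (u : ℂ).im < y0 → ¬ y1 < (v : ℂ).im := by
    intro u v hu hv huv hux hvx
    obtain ⟨k1, k2, k3, k4⟩ := hZ u hu
    have h3 := dlrq_adj_le h hρ hd huv (dlrq_nbd_V (by linarith) (by positivity) (by linarith) (by linarith) k3 k4)
    have h4 := dlrq_im_le (v : ℂ) u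
    rw [norm_sub_rev] at h4
    linarith
  have hpo : p ∉ (delMap h).Int Q.c.Left := fun hc => by have := (H.box p (H.int_sub hc)).2.2.1; linarith
  have hqo : q ∉ (delMap h).VOf Q.c.Left := fun hc => by have := (H.box q hc).2.2.2; linarith
  obtain ⟨s, hs, e, he, hj⟩ := dlrq_cross hT Q.c (Z := Z) (A := Q.S2) (B := Q.S4) (Wz := fun v => (v : ℂ).im < y0) (Ez := fun v => y1 < (v : ℂ).im) (pl_qd_S2_verts Q) h1 h2
    (fun v hv hvc hvx => by
      obtain ⟨k1, k2, -, -⟩ := hZ v hv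
      exact H.pureS hvc k1 k2 (by have : (v : ℂ).im < y0 := hvx; linarith))
    (fun v hv hvc hvx => by
      obtain ⟨k1, k2, -, -⟩ := hZ v hv
      exact H.pureN hvc k1 k2 (by have : y1 < (v : ℂ).im := hvx; linarith)) hp hpo (by show (p : ℂ).im < y0; linarith) hqo (by show ¬ (q : ℂ).im < y0; linarith) hpq
  exact ⟨s, hs, e, he, hj⟩

end quad

end Claimed.Agent.R289
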