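-- KEEP
import Claimed.Agent.R289.Del.Main
import Claimed.Agent.R289.Del.GenPos
import Claimed.Agent.R289.Defs.Top

/-!
# Row 289 (S0537), box DEL, file Del/Strict : STRICT PATHS      (owner helper285, post of helper253; prefix `dels_`, defs `vorStrict vorOpen vorSide delsGap delsBk delsWh`)      0 sorry

CONSUMER: EXT (helper74) / `PvStrict` of `End.lean` (helper212): a path inside the black cells which is DISJOINT from the closed white cells (audit254 A7).
Deterministic, on a site set `Y : Set ℂ` and a set `A ⊆ Y` of "black" sites.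

* sec. 0  `vorStrict Y A = vorUn Y A \ vorUn Y (Y \ A)`;   `vorOpen Y a` the open cell (strictly closer to `a`);   `vorSide Y a b` the open side;   `delsGap a u x = |x-u|² - |x-a|²` (AFFINE in `x`)
* sec. 1  the gap: `dels_gap_lin`, `dels_lt_iff`, `dels_le_iff`
* sec. 2  open cells and open sides: convex, inside the cell, disjoint from the other cells, inside `vorStrict`;   **S3** `dels_pull`: `z ∈ C_a`, `α > 0` ⟹ `α a + β z ∈ vorOpen Y a`;   `dels_seg_strict`
* sec. 3  **S1**: `dels_two_tri` (both triangles of an edge of a bounded cell), `dels_side_nonempty` (LF, GP), `dels_edge : JoinedIn (vorStrict Y A ∩ (C_a ∪ C_b)) a b`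
* sec. 4  **S2**: chains `dels_chain : JoinedIn (vorStrict Y A ∩ vorUn Y S) a b`;   location `dels_un_nbd`
* sec. 5  end pieces: `dels_first_exit` (first exit of a segment from an open set), `dels_end`
* sec. 6  **S4** frozen bridge: `dels_white_eq`, `dels_black_eq`, `dels_frozen : pvBlack ω \ pvWhite ω = vorStrict (sites) (black sites)`;   `dels_vc` (the chain of `PvVC`), `dels_pvstrict` (`JoinedIn ⟹ PvStrict`)
-/

set_option autoImplicit false

namespace Claimed.Agent.R289

open Set Metric Claims.C0465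

/-! ## 0. definitions -/

/-- the points of the cells of `A` which lie in no cell of `Y \ A` -/
def vorStrict (Y A : Set ℂ) : Set ℂ := vorUn Y A \ vorUn Y (Y \ A)

/-- the open cell: strictly closer to `a` than to any other site -/
def vorOpen (Y : Set ℂ) (a : ℂ) : Set ℂ := {z | ∀ u ∈ Y, u ≠ a → ‖z - a‖ < ‖z - u‖}

/-- the open side of the cells of `a` and `b` -/
def vorSide (Y : Set ℂ) (a b : ℂ) : Set ℂ := {z | ‖z - a‖ = ‖z - b‖ ∧ ∀ u ∈ Y, u ≠ a → u ≠ b → ‖z - a‖ < ‖z - u‖}

/-- `|x - u|² - |x - a|²`, an affine function of `x` -/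
noncomputable def delsGap (a u x : ℂ) : ℝ := ‖x - u‖ ^ 2 - ‖x - a‖ ^ 2

theorem dels_eqns_cite : True := by
  have := @vorStrict.eq_1
  have := @vorOpen.eq_1
  have := @vorSide.eq_1
  have := @delsGap.eq_1
  trivial

/-! ## 1. the gap -/

theorem dels_gap_eq (a u x : ℂ) :
    delsGap a u x = (u.re ^ 2 + u.im ^ 2) - (a.re ^ 2 + a.im ^ 2) - 2 * (x.re * (u.re - a.re) + x.im * (u.im - a.im)) := by
  unfold delsGap
  rw [del_sq, del_sq]
  simp only [Complex.sub_re, Complex.sub_im]
  ring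

/-- the gap is affine -/
theorem dels_gap_lin (a u x y : ℂ) {α β : ℝ} (h : α + β = 1) : delsGap a u (α • x + β • y) = α * delsGap a u x + β * delsGap a u y := by
  rw [dels_gap_eq, dels_gap_eq, dels_gap_eq]
  have e1 : (α • x + β • y).re = α * x.re + β * y.re := by simp
  have e2 : (α • x + β • y).im = α * x.im + β * y.im := by simp
  rw [e1, e2]
  have hα : α = 1 - β := by linarith
  subst hα
  ring

theorem dels_lt_iff (a u x : ℂ) : ‖x - a‖ < ‖x - u‖ ↔ 0 < delsGap a u x := by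
  unfold delsGap
  rw [sub_pos]
  exact (pow_lt_pow_iff_left₀ (norm_nonneg _) (norm_nonneg _) two_ne_zero).symm

theorem dels_le_iff (a u x : ℂ) : ‖x - a‖ ≤ ‖x - u‖ ↔ 0 ≤ delsGap a u x := by
  unfold delsGap
  rw [sub_nonneg]
  exact (pow_le_pow_iff_left₀ (norm_nonneg _) (norm_nonneg _) two_ne_zero).symm

theorem dels_gap_self {a u : ℂ} (h : u ≠ a) : 0 < delsGap a u a := by
  rw [← dels_lt_iff, sub_self, norm_zero]
  exact norm_pos_iff.2 (sub_ne_zero.2 h.symm)

/-! ## 2. open cells, open sides -/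

theorem dels_open_subset_cell (Y : Set ℂ) (a : ℂ) : vorOpen Y a ⊆ vorCell Y a := fun z hz u hu => by
  by_cases h : u = a
  · rw [h]
  · exact (hz u hu h).le

theorem dels_self_mem_open (Y : Set ℂ) (a : ℂ) : a ∈ vorOpen Y a := fun u _ h => (dels_lt_iff a u a).2 (dels_gap_self h)

theorem dels_open_convex (Y : Set ℂ) (a : ℂ) : Convex ℝ (vorOpen Y a) := by
  intro x hx y hy α β hα hβ hαβ u hu hne
  have h1 := (dels_lt_iff a u x).1 (hx u hu hne)
  have h2 := (dels_lt_iff a u y).1 (hy u hu hne)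
  rw [dels_lt_iff, dels_gap_lin a u x y hαβ]
  rcases hα.eq_or_lt with h0 | h0
  · have : β = 1 := by linarith
    rw [← h0, this]; linarith
  · have := mul_pos h0 h1
    have := mul_nonneg hβ h2.le
    linarith

/-- a point of the open cell of a site lies in no other cell -/
theorem dels_open_notMem {Y : Set ℂ} {a v z : ℂ} (ha : a ∈ Y) (hz : z ∈ vorOpen Y a) (hv : v ∈ Y) (hva : v ≠ a) : z ∉ vorCell Y v :=
  fun h => absurd (h a ha) (not_le.2 (hz v hv hva))

theorem dels_open_strict {Y A : Set ℂ} (hA : A ⊆ Y) {a : ℂ} (ha : a ∈ A) : vorOpen Y a ⊆ vorStrict Y A := fun _ hz =>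
  ⟨⟨a, ha, dels_open_subset_cell Y a hz⟩, fun ⟨_, hv, hzv⟩ => dels_open_notMem (hA ha) hz hv.1 (fun h => hv.2 (h ▸ ha)) hzv⟩

theorem dels_side_symm {Y : Set ℂ} {a b z : ℂ} (h : z ∈ vorSide Y a b) : z ∈ vorSide Y b a :=
  ⟨h.1.symm, fun u hu h1 h2 => h.1 ▸ h.2 u hu h2 h1⟩

theorem dels_side_subset_left (Y : Set ℂ) (a b : ℂ) : vorSide Y a b ⊆ vorCell Y a := fun z hz u hu => by
  by_cases h1 : u = a
  · rw [h1]
  by_cases h2 : u = b
  · rw [h2]; exact hz.1.le
  exact (hz.2 u hu h1 h2).le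

theorem dels_side_subset_right (Y : Set ℂ) (a b : ℂ) : vorSide Y a b ⊆ vorCell Y b := fun _ hz =>
  dels_side_subset_left Y b a (dels_side_symm hz)

/-- a point of the open side lies in no third cell -/
theorem dels_side_notMem {Y : Set ℂ} {a b v z : ℂ} (ha : a ∈ Y) (hz : z ∈ vorSide Y a b) (hv : v ∈ Y) (hva : v ≠ a) (hvb : v ≠ b) : z ∉ vorCell Y v :=
  fun h => absurd (h a ha) (not_le.2 (hz.2 v hv hva hvb))

theorem dels_side_strict {Y A : Set ℂ} (hA : A ⊆ Y) {a b : ℂ} (ha : a ∈ A) (hb : b ∈ A) : vorSide Y a b ⊆ vorStrict Y A := fun _ hz =>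
  ⟨⟨a, ha, dels_side_subset_left Y a b hz⟩, fun ⟨_, hv, hzv⟩ =>
    dels_side_notMem (hA ha) hz hv.1 (fun h => hv.2 (h ▸ ha)) (fun h => hv.2 (h ▸ hb)) hzv⟩

/-- **S3**: pulling a point of the closed cell towards the site puts it into the open cell -/
theorem dels_pull {Y : Set ℂ} {a z : ℂ} (hz : z ∈ vorCell Y a) {α β : ℝ} (hα : 0 < α) (hβ : 0 ≤ β) (hαβ : α + β = 1) : α • a + β • z ∈ vorOpen Y a := by
  intro u hu hne
  rw [dels_lt_iff, dels_gap_lin a u a z hαβ]
  have h1 := mul_pos hα (dels_gap_self hne)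
  have h2 := mul_nonneg hβ ((dels_le_iff a u z).1 (hz u hu))
  linarith

/-- the form of the head: `a + t (z - a)`, `t < 1` -/
theorem dels_pull' {Y : Set ℂ} {a z : ℂ} (hz : z ∈ vorCell Y a) {t : ℝ} (h0 : 0 ≤ t) (h1 : t < 1) : a + (t : ℂ) * (z - a) ∈ vorOpen Y a := by
  have := dels_pull hz (α := 1 - t) (β := t) (by linarith) h0 (by ring)
  have e : (1 - t) • a + t • z = a + (t : ℂ) * (z - a) := by
    simp only [Complex.real_smul]; push_cast; ring
  rwa [e] at this

/-- the segment from the site to a point of its cell: all points but the last are in the open cell -/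
theorem dels_seg_open {Y : Set ℂ} {a z : ℂ} (hz : z ∈ vorCell Y a) : segment ℝ a z ⊆ vorOpen Y a ∪ {z} := by
  rintro _ ⟨α, β, hα, hβ, hαβ, rfl⟩
  rcases hα.eq_or_lt with h0 | h0
  · right
    have : β = 1 := by linarith
    rw [← h0, this]; simp
  · exact Or.inl (dels_pull hz h0 hβ hαβ)

theorem dels_seg_cell {Y : Set ℂ} {a z : ℂ} (hz : z ∈ vorCell Y a) : segment ℝ a z ⊆ vorCell Y a :=
  (vor_convex_cell Y a).segment_subset (vor_self_mem Y a) hz

/-- the segment from a black site to a strict point of its cell is strict -/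
theorem dels_seg_strict {Y A : Set ℂ} (hA : A ⊆ Y) {a z : ℂ} (ha : a ∈ A) (hz : z ∈ vorCell Y a) (hzs : z ∈ vorStrict Y A) :
    segment ℝ a z ⊆ vorStrict Y A ∩ vorCell Y a := fun w hw => by
  refine ⟨?_, dels_seg_cell hz hw⟩
  rcases dels_seg_open hz hw with h | h
  · exact dels_open_strict hA ha h
  · rw [mem_singleton_iff.1 h]; exact hzs

theorem dels_joined_site {Y A : Set ℂ} (hA : A ⊆ Y) {a z : ℂ} (ha : a ∈ A) (hz : z ∈ vorCell Y a) (hzs : z ∈ vorStrict Y A) :
    JoinedIn (vorStrict Y A ∩ vorCell Y a) a z := JoinedIn.of_segment_subset (dels_seg_strict hA ha hz hzs)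

/-! ## 3. S1: one edge -/

/-- a side of a bounded cell has a site on its right -/
theorem dels_exists_right {Y : Set ℂ} {a b : ℂ} (hbd : Bornology.IsBounded (vorCell Y a)) (hab : DelAdj Y a b) : ∃ c ∈ Y, vorDet a b c < 0 := by
  by_contra hno
  push Not at hno
  obtain ⟨ha, hb, hne, s₀, hs₀⟩ := del_adj_iff.1 hab
  obtain ⟨R, hR⟩ := hbd.subset_closedBall a
  have hmem : ∀ s, s ≤ s₀ → delBis a b s ∈ vorCell Y a := fun s hs =>
    (del_bis_mem_cell Y a b s).2 fun w hw => by
      have h1 := hs₀ w hw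
      have h2 := hno w hw
      nlinarith
  have hN : 0 < ‖b - a‖ := norm_pos_iff.2 (sub_ne_zero.2 hne.symm)
  have hd : ∀ s : ℝ, |s| * ‖b - a‖ ≤ ‖delBis a b s - a‖ + ‖b - a‖ := by
    intro s
    have e : (s : ℂ) * (Complex.I * (b - a)) = (delBis a b s - a) - (b - a) / 2 := by
      unfold delBis; ring
    have h1 : ‖(s : ℂ) * (Complex.I * (b - a))‖ = |s| * ‖b - a‖ := by
      rw [norm_mul, norm_mul, Complex.norm_I, one_mul, Complex.norm_real, Real.norm_eq_abs]
    have h2 : ‖(b - a) / 2‖ ≤ ‖b - a‖ := by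
      rw [norm_div]
      have : ‖(2 : ℂ)‖ = 2 := by simp
      rw [this]
      linarith
    rw [← h1, e]
    exact (norm_sub_le _ _).trans (by linarith)
  set s := min s₀ (-((|R| + ‖b - a‖) / ‖b - a‖ + 1)) with hs
  have h1 := hR (hmem s (min_le_left _ _))
  rw [Metric.mem_closedBall, dist_eq_norm] at h1
  have h2 := hd s
  have h3 : (|R| + ‖b - a‖) / ‖b - a‖ + 1 ≤ |s| := by
    have : s ≤ -((|R| + ‖b - a‖) / ‖b - a‖ + 1) := min_le_right _ _
    have h4 := neg_le_abs s
    linarith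
  have h4 : (|R| + ‖b - a‖) + ‖b - a‖ ≤ |s| * ‖b - a‖ := by
    have := mul_le_mul_of_nonneg_right h3 hN.le
    rw [add_mul, div_mul_cancel₀ _ hN.ne', one_mul] at this
    exact this
  linarith [le_abs_self R]

/-- both triangles of an edge of a bounded cell -/
theorem dels_two_tri {Y : Set ℂ} (lf : VorLF Y) {a b : ℂ} (hbd : Bornology.IsBounded (vorCell Y a)) (hab : DelAdj Y a b) :
    ∃ c c', DelTri Y a b c ∧ DelTri Y b a c' := by
  obtain ⟨c, hc⟩ := del_apex_exists lf hbd hab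
  obtain ⟨c₀, hc₀, hl⟩ := dels_exists_right hbd hab
  obtain ⟨c', hc'⟩ := del_exists_tri lf hab.symm hc₀ (by rw [del_det_swap]; linarith)
  exact ⟨c, c', hc, hc'⟩

/-- the middle of the side between two triangles lies on the open side -/
theorem dels_mid_mem {Y : Set ℂ} (gp : VorGP Y) {a b c c' : ℂ} (h : DelTri Y a b c) (h' : DelTri Y b a c') :
    delBis a b ((delS a b c' + delS a b c) / 2) ∈ vorSide Y a b := by
  have hlt := del_side_nondeg gp h h'
  refine ⟨del_bis_eq a b _, fun u hu hua hub => ?_⟩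
  have hdet : vorDet a b u ≠ 0 := gp.col a h.1 b h.2.1 u hu h.ne.1 hua.symm hub.symm
  have h1 : 2 * delS a b c * vorDet a b u ≤ delP a b u := h.mem_I u hu
  have h2 : 2 * delS a b c' * vorDet a b u ≤ delP a b u := h'.mem_I' u hu
  have key := del_key a b u ((delS a b c' + delS a b c) / 2)
  rw [← pow_lt_pow_iff_left₀ (norm_nonneg _) (norm_nonneg _) two_ne_zero]
  rcases lt_or_gt_of_ne hdet with hd | hd
  · nlinarith
  · nlinarith

/-- **the open side of a Delaunay edge of a bounded cell is not empty** -/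
theorem dels_side_nonempty {Y : Set ℂ} (lf : VorLF Y) (gp : VorGP Y) {a b : ℂ} (hbd : Bornology.IsBounded (vorCell Y a)) (hab : DelAdj Y a b) :
    (vorSide Y a b).Nonempty := by
  obtain ⟨c, c', hc, hc'⟩ := dels_two_tri lf hbd hab
  exact ⟨_, dels_mid_mem gp hc hc'⟩

/-- **S1**: two adjacent black sites are joined by a strict path inside their two cells (two segments through the open side) -/
theorem dels_edge {Y A : Set ℂ} (lf : VorLF Y) (gp : VorGP Y) (hA : A ⊆ Y) {a b : ℂ} (ha : a ∈ A) (hb : b ∈ A)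
    (hbd : Bornology.IsBounded (vorCell Y a)) (hab : DelAdj Y a b) : JoinedIn (vorStrict Y A ∩ (vorCell Y a ∪ vorCell Y b)) a b := by
  obtain ⟨m, hm⟩ := dels_side_nonempty lf gp hbd hab
  have hms := dels_side_strict hA ha hb hm
  have h1 := dels_joined_site hA ha (dels_side_subset_left Y a b hm) hms
  have h2 := dels_joined_site hA hb (dels_side_subset_right Y a b hm) hms
  exact (h1.mono (inter_subset_inter_right _ subset_union_left)).trans (h2.symm.mono (inter_subset_inter_right _ subset_union_right))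

/-! ## 4. S2: chains -/

theorem dels_site_strict {Y A : Set ℂ} (hA : A ⊆ Y) {a : ℂ} (ha : a ∈ A) : a ∈ vorStrict Y A := dels_open_strict hA ha (dels_self_mem_open Y a)

/-- **S2**: a chain of sites of `S ⊆ A`, consecutive cells touching, gives a strict path inside the cells of `S` -/
theorem dels_chain {Y A S : Set ℂ} (lf : VorLF Y) (gp : VorGP Y) (hA : A ⊆ Y) (hS : S ⊆ A) (hbd : ∀ v ∈ S, Bornology.IsBounded (vorCell Y v))
    {a b : ℂ} (ha : a ∈ S) (h : Relation.ReflTransGen (fun x y => y ∈ S ∧ (vorCell Y x ∩ vorCell Y y).Nonempty) a b) :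
    b ∈ S ∧ JoinedIn (vorStrict Y A ∩ vorUn Y S) a b := by
  induction h with
  | refl => exact ⟨ha, JoinedIn.refl ⟨dels_site_strict hA (hS ha), a, ha, vor_self_mem Y a⟩⟩
  | @tail x y _ hxy ih =>
    obtain ⟨hx, hj⟩ := ih
    refine ⟨hxy.1, hj.trans ?_⟩
    by_cases hne : x = y
    · rw [← hne]
      exact JoinedIn.refl ⟨dels_site_strict hA (hS hx), x, hx, vor_self_mem Y x⟩
    · refine (dels_edge lf gp hA (hS hx) (hS hxy.1) (hbd x hx) ⟨hA (hS hx), hA (hS hxy.1), hne, hxy.2⟩).mono ?_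
      refine inter_subset_inter_right _ ?_
      rintro z (hz | hz)
      · exact ⟨x, hx, hz⟩
      · exact ⟨y, hxy.1, hz⟩

/-- location of the cells of `S`: where the sites are `ρ`-dense the cells stay within `ρ` of their sites -/
theorem dels_un_nbd {Y S : Set ℂ} {ρ R : ℝ} (hρ : 0 ≤ ρ) (hR : ρ < R) (hd : ∀ v ∈ S, VorDense Y (closedBall v R) ρ) : vorUn Y S ⊆ vorNbd S ρ := by
  rintro z ⟨v, hv, hz⟩
  have := vor_cell_subset_ball hρ hR (hd v hv) hz
  rw [mem_closedBall, dist_eq_norm] at this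
  exact ⟨v, hv, this⟩

theorem dels_bdd_of_dense {Y : Set ℂ} {ρ R : ℝ} {v : ℂ} (hρ : 0 ≤ ρ) (hR : ρ < R) (hd : VorDense Y (closedBall v R) ρ) : Bornology.IsBounded (vorCell Y v) :=
  (vor_cell_compact hρ hR hd).isBounded

/-! ## 5. end pieces -/

/-- **first exit**: a segment which starts in an open set `D` and ends outside meets the frontier; up to the first such point it stays in `closure D` -/
theorem dels_first_exit {D : Set ℂ} (hD : IsOpen D) {a y : ℂ} (ha : a ∈ D) (hy : y ∉ D) :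
    ∃ z ∈ segment ℝ a y, z ∈ frontier D ∧ segment ℝ a z ⊆ closure D := by
  set γ : ℝ → ℂ := fun t => a + (t : ℂ) * (y - a) with hγ
  have hγc : Continuous γ := by fun_prop
  set T : Set ℝ := Icc 0 1 ∩ γ ⁻¹' Dᶜ with hT
  have hTc : IsClosed T := isClosed_Icc.inter (hD.isClosed_compl.preimage hγc)
  have hγ1 : γ 1 = y := by simp only [hγ]; push_cast; ring
  have h1T : (1 : ℝ) ∈ T := ⟨⟨zero_le_one, le_rfl⟩, by show γ 1 ∉ D; rw [hγ1]; exact hy⟩
  have hTb : BddBelow T := ⟨0, fun t ht => ht.1.1⟩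
  set t₀ := sInf T with ht₀
  have ht₀T : t₀ ∈ T := hTc.csInf_mem ⟨1, h1T⟩ hTb
  have hlt : ∀ t, 0 ≤ t → t < t₀ → γ t ∈ D := by
    intro t h0 hlt
    by_contra hcon
    exact absurd (csInf_le hTb (show t ∈ T from ⟨⟨h0, hlt.le.trans ht₀T.1.2⟩, hcon⟩)) (not_le.2 hlt)
  have ht₀pos : 0 < t₀ := by
    rcases ht₀T.1.1.eq_or_lt with h | h
    · exfalso
      have : γ t₀ ∉ D := ht₀T.2
      rw [← h] at this
      exact this (by simp only [hγ]; simpa using ha)
    · exact h
  have hcl : ∀ t, 0 ≤ t → t ≤ t₀ → γ t ∈ closure D := by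
    intro t h0 hle
    rcases hle.eq_or_lt with h | h
    · rw [h]
      have hmem : t₀ ∈ closure (Ico 0 t₀) := by
        rw [closure_Ico ht₀pos.ne]; exact ⟨ht₀pos.le, le_rfl⟩
      exact map_mem_closure hγc hmem fun s hs => hlt s hs.1 hs.2
    · exact subset_closure (hlt t h0 h)
  refine ⟨γ t₀, ?_, ?_, ?_⟩
  · refine ⟨1 - t₀, t₀, by linarith [ht₀T.1.2], ht₀pos.le, by ring, ?_⟩
    simp only [hγ, Complex.real_smul]; push_cast; ring
  · rw [frontier, hD.interior_eq]
    exact ⟨hcl t₀ ht₀pos.le le_rfl, ht₀T.2⟩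
  · rintro _ ⟨α, β, hα, hβ, hαβ, rfl⟩
    have e : α • a + β • γ t₀ = γ (β * t₀) := by
      have hα' : α = 1 - β := by linarith
      subst hα'
      simp only [hγ, Complex.real_smul]; push_cast; ring
    rw [e]
    exact hcl _ (mul_nonneg hβ ht₀pos.le) (by nlinarith)

/-- **end piece**: from a black site in `D` to the frontier of `D`, strictly, inside `closure D` and the open cell of the site -/
theorem dels_end {Y A D : Set ℂ} (hA : A ⊆ Y) (hD : IsOpen D) {a y : ℂ} (ha : a ∈ A) (haD : a ∈ D) (hy : y ∈ vorOpen Y a) (hyD : y ∉ D) :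
    ∃ z ∈ segment ℝ a y, z ∈ frontier D ∧ z ∈ vorOpen Y a ∧ JoinedIn (vorStrict Y A ∩ vorCell Y a ∩ closure D) a z := by
  obtain ⟨z, hz, hzF, hseg⟩ := dels_first_exit hD haD hyD
  have hzo : z ∈ vorOpen Y a := (dels_open_convex Y a).segment_subset (dels_self_mem_open Y a) hy hz
  refine ⟨z, hz, hzF, hzo, JoinedIn.of_segment_subset fun w hw => ⟨?_, hseg hw⟩⟩
  exact dels_seg_strict hA ha (dels_open_subset_cell Y a hzo) (dels_open_strict hA ha hzo) hw

/-- the same when the far point is only in the closed cell but off `closure D` -/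
theorem dels_end' {Y A D : Set ℂ} (hA : A ⊆ Y) (hD : IsOpen D) {a y : ℂ} (ha : a ∈ A) (haD : a ∈ D) (hy : y ∈ vorCell Y a) (hyD : y ∉ closure D) :
    ∃ z ∈ segment ℝ a y, z ∈ frontier D ∧ z ∈ vorOpen Y a ∧ JoinedIn (vorStrict Y A ∩ vorCell Y a ∩ closure D) a z := by
  obtain ⟨z, hz, hzF, hseg⟩ := dels_first_exit hD haD (fun h => hyD (subset_closure h))
  have hzo : z ∈ vorOpen Y a := by
    rcases dels_seg_open hy hz with h | h
    · exact h
    · rw [mem_singleton_iff.1 h] at hzF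
      exact absurd (frontier_subset_closure hzF) hyD
  refine ⟨z, hz, hzF, hzo, JoinedIn.of_segment_subset fun w hw => ⟨?_, hseg hw⟩⟩
  exact dels_seg_strict hA ha (dels_open_subset_cell Y a hzo) (dels_open_strict hA ha hzo) hw

/-! ## 6. S4: the frozen bridge -/

/-- the black sites of a coloured configuration (`rfl`-equal to `cfBk` of `Fkg.lean`, helper159, which is not imported here) -/
def delsBk (η : Conf PvPt) : Set ℂ := {v | (v, true) ∈ η.pts}

/-- the white sites of a coloured configuration (`rfl`-equal to `cfWh` of `Fkg.lean`) -/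
def delsWh (η : Conf PvPt) : Set ℂ := {v | (v, false) ∈ η.pts}

theorem dels_eqns_cite2 : True := by
  have := @delsBk.eq_1
  have := @delsWh.eq_1
  trivial

theorem dels_bk_subset (η : Conf PvPt) : delsBk η ⊆ cfSites η := fun v hv => ⟨(v, true), hv, rfl⟩

theorem dels_wh_subset (η : Conf PvPt) : delsWh η ⊆ cfSites η := fun v hv => ⟨(v, false), hv, rfl⟩

theorem dels_sites_eq (η : Conf PvPt) : cfSites η = delsBk η ∪ delsWh η := by
  refine Subset.antisymm ?_ (union_subset (dels_bk_subset η) (dels_wh_subset η))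
  rintro _ ⟨⟨v, c⟩, hp, rfl⟩
  cases c
  · exact Or.inr hp
  · exact Or.inl hp

/-- one colour per site: the white sites are the sites which are not black -/
theorem dels_wh_eq {η : Conf PvPt} (h1 : ∀ p ∈ η.pts, ∀ q ∈ η.pts, p.1 = q.1 → p.2 = q.2) : delsWh η = cfSites η \ delsBk η := by
  ext v
  constructor
  · intro hv
    exact ⟨dels_wh_subset η hv, fun hb => by simpa using h1 _ hv _ hb rfl⟩
  · rintro ⟨hv, hb⟩
    rw [dels_sites_eq] at hv
    exact hv.resolve_left hb

theorem dels_black_eq (ω : PVSample) : pvBlack ω = vorUn (cfSites (pvConf ω)) (delsBk (pvConf ω)) := by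
  rw [pvBlack_eq, cfBlack_eq_vor]; rfl

theorem dels_white_eq (ω : PVSample) : pvWhite ω = vorUn (cfSites (pvConf ω)) (delsWh (pvConf ω)) := by
  ext z
  simp only [pvWhite, vorUn, delsWh, mem_iUnion, mem_ofPred_eq, pvCell_eq, cfCell_eq_vor, exists_prop]
  constructor
  · rintro ⟨k, j, hj, hc, hz⟩
    refine ⟨pvSite ω k j, ⟨k, j, hj, ?_⟩, hz⟩
    rw [pvPt, hc]
  · rintro ⟨v, ⟨k, j, hj, he⟩, hz⟩
    have e1 : v = pvSite ω k j := congrArg Prod.fst he
    have e2 : false = (ω.2 (k, j)).2 := congrArg Prod.snd he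
    exact ⟨k, j, hj, e2.symm, e1 ▸ hz⟩

/-- **S4**: on the good samples the strict black set of the frozen model is `vorStrict` -/
theorem dels_frozen {ω : PVSample} (h1 : ∀ p ∈ (pvConf ω).pts, ∀ q ∈ (pvConf ω).pts, p.1 = q.1 → p.2 = q.2) :
    pvBlack ω \ pvWhite ω = vorStrict (cfSites (pvConf ω)) (delsBk (pvConf ω)) := by
  rw [dels_black_eq, dels_white_eq, dels_wh_eq h1]; rfl

theorem dels_frozen_ok {ω : PVSample} (h : DelgpOk ω) : pvBlack ω \ pvWhite ω = vorStrict (cfSites (pvConf ω)) (delsBk (pvConf ω)) :=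
  dels_frozen h.cf.one

/-- the chain of `PvVC` gives a strict path inside the cells of the black sites of `W` -/
theorem dels_vc {η : Conf PvPt} (lf : VorLF (cfSites η)) (gp : VorGP (cfSites η)) {W : Set ℂ}
    (hbd : ∀ v, PvBk η W v → Bornology.IsBounded (vorCell (cfSites η) v)) {u v : ℂ} (hu : PvBk η W u)
    (h : Relation.ReflTransGen (fun a b => PvBk η W b ∧ (cfCell η a ∩ cfCell η b).Nonempty) u v) :
    PvBk η W v ∧ JoinedIn (vorStrict (cfSites η) (delsBk η) ∩ vorUn (cfSites η) {w | PvBk η W w}) u v := by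
  refine dels_chain (S := {w | PvBk η W w}) lf gp (dels_bk_subset η) (fun w hw => hw.1) hbd hu ?_
  refine Relation.ReflTransGen.mono (fun a b hab => ?_) _ _ h
  rw [cfCell_eq_vor, cfCell_eq_vor] at hab
  exact hab

/-- **`JoinedIn ⟹ PvStrict`** -/
theorem dels_pvstrict {D : Set ℂ} {d : ℂ} {ψ : ℂ → ℂ} {x : ℝ} {ω : PVSample} {F : Set ℂ} (hF : F ⊆ closure D ∩ (pvBlack ω \ pvWhite ω)) {p q : ℂ}
    (hp : p ∈ pvArcL D d ψ x) (hq : q ∈ pvArcR D d ψ) (h : JoinedIn F p q) : PvStrict D d ψ x ω := by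
  obtain ⟨γ, hγ⟩ := h
  refine ⟨γ.extend, γ.continuous_extend.continuousOn, fun t ht => ?_, by rw [γ.extend_zero]; exact hp, by rw [γ.extend_one]; exact hq⟩
  rw [γ.extend_apply ht]
  have := hF (hγ ⟨t, ht⟩)
  exact ⟨this.1, this.2.1, this.2.2⟩

end Claimed.Agent.R289
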