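import Claimed.Agent.R289.Del.Plane
import Claimed.Agent.R289.Del.Tile
import Claimed.Agent.R289.Pl.Bond

/-!
# Row 289 (S0537), box DEL-ORD, file Del/Wind : WHERE IS `Cyc.Left` IN THE PLANE?   DISCRETE GREEN FORMULA FOR RAY CROSSINGS      (owner helper253; prefix `delw_`, `Delw`, defs `delChi`, `delWn`)

`Cyc.Left` of `Pl/Defs` is combinatorial (dual connectivity).  This file ties it to the geometry, without Jordan curve theorem, angles or homotopy.      TEX[Cardy:lemma:mesh] (iv) ("in its cyclic order"), TEX[Cardy:intro:geometry] ("the same planar orders").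
* `delChi z a b ∈ {-1,0,1}`   signed crossing of the horizontal ray `{z + t : t > 0}` by the directed edge `a → b` (half-open rule in the ordinate; the side is read from `vorDet a b z`); antisymmetric
* `delw_tri`    positively oriented triangle `a b c`:  `χ(a,b) + χ(b,c) + χ(c,a)` is `1` if `z ∈ delTo a b c`, and it is `0` unless `z ∈ delT a b c` (then it is `1`)
* `delw_green`  `T : PvMap`, `IsSph`, `c : T.Cyc`, `Left` finite, `f` antisymmetric:  `∑_{d ∈ Left} f d = ∑_{i<n} f (c.e i)`
* `delWn pos c z` the winding number of the polygon `pos ∘ c` round `z` (ray crossings);   `delw_wn_three`: `3 · delWn = ∑_{d ∈ Left} (sum over the face of d)`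
* **`delw_wn_nonneg`**, **`delw_wn_out`** (`z` in no closed face of `Left` ⟹ `0`), **`delw_wn_in`** (`z` in an open face of `Left`, no other closed face of `Left` contains `z` ⟹ `1`)
* Delaunay instance (`delPl h`): `delw_del_in`, `delw_del_out`
* sec. 6  calculus of `delChi` for the order / orientation arguments of `Del/Ord.lean`: two base points on one horizontal line, edges inside a half plane, telescoping along a path
-/

set_option autoImplicit false

namespace Claimed.Agent.R289

open Set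

/-! ## 1. the abstract triangle lemma (real arithmetic).   `p q r` = the three sub-determinants, `α β γ` = the three ordinates, `y` = ordinate of the base point -/

open Classical in
/-- abstract signed crossing -/
noncomputable def delChiR (α β y r : ℝ) : ℤ :=
  if α ≤ y ∧ y < β ∧ 0 < r then 1 else if β ≤ y ∧ y < α ∧ r < 0 then -1 else 0

theorem delw_chiR_up {α β y r : ℝ} (h1 : α ≤ y) (h2 : y < β) : delChiR α β y r = if 0 < r then 1 else 0 := by
  unfold delChiR
  by_cases hr : 0 < r
  · rw [if_pos ⟨h1, h2, hr⟩, if_pos hr]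
  · rw [if_neg (fun h => hr h.2.2), if_neg (fun h => absurd h.1 (not_le.2 h2)), if_neg hr]

theorem delw_chiR_down {α β y r : ℝ} (h1 : β ≤ y) (h2 : y < α) : delChiR α β y r = if r < 0 then -1 else 0 := by
  unfold delChiR
  rw [if_neg (fun h => absurd h.1 (not_le.2 h2))]
  by_cases hr : r < 0
  · rw [if_pos ⟨h1, h2, hr⟩, if_pos hr]
  · rw [if_neg (fun h => hr h.2.2), if_neg hr]

theorem delw_chiR_low {α β y r : ℝ} (h1 : α ≤ y) (h2 : β ≤ y) : delChiR α β y r = 0 := by
  unfold delChiR
  rw [if_neg (fun h => absurd h.2.1 (not_lt.2 h2)), if_neg (fun h => absurd h.2.1 (not_lt.2 h1))]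

theorem delw_chiR_high {α β y r : ℝ} (h1 : y < α) (h2 : y < β) : delChiR α β y r = 0 := by
  unfold delChiR
  rw [if_neg (fun h => absurd h.1 (not_le.2 h1)), if_neg (fun h => absurd h.1 (not_le.2 h2))]

/-- one vertex below, two above -/
theorem delw_chiR_case1 {p q r D α β γ y : ℝ} (hD : 0 < D) (hS : p + q + r = D) (hY : D * y = p * α + q * β + r * γ)
    (ha : α ≤ y) (hb : y < β) (hc : y < γ) :
    delChiR α β y r + delChiR β γ y p + delChiR γ α y q = if 0 < r ∧ 0 ≤ q then 1 else 0 := by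
  rw [delw_chiR_up ha hb, delw_chiR_high hb hc, delw_chiR_down ha hc]
  have h0 : p * (y - α) = q * (β - y) + r * (γ - y) := by subst hS; linarith
  have key : q < 0 → 0 < r := by
    intro hq
    by_contra hr
    rw [not_lt] at hr
    have hp : 0 < p := by linarith
    nlinarith [mul_nonneg hp.le (sub_nonneg.2 ha), mul_pos (neg_pos.2 hq) (sub_pos.2 hb), mul_nonneg (neg_nonneg.2 hr) (sub_pos.2 hc).le]
  by_cases hr : 0 < r <;> by_cases hq : q < 0
  · rw [if_pos hr, if_pos hq, if_neg (fun h => absurd h.2 (not_le.2 hq))]; norm_num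
  · rw [if_pos hr, if_neg hq, if_pos ⟨hr, not_lt.1 hq⟩]; norm_num
  · exact absurd (key hq) hr
  · rw [if_neg hr, if_neg hq, if_neg (fun h => hr h.1)]; norm_num

/-- one vertex above, two below -/
theorem delw_chiR_case2 {p q r D α β γ y : ℝ} (hD : 0 < D) (hS : p + q + r = D) (hY : D * y = p * α + q * β + r * γ)
    (ha : y < α) (hb : β ≤ y) (hc : γ ≤ y) :
    delChiR α β y r + delChiR β γ y p + delChiR γ α y q = if 0 < q ∧ 0 ≤ r then 1 else 0 := by
  rw [delw_chiR_down hb ha, delw_chiR_low hb hc, delw_chiR_up hc ha]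
  have h0 : p * (y - α) = q * (β - y) + r * (γ - y) := by subst hS; linarith
  have key : r < 0 → 0 < q := by
    intro hr
    by_contra hq
    rw [not_lt] at hq
    have hp : 0 < p := by linarith
    nlinarith [mul_pos hp (sub_pos.2 ha), mul_nonneg (neg_nonneg.2 hq) (sub_nonneg.2 hb), mul_nonneg (neg_pos.2 hr).le (sub_nonneg.2 hc)]
  by_cases hq : 0 < q <;> by_cases hr : r < 0
  · rw [if_pos hq, if_pos hr, if_neg (fun h => absurd h.2 (not_le.2 hr))]; norm_num
  · rw [if_pos hq, if_neg hr, if_pos ⟨hq, not_lt.1 hr⟩]; norm_num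
  · exact absurd (key hr) hq
  · rw [if_neg hq, if_neg hr, if_neg (fun h => hq h.1)]; norm_num

/-- the statement for one triangle, abstract form -/
def DelwTri (p q r α β γ y : ℝ) : Prop :=
  (0 < p → 0 < q → 0 < r → delChiR α β y r + delChiR β γ y p + delChiR γ α y q = 1) ∧
  (delChiR α β y r + delChiR β γ y p + delChiR γ α y q ≠ 0 → (0 ≤ p ∧ 0 ≤ q ∧ 0 ≤ r) ∧ delChiR α β y r + delChiR β γ y p + delChiR γ α y q = 1)

theorem DelwTri.rot {p q r α β γ y : ℝ} (h : DelwTri q r p β γ α y) : DelwTri p q r α β γ y := by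
  have e : delChiR α β y r + delChiR β γ y p + delChiR γ α y q = delChiR β γ y p + delChiR γ α y q + delChiR α β y r := by ring
  unfold DelwTri
  rw [e]
  exact ⟨fun hp hq hr => h.1 hq hr hp, fun hne => ⟨⟨(h.2 hne).1.2.2, (h.2 hne).1.1, (h.2 hne).1.2.1⟩, (h.2 hne).2⟩⟩

theorem delw_chiTri_case1 {p q r D α β γ y : ℝ} (hD : 0 < D) (hS : p + q + r = D) (hY : D * y = p * α + q * β + r * γ)
    (ha : α ≤ y) (hb : y < β) (hc : y < γ) : DelwTri p q r α β γ y := by
  have h0 : p * (y - α) = q * (β - y) + r * (γ - y) := by subst hS; linarith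
  unfold DelwTri
  rw [delw_chiR_case1 hD hS hY ha hb hc]
  refine ⟨fun _ hq hr => if_pos ⟨hr, hq.le⟩, fun hne => ?_⟩
  by_cases h : 0 < r ∧ 0 ≤ q
  · refine ⟨⟨?_, h.2, h.1.le⟩, if_pos h⟩
    by_contra hp
    rw [not_le] at hp
    nlinarith [mul_nonneg (neg_pos.2 hp).le (sub_nonneg.2 ha), mul_nonneg h.2 (sub_pos.2 hb).le, mul_pos h.1 (sub_pos.2 hc)]
  · exact absurd (if_neg h) hne

theorem delw_chiTri_case2 {p q r D α β γ y : ℝ} (hD : 0 < D) (hS : p + q + r = D) (hY : D * y = p * α + q * β + r * γ)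
    (ha : y < α) (hb : β ≤ y) (hc : γ ≤ y) : DelwTri p q r α β γ y := by
  have h0 : p * (y - α) = q * (β - y) + r * (γ - y) := by subst hS; linarith
  unfold DelwTri
  rw [delw_chiR_case2 hD hS hY ha hb hc]
  refine ⟨fun _ hq hr => if_pos ⟨hq, hr.le⟩, fun hne => ?_⟩
  by_cases h : 0 < q ∧ 0 ≤ r
  · refine ⟨⟨?_, h.1.le, h.2⟩, if_pos h⟩
    by_contra hp
    rw [not_le] at hp
    nlinarith [mul_pos (neg_pos.2 hp) (sub_pos.2 ha), mul_nonneg h.1.le (sub_nonneg.2 hb), mul_nonneg h.2 (sub_nonneg.2 hc)]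
  · exact absurd (if_neg h) hne

theorem delw_chiTri_all {p q r D α β γ y : ℝ} (hD : 0 < D) (hS : p + q + r = D) (hY : D * y = p * α + q * β + r * γ)
    (hne : ¬ (α = y ∧ β = y ∧ γ = y)) : DelwTri p q r α β γ y := by
  have h0 : p * (y - α) = q * (β - y) + r * (γ - y) := by subst hS; linarith
  have hS1 : q + r + p = D := by linarith
  have hY1 : D * y = q * β + r * γ + p * α := by linarith
  have hS2 : r + p + q = D := by linarith
  have hY2 : D * y = r * γ + p * α + q * β := by linarith
  rcases le_or_gt α y with ha | ha <;> rcases le_or_gt β y with hb | hb <;> rcases le_or_gt γ y with hc | hc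
  · -- all low
    unfold DelwTri
    rw [delw_chiR_low ha hb, delw_chiR_low hb hc, delw_chiR_low hc ha]
    refine ⟨fun hp hq hr => ?_, fun h => absurd rfl h⟩
    exfalso
    apply hne
    have t1 := mul_nonneg hp.le (sub_nonneg.2 ha)
    have t2 := mul_nonneg hq.le (sub_nonneg.2 hb)
    have t3 := mul_nonneg hr.le (sub_nonneg.2 hc)
    have z1 : p * (y - α) = 0 := by nlinarith
    have z2 : q * (y - β) = 0 := by nlinarith
    have z3 : r * (y - γ) = 0 := by nlinarith
    refine ⟨?_, ?_, ?_⟩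
    · rcases mul_eq_zero.1 z1 with h | h <;> linarith
    · rcases mul_eq_zero.1 z2 with h | h <;> linarith
    · rcases mul_eq_zero.1 z3 with h | h <;> linarith
  · -- c high
    exact (delw_chiTri_case2 hD hS2 hY2 hc ha hb).rot.rot
  · -- b high
    exact (delw_chiTri_case2 hD hS1 hY1 hb hc ha).rot
  · -- a low
    exact delw_chiTri_case1 hD hS hY ha hb hc
  · -- a high
    exact delw_chiTri_case2 hD hS hY ha hb hc
  · -- b low
    exact (delw_chiTri_case1 hD hS1 hY1 hb hc ha).rot
  · -- c low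
    exact (delw_chiTri_case1 hD hS2 hY2 hc ha hb).rot.rot
  · -- all high
    unfold DelwTri
    rw [delw_chiR_high ha hb, delw_chiR_high hb hc, delw_chiR_high hc ha]
    refine ⟨fun hp hq hr => ?_, fun h => absurd rfl h⟩
    exfalso
    nlinarith [mul_pos hp (sub_pos.2 ha), mul_pos hq (sub_pos.2 hb), mul_pos hr (sub_pos.2 hc)]

theorem delw_eqns_cite1 : True := by
  have := @delChiR.eq_1
  have := @DelwTri.eq_1
  trivial

/-! ## 2. the crossing number of an edge -/

/-- signed crossing of the horizontal ray issued from `z` by the directed edge `a → b` -/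
noncomputable def delChi (z a b : ℂ) : ℤ := delChiR a.im b.im z.im (vorDet a b z)

theorem delw_eqns_cite2 : True := by
  have := @delChi.eq_1
  trivial

theorem delw_chiR_anti (α β y r : ℝ) : delChiR β α y (-r) = - delChiR α β y r := by
  rcases le_or_gt α y with ha | ha <;> rcases le_or_gt β y with hb | hb
  · rw [delw_chiR_low ha hb, delw_chiR_low hb ha, neg_zero]
  · rw [delw_chiR_up ha hb, delw_chiR_down ha hb]
    by_cases hr : 0 < r
    · rw [if_pos hr, if_pos (neg_lt_zero.2 hr)]
    · rw [if_neg hr, if_neg (fun h => hr (neg_lt_zero.1 h)), neg_zero]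
  · rw [delw_chiR_down hb ha, delw_chiR_up hb ha]
    by_cases hr : r < 0
    · rw [if_pos hr, if_pos (neg_pos.2 hr), neg_neg]
    · rw [if_neg hr, if_neg (fun h => hr (neg_pos.1 h)), neg_zero]
  · rw [delw_chiR_high ha hb, delw_chiR_high hb ha, neg_zero]

theorem delw_chi_anti (z a b : ℂ) : delChi z b a = - delChi z a b := by
  unfold delChi
  rw [del_det_swap, delw_chiR_anti]

/-- **the triangle lemma** -/
theorem delw_tri {a b c : ℂ} (h : 0 < vorDet a b c) (z : ℂ) :
    (z ∈ delTo a b c → delChi z a b + delChi z b c + delChi z c a = 1) ∧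
    (delChi z a b + delChi z b c + delChi z c a ≠ 0 → z ∈ delT a b c ∧ delChi z a b + delChi z b c + delChi z c a = 1) := by
  have hne : ¬ (a.im = z.im ∧ b.im = z.im ∧ c.im = z.im) := by
    rintro ⟨h1, h2, h3⟩
    unfold vorDet at h
    rw [h1, h2, h3] at h
    simp at h
  have key := delw_chiTri_all (p := vorDet b c z) (q := vorDet c a z) (r := vorDet a b z) (α := a.im) (β := b.im) (γ := c.im) (y := z.im) h
    (by have := dela_det_sum a b c z; linarith) (by unfold vorDet; ring) hne
  unfold delChi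
  exact ⟨fun hz => key.1 hz.2.1 hz.2.2 hz.1, fun h0 => ⟨⟨(key.2 h0).1.2.2, (key.2 h0).1.1, (key.2 h0).1.2.1⟩, (key.2 h0).2⟩⟩

theorem delw_tri_nonneg {a b c : ℂ} (h : 0 < vorDet a b c) (z : ℂ) : 0 ≤ delChi z a b + delChi z b c + delChi z c a := by
  by_cases h0 : delChi z a b + delChi z b c + delChi z c a = 0
  · rw [h0]
  · rw [((delw_tri h z).2 h0).2]; norm_num

/-! ## 3. Green formula on a disc of a `PvMap` -/

section green

variable {V D : Type} {T : PvMap V D}

/-- antisymmetric edge functions: the sum over the darts of the disc is the sum along the boundary cycle -/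
theorem delw_green {G : Type*} [AddCommGroup G] (hT : T.IsSph) (c : T.Cyc) (hfin : c.Left.Finite) (f : D → G) (hs : ∀ d, f (T.opp d) = - f d) :
    ∑ d ∈ hfin.toFinset, f d = ∑ i ∈ Finset.range c.n, f (c.e i) := by
  classical
  obtain ⟨j1, j2, j3, j4⟩ := pl_jordan hT c
  rw [← Finset.sum_filter_add_sum_filter_not hfin.toFinset (fun d => T.opp d ∈ c.Left)]
  have h1 : ∑ d ∈ hfin.toFinset.filter (fun d => T.opp d ∈ c.Left), f d = 0 := by
    refine Finset.sum_involution (fun d _ => T.opp d) (fun d _ => ?_) (fun d _ _ => T.opp_ne_self d) (fun d hd => ?_) (fun d _ => T.opp_opp d)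
    · rw [hs d]; exact add_neg_cancel _
    · rw [Finset.mem_filter, Set.Finite.mem_toFinset] at hd ⊢
      rw [T.opp_opp]
      exact ⟨hd.2, hd.1⟩
  rw [h1, zero_add]
  have h2 : hfin.toFinset.filter (fun d => ¬ T.opp d ∈ c.Left) = (Finset.range c.n).image c.e := by
    ext d
    rw [Finset.mem_filter, Set.Finite.mem_toFinset, Finset.mem_image]
    constructor
    · rintro ⟨hd, hd'⟩
      have hB : T.Bd c.Left d := fun h => hd' (h.1 hd)
      rcases (j4 d).1 hB with ⟨i, rfl⟩ | ⟨i, hi⟩
      · exact ⟨i % c.n, Finset.mem_range.2 (Nat.mod_lt _ (pl_cyc_pos c)), pl_cyc_mod c i⟩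
      · exact absurd (hi ▸ j2 i) hd'
    · rintro ⟨i, -, rfl⟩
      refine ⟨j2 i, fun h => ?_⟩
      have := j3 i
      rw [j1] at this
      exact this h
  rw [h2, Finset.sum_image]
  intro i hi j hj hij
  exact c.inj i j (Finset.mem_range.1 hi) (Finset.mem_range.1 hj) (by rw [hij])

/-- `nxt` permutes a finite face set -/
theorem delw_sum_nxt {G : Type*} [AddCommMonoid G] {A : Set D} (hA : T.FaceSet A) (hfin : A.Finite) (f : D → G) : ∑ d ∈ hfin.toFinset, f (T.nxt d) = ∑ d ∈ hfin.toFinset, f d := by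
  refine Finset.sum_bij (fun d _ => T.nxt d) (fun d hd => ?_) (fun a _ b _ hab => T.nxt_injective hab) (fun b hb => ?_) (fun _ _ => rfl)
  · rw [Set.Finite.mem_toFinset] at hd ⊢
    exact (hA d).2 hd
  · rw [Set.Finite.mem_toFinset] at hb
    refine ⟨T.nxt (T.nxt b), ?_, T.nxt3 b⟩
    rw [Set.Finite.mem_toFinset]
    exact (hA.nxt2 T b).2 hb

/-- **Stokes on a disc**: three times the sum of an antisymmetric edge function along the boundary cycle is the sum over the darts of the disc of the face sums -/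
theorem delw_stokes {G : Type*} [AddCommGroup G] (hT : T.IsSph) (c : T.Cyc) (hfin : c.Left.Finite) (f : D → G) (hs : ∀ d, f (T.opp d) = - f d) :
    (3 : ℕ) • ∑ i ∈ Finset.range c.n, f (c.e i) = ∑ d ∈ hfin.toFinset, (f d + f (T.nxt d) + f (T.nxt (T.nxt d))) := by
  have hA := pl_left_face c
  have h0 := delw_green hT c hfin f hs
  have h1 := delw_sum_nxt hA hfin f
  have h2 := delw_sum_nxt hA hfin (fun d => f (T.nxt d))
  rw [Finset.sum_add_distrib, Finset.sum_add_distrib, h2, h1, h0]
  abel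

/-! ## 4. embedded maps: the winding number of a cycle -/

variable (T) in
/-- the crossing number of a dart for the positions `pos` -/
noncomputable def delwF (pos : V → ℂ) (z : ℂ) (d : D) : ℤ := delChi z (pos (T.src d)) (pos (T.tgt d))

variable (T) in
/-- the sum over the face of a dart -/
noncomputable def delwTau (pos : V → ℂ) (z : ℂ) (d : D) : ℤ := delwF T pos z d + delwF T pos z (T.nxt d) + delwF T pos z (T.nxt (T.nxt d))

/-- the winding number (ray crossings) of the polygon `pos ∘ c` round `z` -/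
noncomputable def delWn (pos : V → ℂ) (c : T.Cyc) (z : ℂ) : ℤ := ∑ i ∈ Finset.range c.n, delwF T pos z (c.e i)

theorem delw_eqns_cite3 : True := by
  have := @delwF.eq_1
  have := @delwTau.eq_1
  have := @delWn.eq_1
  trivial

theorem delw_F_opp (pos : V → ℂ) (z : ℂ) (d : D) : delwF T pos z (T.opp d) = - delwF T pos z d := by
  unfold delwF
  rw [T.src_opp', T.tgt_opp, delw_chi_anti]

theorem delw_tau_eq (pos : V → ℂ) (z : ℂ) (d : D) :
    delwTau T pos z d = delChi z (pos (T.src d)) (pos (T.tgt d)) + delChi z (pos (T.tgt d)) (pos (T.apex d)) + delChi z (pos (T.apex d)) (pos (T.src d)) := by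
  unfold delwTau delwF
  rw [T.src_nxt, T.tgt_nxt, T.src_nxt2, T.tgt_nxt2]

/-- **discrete Green formula for the winding number** -/
theorem delw_wn_three (hT : T.IsSph) (pos : V → ℂ) (c : T.Cyc) (hfin : c.Left.Finite) (z : ℂ) :
    3 * delWn pos c z = ∑ d ∈ hfin.toFinset, delwTau T pos z d := by
  have hA := pl_left_face c
  have h0 := delw_green hT c hfin (delwF T pos z) (delw_F_opp pos z)
  have h1 := delw_sum_nxt hA hfin (delwF T pos z)
  have h2 := delw_sum_nxt hA hfin (fun d => delwF T pos z (T.nxt d))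
  unfold delWn delwTau
  rw [Finset.sum_add_distrib, Finset.sum_add_distrib, h2, h1, h0]
  ring

/-- the faces of `A` are positively oriented triangles -/
def DelwPos (T : PvMap V D) (pos : V → ℂ) (A : Set D) : Prop := ∀ d ∈ A, 0 < vorDet (pos (T.src d)) (pos (T.tgt d)) (pos (T.apex d))

theorem delw_eqns_cite4 : True := by
  have := @DelwPos.eq_1
  trivial

theorem delw_wn_nonneg (hT : T.IsSph) {pos : V → ℂ} (c : T.Cyc) (hfin : c.Left.Finite) (hp : DelwPos T pos c.Left) (z : ℂ) : 0 ≤ delWn pos c z := by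
  have h := delw_wn_three hT pos c hfin z
  have h2 : 0 ≤ ∑ d ∈ hfin.toFinset, delwTau T pos z d := Finset.sum_nonneg fun d hd => by
    rw [delw_tau_eq]
    exact delw_tri_nonneg (hp d (hfin.mem_toFinset.1 hd)) z
  omega

/-- a point outside all the closed faces of the disc has winding number `0` -/
theorem delw_wn_out (hT : T.IsSph) {pos : V → ℂ} (c : T.Cyc) (hfin : c.Left.Finite) (hp : DelwPos T pos c.Left) {z : ℂ}
    (hz : ∀ d ∈ c.Left, z ∉ delT (pos (T.src d)) (pos (T.tgt d)) (pos (T.apex d))) : delWn pos c z = 0 := by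
  have h := delw_wn_three hT pos c hfin z
  have h2 : ∑ d ∈ hfin.toFinset, delwTau T pos z d = 0 := Finset.sum_eq_zero fun d hd => by
    rw [delw_tau_eq]
    by_contra h0
    exact hz d (hfin.mem_toFinset.1 hd) ((delw_tri (hp d (hfin.mem_toFinset.1 hd)) z).2 h0).1
  omega

/-- a point of an open face of the disc which lies in no other closed face of the disc has winding number `1` -/
theorem delw_wn_in (hT : T.IsSph) {pos : V → ℂ} (c : T.Cyc) (hfin : c.Left.Finite) (hp : DelwPos T pos c.Left) {z : ℂ} {d₀ : D} (hd₀ : d₀ ∈ c.Left)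
    (hz₀ : z ∈ delTo (pos (T.src d₀)) (pos (T.tgt d₀)) (pos (T.apex d₀)))
    (hz : ∀ d ∈ c.Left, z ∈ delT (pos (T.src d)) (pos (T.tgt d)) (pos (T.apex d)) → T.SF d₀ d) : delWn pos c z = 1 := by
  classical
  have hA := pl_left_face c
  have h := delw_wn_three hT pos c hfin z
  have hsub : ({d₀, T.nxt d₀, T.nxt (T.nxt d₀)} : Finset D) ⊆ hfin.toFinset := by
    intro d hd
    rw [Set.Finite.mem_toFinset]
    simp only [Finset.mem_insert, Finset.mem_singleton] at hd
    rcases hd with rfl | rfl | rfl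
    · exact hd₀
    · exact (hA _).2 hd₀
    · exact (hA.nxt2 T _).2 hd₀
  have h2 : ∑ d ∈ hfin.toFinset, delwTau T pos z d = ∑ d ∈ ({d₀, T.nxt d₀, T.nxt (T.nxt d₀)} : Finset D), delwTau T pos z d := by
    refine (Finset.sum_subset hsub fun d hd hd' => ?_).symm
    by_contra h0
    rw [delw_tau_eq] at h0
    have hdL := hfin.mem_toFinset.1 hd
    have := hz d hdL ((delw_tri (hp d hdL) z).2 h0).1
    apply hd'
    simp only [Finset.mem_insert, Finset.mem_singleton]
    exact this
  have t0 : delwTau T pos z d₀ = 1 := by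
    rw [delw_tau_eq]; exact (delw_tri (hp d₀ hd₀) z).1 hz₀
  have t1 : delwTau T pos z (T.nxt d₀) = 1 := by
    rw [← t0]; unfold delwTau; rw [T.nxt3]; ring
  have t2 : delwTau T pos z (T.nxt (T.nxt d₀)) = 1 := by
    rw [← t0]; unfold delwTau; rw [T.nxt3]; ring
  have n1 : d₀ ≠ T.nxt d₀ := fun e => T.src_ne d₀ (by rw [← e])
  have n2 : d₀ ≠ T.nxt (T.nxt d₀) := fun e => T.apex_ne_src d₀ (by unfold PvMap.apex; rw [← e])
  have n3 : T.nxt d₀ ≠ T.nxt (T.nxt d₀) := fun e => n1 (T.nxt_injective e)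
  rw [h2, Finset.sum_insert (by simp [n1, n2]), Finset.sum_insert (by simp [n3]), Finset.sum_singleton, t0, t1, t2] at h
  omega

end green

/-! ## 5. the Delaunay triangulation of the plane -/

section del

variable {Y : Set ℂ} (h : DelGood Y)

/-- the face of a dart is a Delaunay triangle -/
theorem delw_del_tri (d : (delPl h).Dart) :
    DelTri Y ((delPl h).toMap.src d : ℂ) ((delPl h).toMap.tgt d : ℂ) ((delPl h).toMap.apex d : ℂ) := delp_apex_spec h d.2

theorem delw_del_pos (A : Set (delPl h).Dart) : DelwPos (delPl h).toMap (Subtype.val : ↥Y → ℂ) A := fun d _ => (delw_del_tri h d).2.2.2.1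

/-- two faces one of which contains in its interior a point of the other (closed) are equal -/
theorem delw_del_sf {z : ℂ} {d₀ d : (delPl h).Dart}
    (hz₀ : z ∈ delTo ((delPl h).toMap.src d₀ : ℂ) ((delPl h).toMap.tgt d₀ : ℂ) ((delPl h).toMap.apex d₀ : ℂ))
    (hz : z ∈ delT ((delPl h).toMap.src d : ℂ) ((delPl h).toMap.tgt d : ℂ) ((delPl h).toMap.apex d : ℂ)) : (delPl h).toMap.SF d₀ d := by
  have hS := (delPl h).toMap_simple
  rcases del_T2 h.gp (delw_del_tri h d₀) (delw_del_tri h d) hz₀ hz with ⟨e1, e2, -⟩ | ⟨e1, e2, -⟩ | ⟨e1, e2, -⟩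
  · exact Or.inl (hS _ _ (Subtype.ext e1) (Subtype.ext e2))
  · refine Or.inr (Or.inl (hS _ _ ?_ ?_))
    · rw [PvMap.src_nxt]; exact Subtype.ext e1
    · rw [PvMap.tgt_nxt]; exact Subtype.ext e2
  · refine Or.inr (Or.inr (hS _ _ ?_ ?_))
    · rw [PvMap.src_nxt2]; exact Subtype.ext e1
    · rw [PvMap.tgt_nxt2]; exact Subtype.ext e2

/-- **inside**: a point of an open triangle of `Left` has winding number `1` -/
theorem delw_del_in (c : (delPl h).toMap.Cyc) (hfin : c.Left.Finite) {z : ℂ} {d₀ : (delPl h).Dart} (hd₀ : d₀ ∈ c.Left)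
    (hz₀ : z ∈ delTo ((delPl h).toMap.src d₀ : ℂ) ((delPl h).toMap.tgt d₀ : ℂ) ((delPl h).toMap.apex d₀ : ℂ)) :
    delWn (Subtype.val : ↥Y → ℂ) c z = 1 :=
  delw_wn_in (delp_isSph h) c hfin (delw_del_pos h _) hd₀ hz₀ fun _ _ hz => delw_del_sf h hz₀ hz

/-- **outside**: a point of an open triangle of `Right` has winding number `0` -/
theorem delw_del_out (c : (delPl h).toMap.Cyc) (hfin : c.Left.Finite) {z : ℂ} {d₀ : (delPl h).Dart} (hd₀ : d₀ ∉ c.Left)
    (hz₀ : z ∈ delTo ((delPl h).toMap.src d₀ : ℂ) ((delPl h).toMap.tgt d₀ : ℂ) ((delPl h).toMap.apex d₀ : ℂ)) :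
    delWn (Subtype.val : ↥Y → ℂ) c z = 0 := by
  refine delw_wn_out (delp_isSph h) c hfin (delw_del_pos h _) fun d hd hz => hd₀ ?_
  have hA := pl_left_face c
  rcases delw_del_sf h hz₀ hz with rfl | rfl | rfl
  · exact hd
  · exact (hA _).1 hd
  · exact (hA.nxt2 _ _).1 hd

theorem delw_del_nonneg (c : (delPl h).toMap.Cyc) (hfin : c.Left.Finite) (z : ℂ) : 0 ≤ delWn (Subtype.val : ↥Y → ℂ) c z :=
  delw_wn_nonneg (delp_isSph h) c hfin (delw_del_pos h _) z

/-- a point in no closed triangle of `Left` -/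
theorem delw_del_out' (c : (delPl h).toMap.Cyc) (hfin : c.Left.Finite) {z : ℂ}
    (hz : ∀ d ∈ c.Left, z ∉ delT ((delPl h).toMap.src d : ℂ) ((delPl h).toMap.tgt d : ℂ) ((delPl h).toMap.apex d : ℂ)) :
    delWn (Subtype.val : ↥Y → ℂ) c z = 0 :=
  delw_wn_out (delp_isSph h) c hfin (delw_del_pos h _) hz

end del

end Claimed.Agent.R289
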